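import Vale.Agent.P236B.Qis
import Vale.Agent.P236N.Defs

/-!
# P236B: the comparison of the small complex with `HQ`
-/

noncomputable section

namespace Vale.Agent.P236B

open MvPolynomial Vale.Agent.P236T Vale.Agent.P236N Vale.Agent.P251.F Finset

variable {s n m r : ℕ} {u : ℤ}

/-- `z` is a cocycle of `Cx` in the class `x`. -/
def RC (x : HQ s u) (z : Cx F3 s) : Prop := ∃ y hy dy, x = H.mk y hy dy ∧ dat3.pi s y = z

namespace RC

theorem ex (x : HQ s u) : ∃ z, RC x z :=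
  let ⟨y, hy, dy, h⟩ := H.exists_rep x
  ⟨_, y, hy, dy, h, rfl⟩

theorem wt {x : HQ s u} {z : Cx F3 s} (h : RC x z) : BWt 3 u z := by
  obtain ⟨y, hy, -, -, rfl⟩ := h
  exact dat3.bWt_pi hy

theorem cyc {x : HQ s u} {z : Cx F3 s} (h : RC x z) : dB 3 s z = 0 := by
  obtain ⟨y, -, dy, -, rfl⟩ := h
  rw [← Dat.pi_d, dy, map_zero]

theorem of_cyc {z : Cx F3 s} (hz : BWt 3 u z) (dz : dB 3 s z = 0) : ∃ x : HQ s u, RC x z :=
  let ⟨y, hy, dy, h⟩ := dat3.exists_cocycle k3 (uq_zmod 3) hz dz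
  ⟨_, y, hy, dy, rfl, h⟩

theorem zero : RC (0 : HQ s u) 0 :=
  ⟨0, (Cob.wt Q3 s u).zero_mem, map_zero _, (H.mk_eq_zero.2 (zero_mem _)).symm, map_zero _⟩

theorem add {x x' : HQ s u} {z z' : Cx F3 s} (h : RC x z) (h' : RC x' z') :
    RC (x + x') (z + z') := by
  obtain ⟨y, hy, dy, rfl, rfl⟩ := h
  obtain ⟨y', hy', dy', rfl, rfl⟩ := h'
  exact ⟨_, _, _, H.mk_add hy hy' dy dy', map_add _ _ _⟩

theorem neg {x : HQ s u} {z : Cx F3 s} (h : RC x z) : RC (-x) (-z) := by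
  obtain ⟨y, hy, dy, rfl, rfl⟩ := h
  exact ⟨_, _, _, H.mk_neg hy dy, map_neg _ _⟩

theorem one : RC (H.one Q3) 1 := ⟨_, _, _, rfl, map_one _⟩

theorem cup {a : ℕ} {v w : ℤ} (hs : a + s = n) (hw : v + u = w) {x : HQ a v} {b : Cx F3 a}
    {y : HQ s u} {z : Cx F3 s} (h : RC x b) (h' : RC y z) :
    RC (H.cup hs hw x y) (cpB 3 hs b z) := by
  obtain ⟨x, hx, dx, rfl, rfl⟩ := h
  obtain ⟨y, hy, dy, rfl, rfl⟩ := h'
  exact ⟨_, _, _, H.cup_mk hs hw hx hy dx dy, dat3.pi_cp hs x y⟩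

theorem cpB_zero (b : Cx F3 0) (z : Cx F3 s) :
    cpB 3 (zero_add s) b z = cm 3 s (fun i => i) b * z := by
  rw [cpB, cm_congr 3 (g := fun i => i) fun i _ => zero_add i, cm_id]

theorem v1 {u' : ℤ} (k : 2 + u = u') {x : HQ s u} {z : Cx F3 s} (h : RC x z) :
    RC (H.cup (zero_add s) k v1 x) (C (X 0) * z) := by
  have h0 : RC P236T.v1 (C (X 0)) := ⟨_, isWt_rd isWt_v1, d_rd (d_mem_of_div three_t1), rfl, pi_v1⟩
  have h1 := cup (zero_add s) k h0 h
  rwa [cpB_zero, cm_v1] at h1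

theorem vp {u' : ℤ} (k : u + 2 * m = u') {x : HQ s u} {z : Cx F3 s} (h : RC x z) :
    RC (vp m k x) (C (X 0) ^ m * z) := by
  induction m generalizing u' with
  | zero =>
    have h1 := cup (zero_add s) (show 0 + u = u' by omega) one h
    rwa [cpB_zero, map_one, ← pow_zero (C (X 0) : Cx F3 s)] at h1
  | succ m ih =>
    rw [pow_succ', mul_assoc]
    exact v1 (by push_cast at k; omega) (ih rfl)

theorem eq_of_d {x x' : HQ (s + 1) u} {z z' : Cx F3 (s + 1)} (h : RC x z) (h' : RC x' z')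
    {y : Cx F3 s} (e : z - z' = dB 3 s y) : x = x' := by
  obtain ⟨a, ha, da, rfl, rfl⟩ := h
  obtain ⟨b, hb, db, rfl, rfl⟩ := h'
  exact H.mk_eq_mk.2 (dat3.mem_Bc_succ k3 (uq_zmod 3) (by rw [map_sub, da, db, sub_zero])
    (by rw [map_sub, e]))

theorem eq_of_zero {x x' : HQ 0 u} {z : Cx F3 0} (h : RC x z) (h' : RC x' z) : x = x' := by
  obtain ⟨a, ha, da, rfl, rfl⟩ := h
  obtain ⟨b, hb, db, rfl, e⟩ := h'
  exact H.mk_congr (sub_eq_zero.1 (dat3.eq_zero_zero k3 (by rw [map_sub, da, db, sub_zero])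
    (by rw [map_sub, e, sub_self])))

theorem exists_d {z : Cx F3 (s + 1)} (h : RC (0 : HQ (s + 1) u) z) :
    ∃ y, BWt 3 u y ∧ z = dB 3 s y := by
  have h1 := h.wt.prj 3 (w := u)
  obtain ⟨a, ha, da, e, rfl⟩ := h
  obtain ⟨y, rfl⟩ := H.mk_eq_zero.1 e.symm
  have h2 := prj_comm 3 (dB 3 s) 0 (fun k y hy => by rw [add_zero]; exact hy.dB 3) u (dat3.pi s y)
  rw [add_zero, ← Dat.pi_d, h1, if_pos rfl] at h2
  exact ⟨_, bWt_prj 3 u _, h2⟩

end RC

theorem bWt_v1 (m : ℕ) : BWt 3 (2 * m) (C (X 0) ^ m : Cx F3 s) := by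
  rw [← map_pow, bWt_C, X_pow_eq_monomial]
  intro α h
  rw [coeff_monomial] at h
  rw [← not_not.1 fun e => h (if_neg e), wE, Finsupp.weight_single]
  simp [P257.H80.wv, mul_comm]

theorem dB_v1 (z : Cx F3 s) : dB 3 s (C (X 0) ^ m * z) = C (X 0) ^ m * dB 3 s z := by
  simp only [dB_apply, map_mul, map_pow, cm_v1, Finset.mul_sum, mul_smul_comm]

/-- Division of a cocycle by `v₁ ^ m`. -/
theorem exists_div {u' : ℤ} (k : u' + 2 * m = u) {z : Cx F3 s} (hz : BWt 3 u z)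
    (dz : dB 3 s z = 0) (h : C (X 0) ^ m ∣ z) :
    ∃ (x : HQ s u') (z' : Cx F3 s), RC x z' ∧ z = C (X 0) ^ m * z' := by
  obtain ⟨y, rfl⟩ := h
  have h1 := prj_comm 3 (AddMonoidHom.mulLeft (C (X 0) ^ m : Cx F3 s)) (2 * m)
    (fun k y hy => by rw [add_comm]; exact (bWt_v1 m).mul 3 hy) u' y
  rw [AddMonoidHom.coe_mulLeft, k, hz.prj 3, if_pos rfl] at h1
  rw [h1, dB_v1] at dz
  obtain ⟨x, hx⟩ := RC.of_cyc (bWt_prj 3 u' y) ((mul_eq_zero.1 dz).resolve_left
    (pow_ne_zero _ (C_ne_zero.2 (X_ne_zero 0))))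
  exact ⟨x, _, hx, h1⟩

section up

variable {G : Type} [Fintype G] {R : Res 3 G}

/-- vectors over `A` as vectors of functions on points -/
def upv : (G → A) →+ L G 0 := (C : A →+* Cx F3 0).toAddMonoidHom.compLeft G

omit [Fintype G] in
theorem upv_apply (w : G → A) (g : G) : upv w g = C (w g) := rfl

omit [Fintype G] in
theorem upv_surj (x : L G 0) : ∃ w, upv w = x :=
  ⟨fun g => coeff 0 (x g), funext fun g => (eq_C_of_isEmpty (x g)).symm⟩

omit [Fintype G] in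
theorem upv_mem {w : G → A} : upv w ∈ Jv G m 0 ↔ Neg m w :=
  forall_congr' fun g => ⟨fun h => by simpa [upv_apply] using map_dvd constantCoeff h,
    fun h => by simpa [upv_apply] using map_dvd (C : A →+* Cx F3 0) h⟩

omit [Fintype G] in
theorem upv_wt {e : ℕ} {w : G → A} : upv w ∈ R.VW s e 0 ↔ HomW R s e w :=
  forall_congr' fun g => (bWt_C 3).trans (forall_congr' fun α => forall_congr' fun _ => by omega)

theorem univ_vert : (C : A →+* Cx F3 0).comp (vmk X) = (uP F3 0).vert 3 0 :=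
  VPt.ext fun k => (congrArg C (vmk_X _ k)).trans
    (vmk_X (B := Cx F3 0) (fun k => C (X k)) k).symm

theorem cur_toCx (y : Gam) : cur F3 0 (toCx y) = map C y := by
  have : (cur F3 0).comp toCx = MvPolynomial.map C :=
    MvPolynomial.ringHom_ext (fun a => by
      rw [RingHom.comp_apply, map_C, show toCx (C a) = C a from rename_C _ _,
        ← cm_C 3 (m := 0) (n := 1) (fun j => j) rfl, cur, evP_up 3 _ _ (Nat.zero_le 1), evP_gen,
        evP_uP]) fun k => by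
      rw [RingHom.comp_apply, map_X, show toCx (X k) = X (0, k) from rename_X _ _, cur, evP_X]
      exact congrFun (Path.gen_t 0 _) k
  exact RingHom.congr_fun this y

theorem cur_eta (c : A) : cur F3 0 (cm 3 1 (fun _ => 1) (C c : Cx F3 0)) = map C (eta c) := by
  rw [cur, evP_cm 3 _ _ fun _ _ => le_rfl, evP_C]
  refine Eq.trans ?_ (RingHom.congr_fun
    (comp_kx (R := Gam) (S := MvPolynomial ℕ (Cx F3 0)) (map C) _ _) c).symm
  have h := comp_gT 3 (S := MvPolynomial ℕ (Cx F3 0)) (map C) (vmk (X : ℕ → A))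
  rw [map_comp_C', RingHom.comp_assoc, univ_vert] at h
  simp only [map_X] at h
  rw [h, ← RingHom.comp_assoc, map_comp_C']
  exact congrArg (fun v => kx _ v c) (Path.vert_gen_succ 3 (uP F3 0) 0)

theorem upv_ac (y : Gam) (w : G → A) : upv (ac R s y w) = R.acG 1 s (toCx y) (upv w) :=
  funext fun g' => by
    rw [upv_apply, ac, map_sum, Res.acG, Res.Ψ_succ, Res.Ψ_zero, Res.Av_apply]
    refine Finset.sum_congr rfl fun g _ => ?_
    rw [al_apply, map_mul (cur _ 0), upv_apply, cur_toCx, cur_eta, ← map_mul, ← univ_vert]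
    exact act_map (C : A →+* Cx F3 0) _ _ _ _

theorem upv_dW (w : G → A) : upv (dW R s w) = R.D s 0 (upv w) := by
  rw [dW, upv_ac, map_one, Res.acG_one]

end up

namespace Res

variable {G : Type} [Fintype G] {R : Res 3 G} {N e a : ℕ}

theorem acG_add (b b' : Cx F3 a) (x : L G 0) :
    R.acG a s (b + b') x = R.acG a s b x + R.acG a s b' x := by
  rw [acG, acG, acG, ← map_add]
  exact congrArg _ (funext fun g => add_mul _ _ _)

theorem acG_sub (b : Cx F3 a) (x y : L G 0) :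
    R.acG a s b (x - y) = R.acG a s b x - R.acG a s b y := by
  rw [acG, acG, acG, ← map_sub]
  exact congrArg _ (funext fun g => by rw [Pi.sub_apply, map_sub, mul_sub, Pi.sub_apply])

theorem acG_cpB {i : ℕ} (h : a + i = n) (b : Cx F3 a) (b' : Cx F3 i) (x : L G 0) :
    R.acG n s (cpB 3 h b b') x = R.acG a (i + s) b (R.acG i s b' x) := by
  refine Eq.trans (congrArg (R.Ψ n s) (funext fun g => ?_)) (R.Ψ_mul h b _)
  rw [cpB, map_mul, mul_assoc, cm_cm']
  exact congrArg (fun y => _ * (_ * y)) (cm_congr' 3 (fun k _ => by omega) (x g))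

theorem acG_Bd (hQ : ∀ k < a + s, R.Q N k e) (hm : m ≤ N) {b : Cx F3 a} {v : ℤ} (hb : BWt 3 v b)
    (db : dB 3 a b = 0) (k : v + u = e) {y : L G 0} (hy : y ∈ R.Bd s u m) :
    R.acG a s b y ∈ R.Bd (a + s) e m := by
  obtain ⟨x, hx, h1⟩ := hy
  have h2 : R.acG a s b (y - R.Dp s 0 x) ∈ Jv G m 0 :=
    R.Ψ_mem fun g => (cm_dvd _ (h1 g)).mul_left _
  rcases s with _ | s
  · exact Bd_of_Jv (by rwa [Dp, AddMonoidHom.zero_apply, sub_zero] at h2)
  · have h3 := Jv_mono hm (D_acG (s := s) (fun k hk => hQ k (by omega)) hb db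
      (x := x) (by rwa [show (e : ℤ) - v = u by omega]))
    have h4 : R.acG a s b x ∈ R.VW (a + s) e 0 := Ψ_wt fun g => by
      convert hb.mul 3 ((hx g).cm 3 _) using 1
      simp only [Nat.add_sub_cancel]
      omega
    refine ⟨-((-1 : ℤ) ^ (a + 1) • R.acG a s b x), neg_mem (zsmul_mem h4 _), ?_⟩
    convert add_mem h2 (zsmul_mem h3 ((-1 : ℤ) ^ (a + 1))) using 1
    rw [acG_sub, smul_add, neg_one_smul_smul, map_neg, map_zsmul]
    simp only [Dp]
    abel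

theorem D_v1 {j : ℕ} (x : L G 0) :
    R.D j 0 (fun g => C (X 0) * x g) = fun g => C (X 0) * R.D j 0 x g := by
  have h := R.Av_mul (j := j) le_rfl (C (X 0) : Cx F3 0) (cv 1 (sk 0) x)
  rw [cm_v1, cm_v1] at h
  refine Eq.trans (congrArg (R.Av j 0) (funext fun g => ?_)) h
  rw [cv_apply, map_mul, cm_v1, cv_apply]

theorem v1_Bd {u' : ℤ} (k : 2 + u = u') {y : L G 0} (hy : y ∈ R.Bd s u m) :
    (fun g => C (X 0) * y g) ∈ R.Bd s u' (m + 1) := by
  obtain ⟨x, hx, h1⟩ := hy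
  refine ⟨fun g => C (X 0) * x g, fun g => ?_, fun g => ?_⟩
  · convert (bWt_v1 1).mul 3 (hx g) using 1
    · omega
    · rw [pow_one]
  · have h2 : R.Dp s 0 (fun g => C (X 0) * x g) g = C (X 0) * R.Dp s 0 x g := by
      rcases s with _ | s
      · exact (mul_zero _).symm
      · exact congrFun (D_v1 x) g
    rw [Pi.sub_apply, h2, ← mul_sub, pow_succ']
    exact mul_dvd_mul_left _ (h1 g)

theorem OkU.mono {n' e' : ℕ} (h : R.OkU N n e) (hn : n' ≤ n) (he : e' ≤ e) : R.OkU N n' e' :=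
  fun j hj => ⟨fun g'' g E hE => (h j (hj.trans hn)).1 g'' g E (hE.trans he),
    fun f hf => (h j (hj.trans hn)).2 f (hf.trans he)⟩

variable [DecidableEq G]

variable (R) in
/-- `w` represents the image of `x` in the cohomology of the small complex modulo `v₁ ^ m`. -/
def Rep (m : ℕ) {s : ℕ} {u : ℤ} (x : HQ s u) (w : G → A) : Prop :=
  ∃ z, RC x z ∧ R.Φ s z - upv w ∈ R.Bd s u m

/-- The product with any class which is given by a cocycle. -/
theorem Rep.mul {v w : ℤ} (hs : a + s = n) (hu : v + u = w) (hO : R.OkU N n e) (hm : m ≤ N)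
    (he : w = e) {x : HQ a v} {b : Cx F3 a} (hb : RC x b) {z : HQ s u} {y y' : G → A}
    (h : R.Rep m z y) (h' : upv y' = R.acG a s b (upv y)) : R.Rep m (H.cup hs hu x z) y' := by
  obtain ⟨c, h1, h2⟩ := h
  subst hs he
  refine ⟨_, hb.cup rfl hu h1, ?_⟩
  rw [Φ_cpB, h', ← acG_sub]
  exact acG_Bd (fun k hk => (hO k hk.le).1) hm hb.wt hb.cyc hu h2

end Res

open Res in
/-- **The comparison theorem.** -/
theorem cmp_of_ok {G : Type} [Fintype G] (R : Res 3 G) (M : ℕ) (T : ℕ → ℕ)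
    (h : ∀ s, R.OkU M s (T s)) : Nonempty (Cmp R M T) := by
  classical
  refine ⟨{
    Rep := R.Rep
    ex := ?_
    mono := fun hm ⟨z, h1, h2⟩ => ⟨z, h1, Bd_mono hm h2⟩
    zero := fun m s u => ⟨0, RC.zero, by simp⟩
    add := fun ⟨z, h1, h2⟩ ⟨z', h3, h4⟩ => ⟨_, h1.add h3, by
      rw [map_add, map_add, add_sub_add_comm]
      exact add_mem h2 h4⟩
    neg := fun ⟨z, h1, h2⟩ => ⟨_, h1.neg, by
      rw [map_neg, map_neg, neg_sub_neg, ← neg_sub]
      exact neg_mem h2⟩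
    one := ?_
    congr := fun ⟨z, h1, h2⟩ hw => ⟨z, h1, by
      have := add_mem h2 (Bd_of_Jv (upv_mem.2 hw))
      rwa [map_sub, sub_add_sub_cancel] at this⟩
    congr_d := ?_
    cyc := ?_
    of_zero := ?_
    v1 := ?_
    mul := ?_
    mulB := ?_
    inj := ?_
    surj := ?_ }⟩
  · rintro s e u rfl x
    obtain ⟨z, hz⟩ := RC.ex x
    obtain ⟨w, hw⟩ := upv_surj (R.Φ s z)
    exact ⟨w, upv_wt.1 (hw ▸ Φ_wt hz.wt), fun m => ⟨z, hz, by rw [hw, sub_self]; exact zero_mem _⟩⟩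
  · intro m w h1 h2
    refine ⟨1, RC.one, ?_⟩
    rw [show R.Φ 0 1 - upv w = 0 from funext fun g => ?_]
    · exact zero_mem _
    · by_cases hg : g = R.g0
      · simp [Φ, Ψ_zero, sg0, upv_apply, hg, h1]
      · simp [Φ, Ψ_zero, sg0, upv_apply, hg, h2 g hg]
  · rintro m s e u x w c rfl ⟨z, h1, h2⟩ hc
    refine ⟨z, h1, ?_⟩
    rw [map_add, ← sub_sub, upv_dW]
    exact sub_mem h2 ⟨_, upv_wt.2 hc, by simp [Dp]⟩
  · rintro m s e u x w hm he rfl ⟨z, h1, c, hc, h2⟩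
    have hO := (h s).mono le_rfl he
    have h3 := Jv_mono hm (Φ_dB (fun k hk => (hO k hk.le).1) h1.wt)
    have h4 : R.D s 0 (R.Dp s 0 c) ∈ Jv G m 0 := by
      rcases s with _ | s
      · simp [Dp]
      · exact Jv_mono hm (D_D (hO s s.le_succ).1 hc)
    rw [h1.cyc, map_zero, zero_sub] at h3
    rw [← upv_mem, upv_dW]
    convert sub_mem (sub_mem (neg_mem h3) h4) (R.D_mem (j := s) h2) using 1
    rw [map_sub, map_sub]
    abel
  · rintro m s e u w hm he rfl ⟨z, h1, c, hc, h2⟩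
    have hO := (h (s + 1)).mono le_rfl he
    obtain ⟨y, hy, rfl⟩ := h1.exists_d
    have h3 := Jv_mono hm (Φ_dB (fun k hk => (hO k (by omega)).1) hy)
    obtain ⟨c', hc'⟩ := upv_surj (R.Φ s y - c)
    refine ⟨c', upv_wt.1 (hc' ▸ sub_mem (Φ_wt hy) hc), upv_mem.1 ?_⟩
    convert sub_mem h3 h2 using 1
    rw [map_sub, upv_dW, hc', map_sub, Dp]
    abel
  · rintro m s u u' k x w ⟨z, h1, h2⟩
    refine ⟨_, h1.v1 k, ?_⟩
    convert v1_Bd k h2 using 1
    have h3 := R.Φ_cpB (zero_add s) (C (X 0)) z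
    rw [RC.cpB_zero, cm_v1] at h3
    funext g
    rw [h3, Pi.sub_apply, Pi.sub_apply, mul_sub, acG, Ψ_zero, upv_apply, upv_apply, Pi.smul_apply,
      smul_eq_mul, map_mul, cm_congr 3 (g := fun i => i) fun i hi => by omega, cm_id]
  · rintro m s n e f u v r hs hu x y z w hm he rfl rfl hx hz
    exact Rep.mul hs hu ((h n).mono le_rfl he) hm (by omega) hx hz (upv_ac y w)
  · rintro m s n e f u v r hs hu x τ z w hm he rfl rfl - - hx hz
    refine Rep.mul hs hu ((h n).mono le_rfl he) hm (by omega) hx hz ?_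
    rw [acB, map_add, upv_ac, upv_ac, upv_ac, upv_ac, acG_add, acG_cpB, acG_cpB, Nat.add_comm 1 s]
  · rintro m s e u u' k x hm he rfl ⟨z, h1, h2⟩
    rw [map_zero, sub_zero] at h2
    rcases s with _ | s
    · obtain ⟨x', z', h3, rfl⟩ := exists_div k h1.wt h1.cyc (Φ_inj_zero h2)
      exact ⟨x', h1.eq_of_zero (h3.vp k)⟩
    · obtain ⟨y, hy, h3⟩ := Φ_inj ((h (s + 1)).mono s.le_succ he) hm h1.wt
        (by rw [h1.cyc]; exact dvd_zero _) h2
      obtain ⟨x', z', h4, h5⟩ := exists_div k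
        (by rw [sub_eq_add_neg]; exact h1.wt.add 3 ((hy.dB 3).neg 3))
        (by rw [map_sub, h1.cyc, dat3.dB_dB k3 (uq_zmod 3), sub_zero]) h3
      exact ⟨x', h1.eq_of_d (h4.vp k) (y := y) (by rw [← h5, sub_sub_cancel])⟩
  · rintro r s e u u' u'' k w hr he rfl k' hw hd hx
    obtain ⟨z, hz, h1, h2⟩ := Φ_surj ((h s).mono le_rfl he) le_rfl (upv_wt.2 hw)
      (by rw [← upv_dW]; exact upv_mem.2 hd)
    obtain ⟨x', z', h3, h4⟩ := exists_div k' (hz.dB 3) (dat3.dB_dB k3 (uq_zmod 3) z) h1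
    have h5 := h3.vp k
    rw [hx] at h5
    obtain ⟨y, hy, h6⟩ := h5.exists_d
    have h7 : BWt 3 e (C (X 0) ^ (M - r) * y) := by
      convert (bWt_v1 (M - r)).mul 3 hy using 1
      omega
    obtain ⟨x, h8⟩ := RC.of_cyc (z := z - C (X 0) ^ (M - r) * y)
      (by rw [sub_eq_add_neg]; exact hz.add 3 (h7.neg 3))
      (by rw [map_sub, dB_v1, ← h6, ← mul_assoc, ← pow_add, Nat.sub_add_cancel hr, h4, sub_self])
    refine ⟨x, _, h8, ?_⟩
    rw [map_sub, sub_right_comm]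
    exact sub_mem (Bd_mono (Nat.sub_le M r) h2) (Bd_of_Jv (Φ_mem (dvd_mul_right _ _)))

end Vale.Agent.P236B

end
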