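import Vale.Agent.P236B.Res

/-!
# P236B: the columns of the double complex are exact
-/

noncomputable section

namespace Vale.Agent.P236B

open Vale.Agent.P257.H80 MvPolynomial Vale.Agent.P236T Finset

section lead

variable (p : ℕ) [hp : Fact p.Prime] {K B : Type} [CommRing K] [CommRing B] [ZP p K] [ZP p B]
  {e : ℤ} {a : Fn K}

theorem FW.coeff_op (ha : FW p e a) {E E' α : ℕ →₀ ℕ}
    (h : coeff α (coeff E' (op p a C (vmk X) (monomial E 1))) ≠ 0) :
    (wE p α : ℤ) + wE p E' + e = wE p E := by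
  have h1 : BWt p 0 (1 : Cx K 0) := fun _ _ _ _ _ => by simp
  have h2 := (((h1.unc p E).cm p (n := 2) (sk 1)).al p ha).coeff_cur p E'
  have h3 := op_map p (C : _ →+* Cx K 0) a C (vmk X) (monomial E 1)
  have h4 : (C : _ →+* Cx K 0).comp (vmk X) = (uP K 0).vert p 0 :=
    VPt.ext fun k => (congrArg C (vmk_X _ k)).trans
      (vmk_X (B := Cx K 0) (fun k => C (X k)) k).symm
  rw [map_monomial, C_1, h4] at h3
  rw [cur_al_face, cur_unc, kap, ← h3, coeff_map] at h2
  have := (bWt_C p).1 h2 α h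
  omega

theorem FW.conv {e' : ℤ} {b : Fn K} (hb : FW p e' b) (ha : FW p e a) :
    FW p (e' + e) (conv p b a) := fun E α h => by
  rw [P236B.conv, act_apply, kx_univ, coeff_sum] at h
  obtain ⟨E', -, h1⟩ := Finset.exists_ne_zero_of_sum_ne_zero h
  rw [coeff_mul] at h1
  obtain ⟨⟨β, γ⟩, h2, h3⟩ := Finset.exists_ne_zero_of_sum_ne_zero h1
  have h4 := ha.coeff_op p (left_ne_zero_of_mul h3)
  have h5 := hb E' γ (right_ne_zero_of_mul h3)
  dsimp only at h4
  have h6 : wE p α = wE p β + wE p γ := by rw [← mem_antidiagonal.1 h2, wE, map_add]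
  omega

theorem wE_eq_zero {α : ℕ →₀ ℕ} (h : wE p α = 0) : α = 0 := by
  ext i
  have h1 := Finsupp.le_weight (wv p) (s := i) (by
    have : 1 < p ^ (i + 1) := Nat.one_lt_pow (Nat.succ_ne_zero i) hp.out.one_lt
    unfold wv
    omega) α
  exact Nat.le_zero.1 (h ▸ h1)

omit hp [ZP p K] [ZP p B] in
theorem kx_zero (κ : K →+* B) (y : MvPolynomial ℕ K) : kx κ (vmk 0) y = κ (coeff 0 y) := by
  have : kx κ (vmk 0) = κ.comp constantCoeff :=
    MvPolynomial.ringHom_ext (fun a => by simp) fun k => by simp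
  rw [this]
  rfl

theorem coeff_op_monomial (κ : K →+* B) (v : VPt B) (E E' : ℕ →₀ ℕ) (b : B) :
    coeff E' (op p a κ v (monomial E b)) =
      b * kx κ v (coeff E' (op p a C (vmk X) (monomial E 1))) := by
  rw [← coeff_map, op_map, kx_comp_C, kx_comp_vmk, map_monomial, map_one, ← smul_eq_mul,
    ← coeff_smul, ← map_smul, smul_monomial, smul_eq_mul, mul_one]

theorem FW.lead (ha : FW p e a) (κ : K →+* B) (v : VPt B) {E' : ℕ →₀ ℕ} {f : MvPolynomial ℕ B}
    (h : ∀ E, coeff E f ≠ 0 → (wE p E : ℤ) ≤ wE p E' + e) :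
    coeff E' (op p a κ v f) = coeff E' (op p a κ (vmk 0) f) := by
  rw [f.as_sum, map_sum, map_sum, coeff_sum, coeff_sum]
  refine Finset.sum_congr rfl fun E hE => ?_
  have h1 : coeff E' (op p a C (vmk X) (monomial E 1)) =
      C (coeff 0 (coeff E' (op p a C (vmk X) (monomial E 1)))) := by
    ext α
    rw [coeff_C]
    split_ifs with h2
    · rw [h2]
    · by_contra h3
      have h4 := ha.coeff_op p h3
      have h5 := h E (mem_support_iff.1 hE)
      exact h2 (wE_eq_zero p (by omega)).symm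
  rw [coeff_op_monomial p κ v, coeff_op_monomial p κ (vmk 0), h1, kx_C, kx_C]

theorem FW.coeff_zero (ha : FW p e a) (κ : K →+* B) {E' : ℕ →₀ ℕ} {f : MvPolynomial ℕ B}
    (h : ∀ E, coeff E f ≠ 0 → (wE p E : ℤ) ≠ wE p E' + e) :
    coeff E' (op p a κ (vmk 0) f) = 0 := by
  rw [f.as_sum, map_sum, coeff_sum]
  refine Finset.sum_eq_zero fun E hE => ?_
  have h2 : coeff 0 (coeff E' (op p a C (vmk X) (monomial E 1))) = 0 := by
    by_contra h3
    have h4 := ha.coeff_op p h3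
    have h5 := h E (mem_support_iff.1 hE)
    rw [wE, map_zero] at h4
    omega
  rw [coeff_op_monomial p κ (vmk 0), kx_zero, h2, map_zero, mul_zero]

end lead

section bc

variable {F B G : Type} [Field F] [CommRing B] [Fintype G] [DecidableEq G] (κ : F →+* B)

theorem exists_inner {V W : Type} [AddCommGroup V] [Module F V] [AddCommGroup W] [Module F W]
    (f : V →ₗ[F] W) : ∃ g : W →ₗ[F] V, ∀ x, f (g (f x)) = f x := by
  obtain ⟨s, hs⟩ := f.rangeRestrict.exists_rightInverse_of_surjective f.range_rangeRestrict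
  obtain ⟨q, hq⟩ := (LinearMap.range f).subtype.exists_leftInverse_of_injective
    (Submodule.ker_subtype _)
  refine ⟨s ∘ₗ q, fun x => ?_⟩
  have h1 : q (f x) = ⟨f x, x, rfl⟩ := LinearMap.congr_fun hq ⟨f x, x, rfl⟩
  rw [LinearMap.comp_apply, h1]
  exact congrArg Subtype.val (LinearMap.congr_fun hs ⟨f x, x, rfl⟩)

/-- extension of coefficients -/
def mv (x : G → MvPolynomial ℕ F) : G → MvPolynomial ℕ B := fun g => map κ (x g)

/-- base change of a linear map -/
def bc (φ : (G → MvPolynomial ℕ F) →ₗ[F] G → MvPolynomial ℕ F) :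
    (G → MvPolynomial ℕ B) →ₗ[B] G → MvPolynomial ℕ B :=
  ∑ g, ((basisMonomials ℕ B).constr B fun E => mv κ (φ (Pi.single g (monomial E 1)))) ∘ₗ
    LinearMap.proj g

omit [Field F] in
theorem vec_eq_sum (y : G → MvPolynomial ℕ B) : y = ∑ g, ∑ E ∈ (y g).support,
    coeff E (y g) • (Pi.single g (monomial E 1) : G → MvPolynomial ℕ B) := by
  conv_lhs => rw [← Finset.univ_sum_single y]
  refine Finset.sum_congr rfl fun g _ => ?_
  conv_lhs => rw [(y g).as_sum, ← LinearMap.single_apply B, map_sum]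
  refine Finset.sum_congr rfl fun E _ => ?_
  rw [← LinearMap.single_apply B, ← map_smul, smul_monomial, smul_eq_mul, mul_one]

omit [Fintype G] in
theorem mv_single (g : G) (E : ℕ →₀ ℕ) :
    mv κ (Pi.single g (monomial E 1)) = Pi.single g (monomial E 1) := funext fun g' => by
  rw [mv, Pi.apply_single (fun _ => map κ) (fun _ => map_zero _), map_monomial, map_one]

theorem bc_single (φ : (G → MvPolynomial ℕ F) →ₗ[F] G → MvPolynomial ℕ F) (g : G)
    (E : ℕ →₀ ℕ) : bc κ φ (Pi.single g (monomial E 1)) = mv κ (φ (Pi.single g (monomial E 1))) := by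
  rw [bc, LinearMap.sum_apply, Finset.sum_eq_single g (fun g' _ h => by
    rw [LinearMap.comp_apply, LinearMap.proj_apply, Pi.single_eq_of_ne h, map_zero]) (by simp),
    LinearMap.comp_apply, LinearMap.proj_apply, Pi.single_eq_same]
  have h := (basisMonomials ℕ B).constr_basis B
    (fun E => mv κ (φ (Pi.single g (monomial E 1)))) E
  rwa [coe_basisMonomials] at h

omit [Fintype G] [DecidableEq G] in
theorem mv_sum_smul {ι : Type} (s : Finset ι) (c : ι → F) (x : ι → G → MvPolynomial ℕ F) :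
    mv κ (∑ i ∈ s, c i • x i) = ∑ i ∈ s, κ (c i) • mv κ (x i) := funext fun g => by
  simp only [mv, Finset.sum_apply, Pi.smul_apply, map_sum, smul_eq_C_mul, map_mul, map_C]

theorem bc_mv (φ : (G → MvPolynomial ℕ F) →ₗ[F] G → MvPolynomial ℕ F)
    (x : G → MvPolynomial ℕ F) : bc κ φ (mv κ x) = mv κ (φ x) := by
  rw [vec_eq_sum x, Finset.sum_sigma', map_sum]
  simp only [map_smul]
  rw [mv_sum_smul, mv_sum_smul, map_sum]
  exact Finset.sum_congr rfl fun _ _ => by rw [map_smul, mv_single, bc_single]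

/-- the span of the vectors of `V` with coefficients in `S` -/
def Sp (S : AddSubgroup B) (V : Submodule F (G → MvPolynomial ℕ F)) :
    AddSubgroup (G → MvPolynomial ℕ B) := AddSubgroup.closure {y | ∃ b ∈ S, ∃ x ∈ V, y = b • mv κ x}

/-- Exactness persists under base change. -/
theorem bc_exact {S : AddSubgroup B} {V V' : Submodule F (G → MvPolynomial ℕ F)}
    {d₁ d₂ : (G → MvPolynomial ℕ F) →ₗ[F] G → MvPolynomial ℕ F}
    (h : ∀ x ∈ V, d₂ x = 0 → ∃ k ∈ V', d₁ k = x) {y : G → MvPolynomial ℕ B} (hy : y ∈ Sp κ S V)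
    {u : B} {y' : G → MvPolynomial ℕ B} (hd : bc κ d₂ y = u • y') :
    ∃ k ∈ Sp κ S V', bc κ d₁ k ∈ Sp κ S V ∧ ∃ z, y - bc κ d₁ k = u • z := by
  obtain ⟨g₁, h1⟩ := exists_inner (d₁ ∘ₗ V'.subtype)
  obtain ⟨g₂, h2⟩ := exists_inner (d₂ ∘ₗ V.subtype)
  let φ := V.subtype ∘ₗ g₂
  let ψ := V'.subtype ∘ₗ g₁ ∘ₗ (LinearMap.id - φ ∘ₗ d₂)
  have h3 : ∀ x ∈ V, d₁ (ψ x) = x - φ (d₂ x) := fun x hx => by
    obtain ⟨k, hk, e⟩ := h (x - φ (d₂ x)) (sub_mem hx (g₂ _).2) (by
      rw [map_sub, sub_eq_zero]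
      exact (h2 ⟨x, hx⟩).symm)
    have h4 : d₁ (g₁ (d₁ k)) = d₁ k := h1 ⟨k, hk⟩
    rwa [e] at h4
  have h4 : bc κ ψ y ∈ Sp κ S V' ∧ bc κ d₁ (bc κ ψ y) ∈ Sp κ S V ∧
      y - bc κ d₁ (bc κ ψ y) = bc κ φ (bc κ d₂ y) := by
    clear hd
    induction hy using AddSubgroup.closure_induction with
    | mem y hy =>
      obtain ⟨b, hb, x, hx, rfl⟩ := hy
      simp only [map_smul, bc_mv, h3 x hx]
      refine ⟨AddSubgroup.subset_closure ⟨b, hb, _, (g₁ _).2, rfl⟩,
        AddSubgroup.subset_closure ⟨b, hb, _, sub_mem hx (g₂ _).2, rfl⟩, funext fun g => ?_⟩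
      simp [mv, smul_sub]
    | zero => simp
    | add x y _ _ hx hy =>
      simp only [map_add]
      exact ⟨add_mem hx.1 hy.1, add_mem hx.2.1 hy.2.1, by rw [← hx.2.2, ← hy.2.2]; abel⟩
    | neg x _ hx =>
      simp only [map_neg]
      exact ⟨neg_mem hx.1, neg_mem hx.2.1, by rw [← hx.2.2]; abel⟩
  exact ⟨_, h4.1, h4.2.1, bc κ φ y', by rw [h4.2.2, hd, map_smul]⟩

end bc

namespace Res

variable {G : Type} [Fintype G] [DecidableEq G] {R : Res 3 G} {i j r N e : ℕ} {w : ℤ}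

variable (R) in
/-- homogeneous vectors modulo all `v_i` -/
def PV (j e : ℕ) : Submodule (ZMod 3) (G → MvPolynomial ℕ (ZMod 3)) where
  carrier := {c | R.PW j e c}
  zero_mem' _ _ h := absurd rfl h
  add_mem' {x y} hx hy g E h := by
    by_contra h1
    exact h (by rw [Pi.add_apply, coeff_add, not_not.1 (mt (hx g E) h1),
      not_not.1 (mt (hy g E) h1), add_zero])
  smul_mem' c x hx g E h := hx g E (right_ne_zero_of_mul (by rwa [← smul_eq_mul, ← coeff_smul]))

variable (R) in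
/-- the differential at a point -/
def DB {B : Type} [CommRing B] [ZP 3 B] (j : ℕ) (κ : ZMod 3 →+* B) (v : VPt B) :
    (G → MvPolynomial ℕ B) →ₗ[B] G → MvPolynomial ℕ B :=
  LinearMap.pi fun g' => ∑ g, op 3 (R.a j g' g) κ v ∘ₗ LinearMap.proj g

omit [DecidableEq G] in
theorem DB_apply {B : Type} [CommRing B] [ZP 3 B] (κ : ZMod 3 →+* B) (v : VPt B)
    (f : G → MvPolynomial ℕ B) (g' : G) :
    R.DB j κ v f g' = ∑ g, op 3 (R.a j g' g) κ v (f g) := by
  rw [DB, LinearMap.pi_apply, LinearMap.sum_apply]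
  rfl

omit [DecidableEq G] in
theorem DB_zero (c : G → MvPolynomial ℕ (ZMod 3)) :
    R.DB j (RingHom.id _) (vmk 0) c = R.D0 j c := funext fun _ => DB_apply _ _ _ _

theorem bc_DB {B : Type} [CommRing B] [ZP 3 B] (κ : ZMod 3 →+* B) (f : G → MvPolynomial ℕ B) :
    bc κ (R.DB j (RingHom.id _) (vmk 0)) f = R.DB j κ (vmk 0) f := by
  rw [vec_eq_sum f, map_sum, map_sum]
  refine Finset.sum_congr rfl fun g _ => ?_
  rw [map_sum, map_sum]
  refine Finset.sum_congr rfl fun E _ => ?_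
  rw [map_smul, map_smul, bc_single, ← mv_single κ]
  refine congrArg _ (funext fun g' => ?_)
  have h : κ.comp (vmk 0) = vmk 0 := VPt.ext fun k => by simp
  simp only [mv, DB_apply, map_sum, op_map, h, RingHom.comp_id]

omit [DecidableEq G] in
theorem cur_D (c : L G (i + 1)) (g' : G) : cur _ i (R.D j (i + 1) c g') =
    R.DB j (kap _ i) ((uP _ i).vert 3 i) (fun g => cur _ i (c g)) g' := by
  rw [D_apply, Av_apply, map_sum, DB_apply]
  exact Finset.sum_congr rfl fun g _ => cur_al_face 3 _ _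

/-- homogeneous functions -/
def BW (w : ℤ) (n : ℕ) : AddSubgroup (Cx (ZMod 3) n) where
  carrier := {c | BWt 3 w c}
  zero_mem' := BWt.zero 3 _
  add_mem' hx hy := hx.add 3 hy
  neg_mem' hx := hx.neg 3

omit [Fintype G] [DecidableEq G] in
theorem of_mem_Sp {y : G → MvPolynomial ℕ (Cx (ZMod 3) i)}
    (hy : y ∈ Sp (kap _ i) (BW w i) (R.PV j e)) (g : G) (E : ℕ →₀ ℕ) :
    BWt 3 w (coeff E (y g)) ∧ (wE 3 E + R.deg j g ≠ e → coeff E (y g) = 0) := by
  induction hy using AddSubgroup.closure_induction with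
  | mem y hy =>
    obtain ⟨b, hb, x, hx, rfl⟩ := hy
    rw [Pi.smul_apply, coeff_smul, mv, coeff_map, smul_eq_mul]
    refine ⟨fun S _ κ c u => ?_, fun h => by rw [not_not.1 (mt (hx g E) h), map_zero, mul_zero]⟩
    rw [map_mul, map_mul, hb, mul_assoc, ← RingHom.comp_apply _ (kap _ i),
      ← RingHom.comp_apply _ (kap _ i), evP_kap, evP_kap]
  | zero => exact ⟨BWt.zero 3 _, fun _ => rfl⟩
  | add x y _ _ hx hy =>
    rw [Pi.add_apply, coeff_add]
    exact ⟨hx.1.add 3 hy.1, fun h => by rw [hx.2 h, hy.2 h, add_zero]⟩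
  | neg x _ hx =>
    rw [Pi.neg_apply, coeff_neg]
    exact ⟨hx.1.neg 3, fun h => by rw [hx.2 h, neg_zero]⟩

omit [Fintype G] [DecidableEq G] in
theorem unc_wt {y : G → MvPolynomial ℕ (Cx (ZMod 3) i)}
    (hy : y ∈ Sp (kap _ i) (BW (w - e) i) (R.PV j e)) :
    (fun g => unc 3 i (y g)) ∈ R.VW j w (i + 1) := fun g => by
  beta_reduce
  rw [(y g).as_sum, map_sum]
  refine BWt.sum 3 fun E hE => ?_
  have h1 := of_mem_Sp hy g E
  have h2 := not_not.1 (mt h1.2 (mem_support_iff.1 hE))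
  convert h1.1.unc 3 E using 1
  omega

variable (R) in
/-- the weight in the last arrow is smaller than `e` -/
def TW (j e : ℕ) (c : L G (i + 1)) : Prop :=
  ∀ g E, e ≤ wE 3 E + R.deg j g → coeff E (cur _ i (c g)) = 0

variable (R) in
/-- the previous differential -/
def Dp : ∀ (_ i : ℕ), L G i →+ L G i
  | 0, _ => 0
  | j + 1, i => R.D j i

theorem col_step (h0 : j = 0 → 0 < e) (hX : R.Xc j e) {c : L G (i + 1)}
    (hc : c ∈ R.VW j w (i + 1)) (ht : R.TW j (e + 1) c) (hd : R.D j (i + 1) c ∈ Jv G r (i + 1)) :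
    ∃ k ∈ R.VW (j - 1) w (i + 1), ∃ c' ∈ R.VW j w (i + 1), R.TW j e c' ∧
      c - R.Dp j (i + 1) k - c' ∈ Jv G r (i + 1) := by
  let y : G → MvPolynomial ℕ (Cx (ZMod 3) i) := fun g =>
    ∑ E ∈ (cur _ i (c g)).support with wE 3 E + R.deg j g = e, monomial E (coeff E (cur _ i (c g)))
  have h1 : ∀ g E, coeff E (y g) =
      if wE 3 E + R.deg j g = e then coeff E (cur _ i (c g)) else 0 := fun g E => by
    simp only [y, coeff_sum, coeff_monomial, Finset.sum_ite_eq', Finset.mem_filter,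
      mem_support_iff]
    by_cases h : coeff E (cur _ i (c g)) = 0 <;> simp [h]
  have h2 : y ∈ Sp (kap _ i) (BW (w - e) i) (R.PV j e) := by
    rw [vec_eq_sum y]
    refine sum_mem fun g _ => sum_mem fun E hE => AddSubgroup.subset_closure ?_
    have h3 := mem_support_iff.1 hE
    rw [h1] at h3 ⊢
    have h4 : wE 3 E + R.deg j g = e := by_contra fun h => h3 (if_neg h)
    refine ⟨_, ?_, Pi.single g (monomial E 1), fun g' E' h => ?_, by rw [mv_single]⟩
    · rw [if_pos h4]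
      change BWt 3 _ _
      convert (hc g).coeff_cur 3 E using 1
      omega
    · obtain rfl : g' = g := by_contra fun h5 => h (by rw [Pi.single_eq_of_ne h5, coeff_zero])
      rw [Pi.single_eq_same, coeff_monomial] at h
      obtain rfl : E = E' := by_contra fun h5 => h (if_neg h5)
      exact h4
  have h3 : ∀ g' E', (C (X 0) : Cx (ZMod 3) i) ^ r ∣
      coeff E' (R.DB j (kap _ i) (vmk 0) y g') := fun g' E' => by
    by_cases h : wE 3 E' + R.deg (j + 1) g' = e
    · have h4 : coeff E' (R.DB j (kap _ i) (vmk 0) y g') =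
          coeff E' (cur _ i (R.D j (i + 1) c g')) := by
        rw [cur_D, DB_apply, DB_apply, coeff_sum, coeff_sum]
        refine Finset.sum_congr rfl fun g _ => ?_
        rw [(R.hom j g' g).lead 3 _ ((uP _ i).vert 3 i) fun E hE => by
          have := mt (ht g E) hE
          omega, eq_comm, ← sub_eq_zero, ← coeff_sub, ← map_sub]
        refine (R.hom j g' g).coeff_zero 3 _ fun E hE h5 => hE ?_
        rw [coeff_sub, h1, if_pos (by omega), sub_self]
      obtain ⟨z, hz⟩ := hd g'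
      have h5 : cur (ZMod 3) i (C (X 0)) = C (C (X 0)) := by
        rw [← cm_v1 (m := i) (n := i + 1) fun k => k, cur, evP_up 3 _ _ i.le_succ, evP_gen, evP_uP]
      rw [h4, hz, map_mul, map_pow, h5, ← C_pow (C (X 0) : Cx (ZMod 3) i), coeff_C_mul]
      exact dvd_mul_right _ _
    · rw [DB_apply, coeff_sum, Finset.sum_eq_zero fun g _ =>
        (R.hom j g' g).coeff_zero 3 _ fun E hE h5 => hE (by rw [h1, if_neg (by omega)])]
      exact dvd_zero _
  choose y' hy' using fun g' => (C_dvd_iff_dvd_coeff _ _).2 (h3 g')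
  have h4 : bc (kap _ i) (R.DB j (RingHom.id _) (vmk 0)) y =
      ((C (X 0) : Cx (ZMod 3) i) ^ r) • y' := by
    rw [bc_DB]
    exact funext fun g => (hy' g).trans (smul_eq_C_mul _ _).symm
  have h5 : ∀ {k z : G → MvPolynomial ℕ (Cx (ZMod 3) i)} {c₁ : L G (i + 1)},
      k ∈ Sp (kap _ i) (BW (w - e) i) (R.PV j e) → c₁ ∈ R.VW j w (i + 1) →
      y - k = ((C (X 0) : Cx (ZMod 3) i) ^ r) • z →
      (∀ g E, e ≤ wE 3 E + R.deg j g → coeff E (cur _ i (c₁ g)) = coeff E (k g)) →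
      ∃ c' ∈ R.VW j w (i + 1), R.TW j e c' ∧ c - c₁ - c' ∈ Jv G r (i + 1) := by
    intro k z c₁ hk h6 h7 h8
    refine ⟨c - c₁ - fun g => unc 3 i ((y - k) g),
      sub_mem (sub_mem hc h6) (unc_wt (sub_mem h2 hk)), fun g E hE => ?_, fun g => ?_⟩
    · rw [Pi.sub_apply, Pi.sub_apply, map_sub, map_sub, cur_unc, Pi.sub_apply, coeff_sub,
        coeff_sub, coeff_sub, h8 g E hE, h1]
      split_ifs with h9
      · exact sub_self _
      · rw [ht g E (by omega), sub_self]
    · rw [sub_sub_cancel, h7, Pi.smul_apply, smul_eq_C_mul, map_mul, unc, eval₂Hom_C, map_pow,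
        cm_v1]
      exact dvd_mul_right _ _
  rcases j with _ | j
  · obtain ⟨k, -, -, z, hz⟩ := bc_exact (kap _ i) (V' := ⊥) (d₁ := 0)
      (fun x hx hd => ⟨0, zero_mem _, (hX (h0 rfl) x hx ((DB_zero x).symm.trans hd)).symm⟩) h2 h4
    have h6 : bc (kap (ZMod 3) i) (0 : (G → _) →ₗ[_] G → _) k = 0 := by
      rw [vec_eq_sum k]
      simp only [map_sum, map_smul, bc_single, LinearMap.zero_apply]
      exact Finset.sum_eq_zero fun g _ => Finset.sum_eq_zero fun E _ => funext fun g => by simp [mv]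
    rw [h6] at hz
    exact ⟨0, zero_mem _, h5 (zero_mem _) (zero_mem _) hz fun g E _ => by simp [Dp]⟩
  · obtain ⟨k, hk, hk', z, hz⟩ := bc_exact (kap _ i) (V' := R.PV j e)
      (d₁ := R.DB j (RingHom.id _) (vmk 0)) (fun x hx hd => by
        simp only [DB_zero]
        exact hX x hx ((DB_zero x).symm.trans hd)) h2 h4
    refine ⟨_, unc_wt hk, h5 hk' (D_wt (unc_wt hk)) hz fun g' E' hE => ?_⟩
    rw [bc_DB, Dp, cur_D, DB_apply, DB_apply, coeff_sum, coeff_sum]
    refine Finset.sum_congr rfl fun g _ => ?_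
    rw [cur_unc]
    refine (R.hom j g' g).lead 3 _ _ fun E hE => ?_
    have := not_not.1 (mt (of_mem_Sp hk g E).2 hE)
    omega

theorem col_ind (hr : r ≤ N) {e₀ : ℕ} (h0 : j = 0 → 0 < e₀) (hX : ∀ e' ≤ e, R.Xc j e')
    (hQ : ∀ k < j, R.Q N k e) (l : ℕ) (hl : e₀ + l ≤ e + 1) {c : L G (i + 1)}
    (hc : c ∈ R.VW j e (i + 1)) (ht : R.TW j (e₀ + l) c)
    (hd : R.D j (i + 1) c ∈ Jv G r (i + 1)) :
    ∃ k ∈ R.VW (j - 1) e (i + 1), ∃ c' ∈ R.VW j e (i + 1), R.TW j e₀ c' ∧
      c - R.Dp j (i + 1) k - c' ∈ Jv G r (i + 1) := by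
  induction l generalizing c with
  | zero => exact ⟨0, zero_mem _, c, hc, ht, by simp⟩
  | succ l ih =>
    obtain ⟨k, hk, c', h1, h2, h3⟩ := col_step (fun h => by have := h0 h; omega)
      (hX (e₀ + l) (by omega)) hc ht hd
    have h4 : R.D j (i + 1) (R.Dp j (i + 1) k) ∈ Jv G r (i + 1) := by
      rcases j with _ | j
      · simp [Dp]
      · exact Jv_mono hr (D_D (hQ j j.lt_succ_self) hk)
    obtain ⟨k', hk', c'', h5, h6, h7⟩ := ih (by omega) h1 h2 (by
      have h8 := sub_mem (sub_mem hd h4) (R.D_mem (j := j) h3)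
      rwa [map_sub, map_sub, sub_sub_cancel] at h8)
    refine ⟨k + k', add_mem hk hk', c'', h5, h6, ?_⟩
    convert add_mem h3 h7 using 1
    rw [map_add]
    abel

omit [Fintype G] [DecidableEq G] in
theorem TW_of_wt {c : L G (i + 1)} (hc : c ∈ R.VW j e (i + 1)) : R.TW j (e + 1) c :=
  fun g E h => ((hc g).coeff_cur 3 E).eq_zero 3 (by omega)

/-- **Exactness of the columns.** -/
theorem col (hr : r ≤ N) (hX : ∀ e' ≤ e, R.Xc (j + 1) e') (hQ : ∀ k ≤ j, R.Q N k e)
    {c : L G (i + 1)} (hc : c ∈ R.VW (j + 1) e (i + 1))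
    (hd : R.D (j + 1) (i + 1) c ∈ Jv G r (i + 1)) :
    ∃ k ∈ R.VW j e (i + 1), c - R.D j (i + 1) k ∈ Jv G r (i + 1) := by
  obtain ⟨k, hk, c', -, h1, h2⟩ := col_ind hr (e₀ := 0) (fun h => absurd h j.succ_ne_zero) hX
    (fun k hk => hQ k (by omega)) (e + 1) (by omega) hc (by rw [zero_add]; exact TW_of_wt hc) hd
  have h3 : c' = 0 := funext fun g => by
    rw [← unc_cur 3 (c' g), show cur _ i (c' g) = 0 from
      MvPolynomial.ext _ _ fun E => h1 g E (Nat.zero_le _), map_zero]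
    rfl
  exact ⟨k, hk, by rwa [h3, sub_zero] at h2⟩

/-- **The kernel in stage zero.** -/
theorem col_zero (hX : ∀ e' ≤ e, R.Xc 0 e') {c : L G (i + 1)} (hc : c ∈ R.VW 0 e (i + 1))
    (hd : R.D 0 (i + 1) c ∈ Jv G r (i + 1)) : ∃ z, BWt 3 e z ∧
      c - cv (i + 1) (fun k => k) (Pi.single R.g0 z : L G i) ∈ Jv G r (i + 1) := by
  obtain ⟨k, -, c', h0, h1, h2⟩ := col_ind le_rfl (e₀ := 1) (fun _ => one_pos) hX
    (fun k hk => absurd hk k.not_lt_zero) e (by omega) hc
    (by rw [Nat.add_comm]; exact TW_of_wt hc) hd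
  have h4 := (R.deg_zero R.g0).2 rfl
  refine ⟨coeff 0 (cur _ i (c' R.g0)), by simpa [h4] using (h0 R.g0).coeff_cur 3 0, ?_⟩
  have h3 : cv (i + 1) (fun k => k) (Pi.single R.g0 (coeff 0 (cur _ i (c' R.g0))) : L G i) =
      c' := funext fun g => by
    rw [← unc_cur 3 (c' g), cv_apply]
    refine (eval₂Hom_C _ _ _).symm.trans (congrArg (unc 3 i) (MvPolynomial.ext _ _ fun E => ?_))
    rw [coeff_C]
    split_ifs with h5
    · subst h5
      by_cases h6 : g = R.g0
      · rw [h6, Pi.single_eq_same]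
      · have := mt (R.deg_zero g).1 h6
        rw [Pi.single_eq_of_ne h6, h1 g 0 (by omega)]
    · have := mt (wE_eq_zero 3 (α := E)) (Ne.symm h5)
      rw [h1 g E (by omega)]
  rw [h3]
  simpa [Dp] using h2

end Res

end Vale.Agent.P236B

end
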