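import Vale.Agent.P236B.Wt

/-!
# P236B: natural functionals on the functions of an arrow

A functional is given by its values on the monomials `t ^ E`. It acts on `B[t]` for every point `v`
of `B`; `op` is the associated invariant operator and `conv` the convolution product.
-/

noncomputable section

namespace Vale.Agent.P236B

open Vale.Agent.P257.H80 MvPolynomial Vale.Agent.P236T Finset

variable (p : ℕ) [hp : Fact p.Prime] {K B S : Type} [CommRing K] [CommRing B] [CommRing S]

/-- functionals: the values on the monomials -/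
abbrev Fn (K : Type) [CommRing K] : Type := (ℕ →₀ ℕ) → MvPolynomial ℕ K

/-- The functional `a` at the point `v`. -/
def act (a : Fn K) (κ : K →+* B) (v : VPt B) : MvPolynomial ℕ B →ₗ[B] B :=
  (basisMonomials ℕ B).constr B fun E => kx κ v (a E)

theorem act_monomial (a : Fn K) (κ : K →+* B) (v : VPt B) (E : ℕ →₀ ℕ) (c : B) :
    act a κ v (monomial E c) = c * kx κ v (a E) := by
  have h := (basisMonomials ℕ B).constr_basis B (fun E => kx κ v (a E)) E
  rw [coe_basisMonomials] at h
  rw [← mul_one c, ← smul_eq_mul, map_smul, map_smul, act, h, smul_eq_mul, smul_eq_mul, mul_one]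

theorem act_apply (a : Fn K) (κ : K →+* B) (v : VPt B) (f : MvPolynomial ℕ B) :
    act a κ v f = ∑ E ∈ f.support, coeff E f * kx κ v (a E) := by
  conv_lhs => rw [f.as_sum, map_sum]
  exact Finset.sum_congr rfl fun E _ => act_monomial a κ v E _

theorem act_map (θ : B →+* S) (a : Fn K) (κ : K →+* B) (v : VPt B) (f : MvPolynomial ℕ B) :
    θ (act a κ v f) = act a (θ.comp κ) (θ.comp v) (map θ f) := by
  induction f using MvPolynomial.induction_on' with
  | add x y hx hy => simp only [map_add, hx, hy]
  | monomial E c =>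
    rw [map_monomial, act_monomial, act_monomial, map_mul, ← comp_kx, RingHom.comp_apply]

theorem act_C_mul (a : Fn K) (κ : K →+* B) (v : VPt B) (c : B) (f : MvPolynomial ℕ B) :
    act a κ v (C c * f) = c * act a κ v f := by rw [← smul_eq_C_mul, map_smul, smul_eq_mul]

theorem act_zero (κ : K →+* B) (v : VPt B) (f : MvPolynomial ℕ B) : act 0 κ v f = 0 := by
  simp [act_apply]

theorem act_add (a b : Fn K) (κ : K →+* B) (v : VPt B) (f : MvPolynomial ℕ B) :
    act (a + b) κ v f = act a κ v f + act b κ v f := by
  simp only [act_apply, Pi.add_apply, map_add, mul_add, Finset.sum_add_distrib]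

theorem act_smul (c : MvPolynomial ℕ K) (a : Fn K) (κ : K →+* B) (v : VPt B)
    (f : MvPolynomial ℕ B) : act (c • a) κ v f = kx κ v c * act a κ v f := by
  simp only [act_apply, Pi.smul_apply, smul_eq_mul, map_mul, Finset.mul_sum, mul_left_comm]

theorem act_sum {ι : Type*} (s : Finset ι) (a : ι → Fn K) (κ : K →+* B) (v : VPt B)
    (f : MvPolynomial ℕ B) : act (∑ i ∈ s, a i) κ v f = ∑ i ∈ s, act (a i) κ v f := by
  classical
  induction s using Finset.induction_on with
  | empty => exact act_zero κ v f
  | insert i s hi ih => rw [Finset.sum_insert hi, Finset.sum_insert hi, act_add, ih]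

/-- the functional dual to the monomial `t ^ E` -/
def dl (E : ℕ →₀ ℕ) : Fn K := fun F => if F = E then 1 else 0

theorem act_dl (E : ℕ →₀ ℕ) (κ : K →+* B) (v : VPt B) (f : MvPolynomial ℕ B) :
    act (dl E) κ v f = coeff E f := by
  induction f using MvPolynomial.induction_on' with
  | add x y hx hy => simp only [map_add, hx, hy, coeff_add]
  | monomial F c =>
    rw [act_monomial, coeff_monomial, dl]
    split_ifs <;> simp

theorem kx_univ : kx (C : K →+* MvPolynomial ℕ K) (vmk X) = RingHom.id _ :=
  MvPolynomial.ringHom_ext (fun _ => kx_C _ _ _) fun _ => (kx_X _ _ _).trans (vmk_X _ _)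

theorem kx_comp_C (κ : K →+* B) (v : VPt B) : (kx κ v).comp C = κ := RingHom.ext (kx_C κ v)

theorem kx_comp_vmk (κ : K →+* B) (v : VPt B) : (kx κ v).comp (vmk X) = v :=
  VPt.ext fun k => by rw [RingHom.comp_apply, vmk_X, kx_X]

section

variable [ZP p B] [ZP p S]

/-- the target of the generic arrow -/
def gT (v : VPt B) : VPt (MvPolynomial ℕ B) := tgt p (C.comp v) X

/-- the coproduct: the inner variables are the first arrow, the outer ones the second -/
def gD (v : VPt B) : MvPolynomial ℕ B →+* MvPolynomial ℕ (MvPolynomial ℕ B) :=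
  eval₂Hom (C.comp C) (cmp p (C.comp (C.comp v)) (fun k => C (X k)) X)

theorem gD_C (v : VPt B) (c : B) : gD p v (C c) = C (C c) := eval₂Hom_C _ _ _

theorem gD_X (v : VPt B) (k : ℕ) :
    gD p v (X k) = cmp p (C.comp (C.comp v)) (fun k => C (X k)) X k := eval₂Hom_X' _ _ _

theorem gD_comp_C (v : VPt B) : (gD p v).comp C = C.comp C := RingHom.ext (gD_C p v)

/-- The invariant operator of a functional. -/
def op (a : Fn K) (κ : K →+* B) (v : VPt B) : MvPolynomial ℕ B →ₗ[B] MvPolynomial ℕ B where
  toFun f := act a (C.comp κ) (gT p v) (gD p v f)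
  map_add' f g := by rw [map_add, map_add]
  map_smul' c f := by rw [smul_eq_C_mul, map_mul, gD_C, act_C_mul, smul_eq_C_mul]; rfl

theorem op_apply (a : Fn K) (κ : K →+* B) (v : VPt B) (f : MvPolynomial ℕ B) :
    op p a κ v f = act a (C.comp κ) (gT p v) (gD p v f) := rfl

theorem comp_gT (θ : MvPolynomial ℕ B →+* S) (v : VPt B) :
    θ.comp (gT p v) = tgt p ((θ.comp C).comp v) fun k => θ (X k) := tgt_map p θ _ _

theorem map_gD (θ : MvPolynomial ℕ B →+* S) (v : VPt B) (f : MvPolynomial ℕ B) :
    map θ (gD p v f) = eval₂Hom (C.comp (θ.comp C))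
      (cmp p (C.comp ((θ.comp C).comp v)) (fun k => C (θ (X k))) X) f := by
  have : (map θ).comp (gD p v) = eval₂Hom (C.comp (θ.comp C))
      (cmp p (C.comp ((θ.comp C).comp v)) (fun k => C (θ (X k))) X) :=
    MvPolynomial.ringHom_ext (fun c => by simp [gD_C]) fun k => by
      rw [RingHom.comp_apply, gD_X, cmp_map, eval₂Hom_X']
      simp only [map_C, map_X]
      exact congrArg (fun w => cmp p w _ _ k) (VPt.ext fun i => by simp)
  exact RingHom.congr_fun this f

/-- The value of the invariant operator on an arrow. -/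
theorem ev_op (θ : MvPolynomial ℕ B →+* S) (a : Fn K) (κ : K →+* B) (v : VPt B)
    (f : MvPolynomial ℕ B) : θ (op p a κ v f) =
      act a ((θ.comp C).comp κ) (tgt p ((θ.comp C).comp v) fun k => θ (X k))
        (eval₂Hom (C.comp (θ.comp C))
          (cmp p (C.comp ((θ.comp C).comp v)) (fun k => C (θ (X k))) X) f) := by
  rw [op_apply, act_map, comp_gT, map_gD]
  rfl

theorem map_comp_C' (θ : B →+* S) : (map (σ := ℕ) θ).comp C = C.comp θ :=
  RingHom.ext fun c => map_C _ c

theorem op_map (θ : B →+* S) (a : Fn K) (κ : K →+* B) (v : VPt B) (f : MvPolynomial ℕ B) :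
    map θ (op p a κ v f) = op p a (θ.comp κ) (θ.comp v) (map θ f) := by
  rw [ev_op, op_apply, gD, map_comp_C', coe_eval₂Hom, coe_eval₂Hom, eval₂_map]
  simp only [map_X]
  rfl

theorem gD_op (a : Fn K) (κ : K →+* B) (v : VPt B) (f : MvPolynomial ℕ B) :
    gD p v (op p a κ v f) = op p a (C.comp κ) (gT p v) (gD p v f) := by
  have h3 : tgt p (C.comp (C.comp v)) (fun k => C (X k)) =
      (C : _ →+* MvPolynomial ℕ _).comp (gT p v) := (comp_gT p C v).symm
  have h := ev_op p (gD p v) a κ v f
  rw [gD_comp_C, funext (gD_X p v), RingHom.comp_assoc _ C C, RingHom.comp_assoc _ C C, tgt_cmp,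
    h3] at h
  refine h.trans (congrArg _ ?_)
  have : eval₂Hom (C.comp (C.comp C)) (cmp p (C.comp (C.comp (C.comp v)))
      (fun k => C (gD p v (X k))) X) = (gD p (gT p v)).comp (gD p v) :=
    MvPolynomial.ringHom_ext (fun c => by simp [gD_C]) fun k => by
      have h7 : tgt p (B := MvPolynomial ℕ (MvPolynomial ℕ (MvPolynomial ℕ B)))
          (C.comp (C.comp (C.comp v))) (fun k => C (C (X k))) = C.comp (C.comp (gT p v)) := by
        rw [← h3]
        exact (tgt_map p C _ _).symm
      rw [eval₂Hom_X', RingHom.comp_apply, gD_X, cmp_map, ← RingHom.comp_assoc _ _ (gD p _),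
        gD_comp_C]
      simp only [gD_C, gD_X, cmp_map p (C : _ →+* MvPolynomial ℕ _)]
      rw [← h7]
      exact congrFun (cmp_assoc p _ _ _ _) k
  exact RingHom.congr_fun this f

theorem op_dl_zero (κ : K →+* B) (v : VPt B) (f : MvPolynomial ℕ B) : op p (dl 0) κ v f = f := by
  rw [op_apply, act_dl, ← constantCoeff_eq, gD, map_eval₂Hom]
  simp only [cmp_map, constantCoeff_C, constantCoeff_X, cmp_zero_right]
  rw [← RingHom.comp_assoc, constantCoeff_comp_C, RingHom.id_comp]
  exact eval₂_eta f

theorem coeff_zero_op (a : Fn K) (κ : K →+* B) (v : VPt B) (f : MvPolynomial ℕ B) :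
    coeff 0 (op p a κ v f) = act a κ v f := by
  rw [← constantCoeff_eq, ev_op, constantCoeff_comp_C]
  simp only [constantCoeff_X, tgt_zero, map_zero, cmp_zero_left, RingHom.id_comp, RingHom.comp_id]
  exact congrArg _ (eval₂_eta f)

theorem op_add (a b : Fn K) (κ : K →+* B) (v : VPt B) (f : MvPolynomial ℕ B) :
    op p (a + b) κ v f = op p a κ v f + op p b κ v f := act_add _ _ _ _ _

theorem op_smul (c : MvPolynomial ℕ K) (a : Fn K) (κ : K →+* B) (v : VPt B)
    (f : MvPolynomial ℕ B) : op p (c • a) κ v f = kx (C.comp κ) (gT p v) c * op p a κ v f :=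
  act_smul _ _ _ _ _

variable [ZP p K]

/-- The convolution product. -/
def conv (a' a : Fn K) : Fn K := fun E => act a' C (vmk X) (op p a C (vmk X) (monomial E 1))

theorem act_conv (a' a : Fn K) (κ : K →+* B) (v : VPt B) (f : MvPolynomial ℕ B) :
    act (conv p a' a) κ v f = act a' κ v (op p a κ v f) := by
  induction f using MvPolynomial.induction_on' with
  | add x y hx hy => simp only [map_add, hx, hy]
  | monomial E c =>
    rw [act_monomial, conv, act_map, op_map, kx_comp_C, kx_comp_vmk, map_monomial, map_one,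
      ← smul_eq_mul, ← map_smul, ← map_smul, smul_monomial, smul_eq_mul, mul_one]

theorem op_conv (a' a : Fn K) (κ : K →+* B) (v : VPt B) (f : MvPolynomial ℕ B) :
    op p (conv p a' a) κ v f = op p a' κ v (op p a κ v f) := by
  rw [op_apply, act_conv, ← gD_op]
  rfl

omit hp [ZP p K] in
theorem Fn.ext' {a b : Fn K} (h : ∀ f, act a C (vmk X) f = act b C (vmk X) f) : a = b :=
  funext fun E => by simpa [act_monomial, kx_univ] using h (monomial E 1)

theorem conv_assoc (a b c : Fn K) : conv p (conv p a b) c = conv p a (conv p b c) :=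
  Fn.ext' fun f => by rw [act_conv, act_conv, act_conv, op_conv]

theorem conv_dl_zero (a : Fn K) : conv p a (dl 0) = a :=
  Fn.ext' fun f => by rw [act_conv, op_dl_zero]

theorem dl_zero_conv (a : Fn K) : conv p (dl 0) a = a :=
  Fn.ext' fun f => by rw [act_conv, act_dl, coeff_zero_op]

theorem add_conv (a b c : Fn K) : conv p (a + b) c = conv p a c + conv p b c :=
  Fn.ext' fun f => by rw [act_add, act_conv, act_conv, act_conv, act_add]

theorem conv_add (a b c : Fn K) : conv p a (b + c) = conv p a b + conv p a c :=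
  Fn.ext' fun f => by rw [act_add, act_conv, act_conv, act_conv, op_add, map_add]

theorem smul_conv (c : MvPolynomial ℕ K) (a b : Fn K) : conv p (c • a) b = c • conv p a b :=
  Fn.ext' fun f => by rw [act_smul, act_conv, act_conv, act_smul]

end

/-! ### one-parameter arrows -/

/-- restriction to the arrow with `t_(i+1) = x` and all other coordinates zero -/
def one1 (i : ℕ) : MvPolynomial ℕ B →+* Polynomial B :=
  eval₂Hom Polynomial.C (Pi.single i Polynomial.X)

theorem coeff_one1 (i n : ℕ) (f : MvPolynomial ℕ B) :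
    (one1 i f).coeff n = coeff (Finsupp.single i n) f := by
  induction f using MvPolynomial.induction_on' with
  | add x y hx hy => simp only [map_add, hx, hy, coeff_add, Polynomial.coeff_add]
  | monomial E c =>
    rw [one1, eval₂Hom_monomial, Polynomial.coeff_C_mul, coeff_monomial]
    by_cases h : ∃ m, E = Finsupp.single i m
    · obtain ⟨m, rfl⟩ := h
      rw [Finsupp.prod_single_index (by exact pow_zero _), Pi.single_eq_same, Polynomial.coeff_X_pow]
      simp only [(Finsupp.single_injective i).eq_iff, eq_comm (a := n)]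
      split_ifs <;> simp
    · rw [if_neg fun e => h ⟨n, e⟩]
      obtain ⟨j, hj, hE⟩ : ∃ j, j ≠ i ∧ E j ≠ 0 := by
        by_contra! h'
        exact h ⟨E i, Finsupp.ext fun j => by
          by_cases hj : j = i
          · rw [hj, Finsupp.single_eq_same]
          · rw [h' j hj, Finsupp.single_eq_of_ne hj]⟩
      rw [Finsupp.prod, Finset.prod_eq_zero (Finsupp.mem_support_iff.2 hE)
        (by rw [Pi.single_eq_of_ne hj, zero_pow hE]), Polynomial.coeff_zero, mul_zero]

/-- **The recursion for words**: left convolution with the dual of `t_(i+1) ^ n`. -/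
theorem coeff_single_op [ZP p B] (i n : ℕ) (a : Fn K) (κ : K →+* B) (v : VPt B)
    (f : MvPolynomial ℕ B) : coeff (Finsupp.single i n) (op p a κ v f) =
      (act a (Polynomial.C.comp κ) (tgt p (Polynomial.C.comp v) (Pi.single i Polynomial.X))
        (eval₂Hom (C.comp Polynomial.C) (cmp p (C.comp (Polynomial.C.comp v))
          (Pi.single i (C Polynomial.X)) X) f)).coeff n := by
  have h1 : (one1 (B := B) i).comp C = Polynomial.C := RingHom.ext fun c => eval₂Hom_C _ _ c
  have h2 : (fun k => one1 (B := B) i (X k)) = Pi.single i Polynomial.X :=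
    funext fun k => eval₂Hom_X' _ _ k
  have h3 : (fun k => (C (one1 (B := B) i (X k)) : MvPolynomial ℕ _)) =
      Pi.single i (C Polynomial.X) := funext fun k => by
    rw [congrFun h2 k]
    exact Pi.apply_single (fun _ => C) (fun _ => map_zero _) i _ k
  rw [← coeff_one1, ev_op, h1, h2, h3]

end Vale.Agent.P236B

end
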