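import Vale.Agent.P236B.Par

/-!
# P236B: the groupoid of Hazewinkel laws in the coordinates `v_i`, `t_i`

`iso p v t` is the strict isomorphism from the law of `v` to the law of `tgt p v t` whose inverse is
the formal sum with coefficients `t`; `cmp p v t s` are the coordinates of a composite.
-/

noncomputable section

namespace Vale.Agent.P236B

open Vale.Agent.P217 Vale.Agent.P251.F Vale.Agent.P251.F.F3 Vale.Agent.P257.H80 MvPolynomial

variable (p : ℕ) [hp : Fact p.Prime] {A B : Type*} [CommRing A] [CommRing B]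

/-- points of `ℤ[v_1, v_2, …]` -/
abbrev VPt (B : Type*) [CommRing B] := MvPolynomial ℕ ℤ →+* B

theorem VPt.ext {v w : VPt B} (h : ∀ k, v (X k) = w (X k)) : v = w :=
  MvPolynomial.ringHom_ext (fun r => by simp) h

/-- the point with given coordinates -/
def vmk (c : ℕ → B) : VPt B := eval₂Hom (Int.castRingHom B) c

@[simp] theorem vmk_X (c : ℕ → B) (k : ℕ) : vmk c (X k) = c k := by simp [vmk]

/-- the Hazewinkel law of a point -/
abbrev hz (v : VPt B) : Law B := (haz p).map v

theorem hz_map (θ : A →+* B) (v : VPt A) : (hz p v).map θ = hz p (θ.comp v) := Law.map_map _ _ _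

/-- The strict isomorphism with coordinates `t`. -/
def iso (v : VPt B) (t : ℕ → B) : InvSeries B := (par p (hz p v) t)⁻¹

theorem iso_mem (v : VPt B) (t : ℕ → B) : iso p v t ∈ strict B := inv_mem (par_mem p _ t)

theorem iso_map (θ : A →+* B) (v : VPt A) (t : ℕ → A) :
    InvSeries.map θ (iso p v t) = iso p (θ.comp v) fun k => θ (t k) := by
  rw [iso, map_inv, par_map, hz_map, iso]

theorem iso_injective (v : VPt B) : Function.Injective (iso p v) :=
  fun _ _ h => par_injective p _ (inv_injective h)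

theorem iso_zero (v : VPt B) : iso p v (fun _ => 0) = 1 := by rw [iso, par_zero, inv_one]

/-- The integral polynomials `p ^ n ℓ_n`. -/
def mm (p : ℕ) : ℕ → MvPolynomial ℕ ℤ
  | 0 => 1
  | n + 1 => ∑ i : Fin (n + 1), (p : MvPolynomial ℕ ℤ) ^ (n - i) * mm p i * X (n - i) ^ p ^ (i : ℕ)

omit hp in
theorem mm_zero : mm p 0 = 1 := by rw [mm]

omit hp in
theorem mm_succ (n : ℕ) : mm p (n + 1) = ∑ i ∈ Finset.range (n + 1),
    (p : MvPolynomial ℕ ℤ) ^ (n - i) * mm p i * X (n - i) ^ p ^ i := by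
  rw [mm, Finset.sum_range]

theorem hzI_mm (n : ℕ) : hzI (mm p n) = (p : MvPolynomial ℕ ℚ) ^ n * ell p n := by
  induction n using Nat.strong_induction_on with
  | _ n ih =>
    rcases n with _ | n
    · rw [mm_zero, ell_zero, map_one, pow_zero, one_mul]
    · have h1 : (p : MvPolynomial ℕ ℚ) * C (1 / (p : ℚ)) = 1 := by
        rw [← map_natCast (C (σ := ℕ) (R := ℚ)), ← map_mul,
          mul_one_div_cancel (by exact_mod_cast hp.out.ne_zero), map_one]
      rw [mm_succ, ell_succ, map_sum, pow_succ, mul_assoc, ← mul_assoc (p : MvPolynomial ℕ ℚ), h1,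
        one_mul, Finset.mul_sum]
      refine Finset.sum_congr rfl fun i hi => ?_
      rw [Finset.mem_range] at hi
      obtain ⟨j, rfl⟩ : ∃ j, n = j + i := ⟨n - i, by omega⟩
      rw [map_mul, map_mul, map_pow, map_pow, map_natCast, ih i hi, map_X, Nat.add_sub_cancel]
      ring

section rat

variable (ρ : ℚ →+* B)

/-- extension of a point to `ℚ[v]` -/
def qx (v : VPt B) : MvPolynomial ℕ ℚ →+* B := eval₂Hom ρ fun k => v (X k)

theorem qx_hzI (v : VPt B) : (qx ρ v).comp hzI = v := VPt.ext fun k => by simp [qx]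

theorem log_smul (v : VPt B) : InvSeries.map (qx ρ v) (hazInv p) • hz p v = addLaw B := by
  have h := congrArg (Law.map (qx ρ v)) (smul_inv_smul (hazInv p) (addLaw (MvPolynomial ℕ ℚ)))
  rw [InvSeries.map_smul, map_addLaw] at h
  rw [← h, ← hazQ, ← haz_map, Law.map_map, qx_hzI]

/-- the generators of a given logarithm -/
def vOf (p : ℕ) (lam : ℕ → B) (n : ℕ) : B :=
  p * lam (n + 1) - ∑ i : Fin n, lam (i + 1) * vOf p lam (n - (i + 1)) ^ p ^ ((i : ℕ) + 1)
decreasing_by have := i.2; omega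

theorem qx_vOf {lam : ℕ → B} (h0 : lam 0 = 1) (n : ℕ) :
    qx ρ (vmk (vOf p lam)) (ell p n) = lam n := by
  induction n using Nat.strong_induction_on with
  | _ n ih =>
    rcases n with _ | n
    · rw [ell_zero, map_one, h0]
    · have h1 : ρ (1 / (p : ℚ)) * p = 1 := by
        rw [← map_natCast ρ, ← map_mul, one_div_mul_cancel (by exact_mod_cast hp.out.ne_zero),
          map_one]
      have h2 : ∀ k, qx ρ (vmk (vOf p lam)) (X k) = vOf p lam k := fun k => by simp [qx]
      have h3 : qx ρ (vmk (vOf p lam)) (C (1 / (p : ℚ))) = ρ (1 / (p : ℚ)) := by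
        rw [qx, eval₂Hom_C]
      rw [ell_succ, map_mul, map_sum, Finset.sum_range_succ', h3, ell_zero, one_mul, pow_zero,
        pow_one, h2, Nat.sub_zero, vOf, Finset.sum_range]
      rw [Finset.sum_congr rfl fun (i : Fin n) _ => show _ = lam (i + 1) *
        vOf p lam (n - (i + 1)) ^ p ^ ((i : ℕ) + 1) by
          rw [map_mul, map_pow, ih _ (by have := i.2; omega), h2]]
      linear_combination lam (n + 1) * h1

theorem exists_tgt_rat (v : VPt B) (t : ℕ → B) : ∃ w : VPt B, iso p v t • hz p v = hz p w ∧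
    ∀ n, qx ρ w (ell p n) =
      ∑ j ∈ Finset.range (n + 1), qx ρ v (ell p (n - j)) * tt t j ^ p ^ (n - j) := by
  let lam : ℕ → B := fun n =>
    ∑ j ∈ Finset.range (n + 1), qx ρ v (ell p (n - j)) * tt t j ^ p ^ (n - j)
  have h0 : lam 0 = 1 := by simp [lam, ell_zero]
  refine ⟨vmk (vOf p lam), ?_, qx_vOf p ρ h0⟩
  have h1 : InvSeries.map (qx ρ (vmk (vOf p lam))) (hazInv p) =
      InvSeries.map (qx ρ v) (hazInv p) * par p (hz p v) t := by
    ext k
    change PowerSeries.coeff k (PowerSeries.map _ (hazLog p)) = _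
    rw [PowerSeries.coeff_map]
    by_cases hk : ∃ n, k = p ^ n
    · obtain ⟨n, rfl⟩ := hk
      rw [hazLog_coeff_pow, qx_vOf p ρ h0, coeff_log_par p _ (log_smul p ρ v) t
        (Nat.pow_lt_pow_right hp.out.one_lt (Nat.lt_succ_self n))]
      refine Finset.sum_congr rfl fun j hj => ?_
      have hj' : j ≤ n := Nat.lt_succ_iff.1 (Finset.mem_range.1 hj)
      rw [if_pos (pow_dvd_pow p hj'), Nat.pow_div hj' hp.out.pos]
      change _ = PowerSeries.coeff _ (PowerSeries.map _ (hazLog p)) * _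
      rw [PowerSeries.coeff_map, hazLog_coeff_pow]
    · rw [hazLog_coeff_of_ne p fun n e => hk ⟨n, e⟩, map_zero,
        coeff_log_par p _ (log_smul p ρ v) t (lt_pow_succ p k)]
      refine (Finset.sum_eq_zero fun j _ => ?_).symm
      split_ifs with h2
      · change PowerSeries.coeff _ (PowerSeries.map _ (hazLog p)) * _ = 0
        rw [PowerSeries.coeff_map, hazLog_coeff_of_ne p fun n e => hk ⟨j + n, ?_⟩, map_zero,
          zero_mul]
        rw [pow_add, ← e, Nat.mul_div_cancel' h2]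
      · rfl
  have h2 := log_smul p ρ (vmk (vOf p lam))
  rw [h1, ← log_smul p ρ v, mul_smul, smul_left_cancel_iff] at h2
  rw [iso, inv_smul_eq_iff, h2]

end rat

/-- rings over the `p`-adic integers -/
class ZP (p : ℕ) [Fact p.Prime] (B : Type*) [CommRing B] : Prop where
  ne : Nonempty (ℤ_[p] →+* B)

theorem ZP.map [h : ZP p A] (θ : A →+* B) : ZP p B := ⟨h.ne.map θ.comp⟩

instance : ZP p ℤ_[p] := ⟨⟨RingHom.id _⟩⟩

instance : ZP p (ZMod p) := ⟨⟨PadicInt.toZMod⟩⟩

instance [ZP p B] {σ : Type*} : ZP p (MvPolynomial σ B) := ZP.map p C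

instance [ZP p B] : ZP p (Polynomial B) := ZP.map p Polynomial.C

instance [ZP p B] (I : Ideal B) : ZP p (B ⧸ I) := ZP.map p (Ideal.Quotient.mk I)

theorem ZP.of_charP [CharP B p] : ZP p B := ZP.map p (ZMod.castHom dvd_rfl B)

theorem ZP.of_eq_zero (h : (p : B) = 0) : ZP p B :=
  ZP.map p (ZMod.castHom (ringChar.dvd h) (ZMod (ringChar B))) |>.ne.elim fun f =>
    ⟨⟨(ZMod.castHom (m := ringChar B) dvd_rfl B).comp f⟩⟩

theorem ZP.ploc [h : ZP p B] : PLoc p B := by
  obtain ⟨ζ⟩ := h.ne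
  refine PLoc.map (fun m hm => ?_) ζ
  rw [PadicInt.isUnit_iff, PadicInt.norm_natCast_eq_one_iff]
  exact (Nat.Prime.coprime_iff_not_dvd hp.out).2 hm

variable [ZP p A] [ZP p B]

/-- The target of the isomorphism with coordinates `t`. -/
def tgt (v : VPt B) (t : ℕ → B) : VPt B := vS p (typ p (ZP.ploc p) (iso p v t • hz p v))

theorem tgt_map (θ : A →+* B) (v : VPt A) (t : ℕ → A) :
    θ.comp (tgt p v t) = tgt p (θ.comp v) fun k => θ (t k) := by
  rw [tgt, tgt, comp_vS, ← iso_map, ← hz_map, ← InvSeries.map_smul]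
  congr 1
  funext n
  exact (typ_map p _ _ θ _ n).symm

theorem hz_injective {v w : VPt B} (h : hz p v = hz p w) : v = w :=
  haz_map_injective p (ZP.ploc p) h

theorem tgt_eq {v w : VPt B} {t : ℕ → B} (h : iso p v t • hz p v = hz p w) : tgt p v t = w := by
  rw [tgt, h, typ_haz, vS_seqV]

theorem tgt_spec (v : VPt B) (t : ℕ → B) : iso p v t • hz p v = hz p (tgt p v t) ∧
    ∀ n, tgt p v t (mm p n) = ∑ j ∈ Finset.range (n + 1),
      (p : B) ^ j * v (mm p (n - j)) * tt t j ^ p ^ (n - j) := by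
  let R := MvPolynomial (ℕ ⊕ ℕ) ℤ_[p]
  let K := MvPolynomial (ℕ ⊕ ℕ) ℚ_[p]
  let ι : R →+* K := MvPolynomial.map PadicInt.Coe.ringHom
  have hι : Function.Injective ι := MvPolynomial.map_injective _ Subtype.val_injective
  have : ZP p K := ZP.map p ι
  let ρ : ℚ →+* K := C.comp (algebraMap ℚ ℚ_[p])
  let v₀ : VPt R := vmk fun k => X (Sum.inl k)
  let t₀ : ℕ → R := fun k => X (Sum.inr k)
  obtain ⟨w, h1, h2⟩ := exists_tgt_rat p ρ (ι.comp v₀) fun k => ι (t₀ k)
  have h3 : ι.comp (tgt p v₀ t₀) = w := by rw [tgt_map, tgt_eq p h1]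
  have h4 : iso p v₀ t₀ • hz p v₀ = hz p (tgt p v₀ t₀) := by
    have h5 := isTyp_typ p (ZP.ploc p) (iso p v₀ t₀ • hz p v₀)
    have h6 : bS p (typ p (ZP.ploc p) (iso p v₀ t₀ • hz p v₀)) = fun _ => 0 := by
      funext n
      apply hι
      rw [map_bS, map_zero, ← congrFun (bS_seqV p w) n, ← typ_haz p (ZP.ploc p), ← hz, ← h1,
        ← iso_map, ← hz_map, ← InvSeries.map_smul]
      congr 1
      funext n
      exact (typ_map p _ _ ι _ n).symm
    rwa [IsTyp, h6, strictMk_zero, one_smul] at h5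
  have h5 : ∀ n, tgt p v₀ t₀ (mm p n) = ∑ j ∈ Finset.range (n + 1),
      (p : R) ^ j * v₀ (mm p (n - j)) * tt t₀ j ^ p ^ (n - j) := fun n => by
    have h6 : ∀ (u : VPt K) m, u (mm p m) = (p : K) ^ m * qx ρ u (ell p m) := fun u m => by
      rw [← map_natCast (qx ρ u), ← map_pow, ← map_mul, ← hzI_mm, ← RingHom.comp_apply, qx_hzI]
    apply hι
    rw [← RingHom.comp_apply, h3, h6, h2, map_sum, Finset.mul_sum]
    refine Finset.sum_congr rfl fun j hj => ?_
    obtain ⟨i, rfl⟩ : ∃ i, n = i + j := ⟨n - j, by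
      have := Finset.mem_range.1 hj
      omega⟩
    rw [map_mul, map_mul, map_pow, map_pow, map_natCast, map_tt, ← RingHom.comp_apply ι v₀, h6,
      Nat.add_sub_cancel]
    ring
  obtain ⟨ζ⟩ := ZP.ne (p := p) (B := B)
  let θ : R →+* B := eval₂Hom ζ (Sum.elim (fun k => v (X k)) t)
  have e1 : θ.comp v₀ = v := VPt.ext fun k =>
    (congrArg θ (vmk_X _ k)).trans (eval₂Hom_X' _ _ _)
  have e2 : (fun k => θ (t₀ k)) = t := funext fun k => eval₂Hom_X' _ _ _
  have e3 : θ.comp (tgt p v₀ t₀) = tgt p v t := by rw [tgt_map, e1, e2]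
  refine ⟨?_, fun n => ?_⟩
  · have := congrArg (Law.map θ) h4
    rwa [InvSeries.map_smul, iso_map, hz_map, hz_map, e1, e2, e3] at this
  · rw [← e3, RingHom.comp_apply, h5, map_sum]
    refine Finset.sum_congr rfl fun j _ => ?_
    rw [map_mul, map_mul, map_pow, map_pow, map_natCast, map_tt, ← RingHom.comp_apply θ v₀, e1, e2]

theorem iso_smul (v : VPt B) (t : ℕ → B) : iso p v t • hz p v = hz p (tgt p v t) :=
  (tgt_spec p v t).1

/-- **The recursion for the right unit.** -/
theorem tgt_mm (v : VPt B) (t : ℕ → B) (n : ℕ) : tgt p v t (mm p n) =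
    ∑ j ∈ Finset.range (n + 1), (p : B) ^ j * v (mm p (n - j)) * tt t j ^ p ^ (n - j) :=
  (tgt_spec p v t).2 n

theorem tgt_zero (v : VPt B) : tgt p v (fun _ => 0) = v := tgt_eq p (by rw [iso_zero, one_smul])

/-- Isomorphisms onto `F` from Hazewinkel laws are determined by the coefficients of the
`x ^ p ^ n`. -/
theorem eq_of_coeff_pow {F : Law B} {g g' : InvSeries B} (hg : g ∈ strict B) (hg' : g' ∈ strict B)
    {w w' : VPt B} (h : g⁻¹ • F = hz p w) (h' : g'⁻¹ • F = hz p w')
    (hc : ∀ n, PowerSeries.coeff (p ^ (n + 1)) g.val = PowerSeries.coeff (p ^ (n + 1)) g'.val) :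
    g = g' := by
  refine InvSeries.ext_c fun n => ?_
  induction n using Nat.strong_induction_on with
  | _ n ih =>
    rcases n with _ | n
    · rw [mem_strict.1 hg, mem_strict.1 hg']
    by_cases hn : ∃ k, n + 2 = p ^ k
    · obtain ⟨_ | k, hk⟩ := hn
      · simp at hk
      · have := hc k
        rwa [← hk] at this
    obtain ⟨h1, h2⟩ := log_compare hg' (fun k hk => ih k (Nat.lt_succ_of_le hk)) F
    rw [h, h'] at h1 h2
    have h3 : ∀ j, p ^ (j + 1) < n + 2 → w (X j) = w' (X j) := by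
      intro j
      induction j using Nat.strong_induction_on with
      | _ j ihj =>
        intro hj
        have h4 := (haz_compare p fun i hi => ihj i hi
          ((Nat.pow_lt_pow_right hp.out.one_lt (by omega)).trans hj)).2
        have h5 := two_le_pow (k := j + 1) hp.out (Nat.succ_ne_zero j)
        rw [xC_eq_of_sub_mem h1 (k := p ^ (j + 1) - 2) (by omega), sub_self] at h4
        exact sub_eq_zero.1 (neg_eq_zero.1 h4.symm)
    have hk1 : p ^ Nat.log p (n + 2) ≤ n + 2 := Nat.pow_log_le_self p (by omega)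
    have h4 := (haz_compare p (k := Nat.log p (n + 2)) fun j hj => h3 j (by
      have h5 : p ^ (j + 1) ≤ p ^ Nat.log p (n + 2) := Nat.pow_le_pow_right hp.out.pos (by omega)
      have h6 : n + 2 ≠ p ^ (j + 1) := fun e => hn ⟨_, e⟩
      omega)).1
    rw [xC_eq_of_sub_mem h4 (Nat.lt_pow_succ_log_self hp.out.one_lt _), sub_self, nsmul_eq_mul,
      eq_comm, neg_eq_zero] at h2
    exact sub_eq_zero.1 ((isUnit_dC hp.out (ZP.ploc p) hn).mul_right_eq_zero.1 h2)

omit [ZP p B] in
theorem existsUnique_crd (F : Law B) (h : InvSeries B) : ∃! t : ℕ → B, ∀ n,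
    PowerSeries.coeff (p ^ (n + 1)) (par p F t).val -
      PowerSeries.coeff (p ^ (n + 1)) (h⁻¹).val = 0 :=
  exists_unique_triangular _ (fun _ => 1) (fun _ => isUnit_one) fun n c c' hc => by
    linear_combination coeff_par_sub p F hc

/-- The coordinates `t_i` of an isomorphism `h` with source the law of `v`. -/
def crd (v : VPt B) (h : InvSeries B) : ℕ → B := (existsUnique_crd p (hz p v) h).choose

omit [ZP p B] in
theorem crd_iso (v : VPt B) (t : ℕ → B) : crd p v (iso p v t) = t :=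
  ((existsUnique_crd p (hz p v) (iso p v t)).choose_spec.2 t fun n => by
    rw [iso, inv_inv, sub_self]).symm

/-- **Every strict isomorphism between Hazewinkel laws has coordinates.** -/
theorem iso_crd {v w : VPt B} {h : InvSeries B} (hs : h ∈ strict B) (hh : h • hz p v = hz p w) :
    iso p v (crd p v h) = h := by
  rw [iso, inv_eq_iff_eq_inv]
  exact eq_of_coeff_pow p (par_mem p _ _) (inv_mem hs) (iso_smul p v _) (by rw [inv_inv, hh])
    fun n => sub_eq_zero.1 ((existsUnique_crd p (hz p v) h).choose_spec.1 n)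

theorem tgt_crd {v w : VPt B} {h : InvSeries B} (hs : h ∈ strict B) (hh : h • hz p v = hz p w) :
    tgt p v (crd p v h) = w := tgt_eq p (by rw [iso_crd p hs hh, hh])

omit [ZP p A] [ZP p B] in
theorem crd_map (θ : A →+* B) (v : VPt A) (h : InvSeries A) (k : ℕ) :
    θ (crd p v h k) = crd p (θ.comp v) (InvSeries.map θ h) k := by
  refine congrFun ((existsUnique_crd p (hz p (θ.comp v)) (InvSeries.map θ h)).choose_spec.2
    (fun k => θ (crd p v h k)) fun n => ?_) k
  rw [← hz_map, ← par_map, ← map_inv, InvSeries.map_val, InvSeries.map_val, PowerSeries.coeff_map,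
    PowerSeries.coeff_map, ← map_sub]
  exact (congrArg θ ((existsUnique_crd p (hz p v) h).choose_spec.1 n)).trans (map_zero θ)

/-- The coordinates of the composite of `iso p v t` followed by `iso p (tgt p v t) s`. -/
def cmp (v : VPt B) (t s : ℕ → B) : ℕ → B := crd p v (iso p (tgt p v t) s * iso p v t)

theorem iso_cmp (v : VPt B) (t s : ℕ → B) :
    iso p v (cmp p v t s) = iso p (tgt p v t) s * iso p v t :=
  iso_crd p (mul_mem (iso_mem p _ _) (iso_mem p _ _)) (by rw [mul_smul, iso_smul, iso_smul])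

theorem tgt_cmp (v : VPt B) (t s : ℕ → B) : tgt p v (cmp p v t s) = tgt p (tgt p v t) s :=
  tgt_eq p (by rw [iso_cmp, mul_smul, iso_smul, iso_smul])

theorem cmp_map (θ : A →+* B) (v : VPt A) (t s : ℕ → A) (k : ℕ) :
    θ (cmp p v t s k) = cmp p (θ.comp v) (fun k => θ (t k)) (fun k => θ (s k)) k := by
  rw [cmp, crd_map, map_mul, iso_map, iso_map, tgt_map, cmp]

theorem cmp_zero_left (v : VPt B) (s : ℕ → B) : cmp p v (fun _ => 0) s = s :=
  iso_injective p v (by rw [iso_cmp, tgt_zero, iso_zero, mul_one])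

theorem cmp_zero_right (v : VPt B) (t : ℕ → B) : cmp p v t (fun _ => 0) = t :=
  iso_injective p v (by rw [iso_cmp, iso_zero, one_mul])

theorem cmp_assoc (v : VPt B) (t s r : ℕ → B) :
    cmp p v (cmp p v t s) r = cmp p v t (cmp p (tgt p v t) s r) :=
  iso_injective p v (by simp only [iso_cmp, tgt_cmp, mul_assoc])

/-- **The recursion for the coproduct.** -/
theorem cmp_mm (v : VPt B) (t s : ℕ → B) (n : ℕ) :
    ∑ j ∈ Finset.range (n + 1), (p : B) ^ j * v (mm p (n - j)) * tt (cmp p v t s) j ^ p ^ (n - j) =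
      ∑ k ∈ Finset.range (n + 1), (p : B) ^ k * (∑ j ∈ Finset.range (n - k + 1),
        (p : B) ^ j * v (mm p (n - k - j)) * tt t j ^ p ^ (n - k - j)) * tt s k ^ p ^ (n - k) := by
  rw [← tgt_mm, tgt_cmp, tgt_mm]
  simp only [tgt_mm]

/-! ### rescaling -/

/-- rescaled coordinates -/
def sc (u : Bˣ) (t : ℕ → B) : ℕ → B := fun k => (u : B) ^ (p ^ (k + 1) - 1) * t k

/-- rescaled points -/
def scV (u : Bˣ) (v : VPt B) : VPt B := vmk (sc p u fun k => v (X k))

omit [ZP p B] in
theorem hz_scV (u : Bˣ) (v : VPt B) : hz p (scV p u v) = (InvSeries.lin u)⁻¹ • hz p v :=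
  haz_lin p u fun k => vmk_X _ k

omit [ZP p B] in
theorem iso_sc (u : Bˣ) (v : VPt B) (t : ℕ → B) : iso p (scV p u v) (sc p u t) =
    (InvSeries.lin u)⁻¹ * iso p v t * InvSeries.lin u := by
  rw [iso, hz_scV]
  refine (congrArg Inv.inv (par_scale p u (hz p v) t)).trans ?_
  rw [iso]
  group

theorem tgt_sc (u : Bˣ) (v : VPt B) (t : ℕ → B) :
    tgt p (scV p u v) (sc p u t) = scV p u (tgt p v t) :=
  tgt_eq p (by rw [iso_sc, hz_scV, hz_scV, mul_smul, smul_inv_smul, mul_smul, iso_smul])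

theorem cmp_sc (u : Bˣ) (v : VPt B) (t s : ℕ → B) :
    cmp p (scV p u v) (sc p u t) (sc p u s) = sc p u (cmp p v t s) :=
  iso_injective p _ (by
    rw [iso_cmp, tgt_sc, iso_sc, iso_sc, iso_sc, iso_cmp]
    group)

end Vale.Agent.P236B

end
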