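import Vale.Agent.P236B.Pi
import Vale.Agent.P236T.Iface

/-!
# P236B: `pi` is a homotopy equivalence
-/

noncomputable section

namespace Vale.Agent.P236B

open Vale.Agent.P217 Vale.Agent.P251.F Vale.Agent.P251.F.F3 Vale.Agent.P257.H80 MvPolynomial
  Vale.Agent.P236T LawRing Finset

variable (p : ℕ) [hp : Fact p.Prime] {R S K N : Type} [CommRing R] [CommRing S] [CommRing K]
  [CommRing N] [LawRing N] {n m : ℕ}

theorem seq_ofSeq (x : N →+* R) (G : ℕ → strict R) {k : ℕ} (hk : k ≤ n) :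
    (seq (ofSeq n x G) k : InvSeries R) = G k * (G 0 : InvSeries R)⁻¹ := by
  change (ofSeq n x G).g ⟨min k n, _⟩ = _
  rw [ofSeq_g]
  congr 3
  exact min_eq_left hk

section

variable [ZP p R] [ZP p S]

/-- the `i`-th prism over a chain -/
def prz (i : ℕ) (c : Chain N n R) : Chain N (n + 1) R :=
  ofSeq (n + 1) c.pt (prs i (seq c) (uS p c.pt (seq c)))

theorem prz_map (i : ℕ) (θ : R →+* S) (c : Chain N n R) :
    (prz p i c).map θ = prz p i (c.map θ) := by
  rw [prz, ofSeq_map, prz, smap_prs, seq_map]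
  congr 2
  funext k
  exact smap_uS p θ c.pt (seq c) k

theorem prz_ofSeq {i : ℕ} (hi : i ≤ n) (x : N →+* R) (G : ℕ → strict R) :
    prz p i (ofSeq n x G) = ofSeq (n + 1) x (prs i G (uS p x G)) := by
  rw [prz, ofSeq_pt]
  refine ofSeq_translate x _ _ _ fun k hk => ?_
  simp only [prs]
  split_ifs with h
  · exact seq_ofSeq x G (by omega)
  · exact uS_translate p _ _ _ _ _ (seq_ofSeq x G (by omega))

theorem prz_scale (i : ℕ) (c : Chain N n R) (u : Rˣ) :
    prz p i (c.scale u) = (prz p i c).scale u := by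
  rw [prz, prz, ofSeq_scale, conjSeq_prs, seq_scale, ← uS_conj]
  rfl

end

variable [ZP p N]

/-- the homotopy operator -/
def hB (n : ℕ) : Cob N (n + 1) →+ Cob N n :=
  ∑ i ∈ range (n + 1), ((-1 : ℤ) ^ i) •
    (Cob.ev (prz p i (Cob.univ N n)) : Cob N (n + 1) →+* Cob N n).toAddMonoidHom

theorem ev_hB [ZP p R] (c : Chain N n R) (z : Cob N (n + 1)) :
    Cob.ev c (hB p n z) = ∑ i ∈ range (n + 1), ((-1 : ℤ) ^ i) • Cob.ev (prz p i c) z := by
  rw [hB, AddMonoidHom.finsetSum_apply, map_sum]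
  refine Finset.sum_congr rfl fun i _ => ?_
  rw [AddMonoidHom.smul_apply, map_zsmul]
  congr 1
  change Cob.ev c (Cob.ev (prz p i (Cob.univ N n)) z) = _
  rw [← Cob.ev_map, prz_map, Cob.univ_map_ev]

theorem isWt_hB {w : ℤ} {z : Cob N (n + 1)} (hz : Cob.IsWt w z) : Cob.IsWt w (hB p n z) := by
  intro B _ c u
  have : ZP p B := ZP.map p c.pt
  rw [ev_hB, ev_hB, Finset.mul_sum]
  refine Finset.sum_congr rfl fun i _ => ?_
  rw [prz_scale, hz, mul_smul_comm]

theorem ev_hB_d [ZP p R] (c : Chain N n R) (z : Cob N n) : Cob.ev c (hB p n (Cob.d n z)) =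
    ∑ i ∈ range (n + 1), ∑ j ∈ range (n + 2),
      ((-1 : ℤ) ^ (i + j)) • evSeq c.pt z (del j (prs i (seq c) (uS p c.pt (seq c)))) := by
  rw [ev_hB]
  refine Finset.sum_congr rfl fun i _ => ?_
  rw [prz, ev_d_ofSeq, Finset.smul_sum]
  refine Finset.sum_congr rfl fun j _ => ?_
  rw [smul_smul, ← pow_add]

omit [ZP p N] in
theorem evSeq_mix (c : Chain N n R) (z : Cob N n) (U : ℕ → strict R) :
    evSeq c.pt z (mix (n + 1) (seq c) U) = Cob.ev c z := by
  conv_rhs => rw [← ofSeq_seq c]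
  refine evSeq_congr c.pt z fun k hk => ?_
  simp only [mix]
  rw [if_pos (by omega)]

/-- The map in the other direction. -/
def sg (κ : K →+* N) (n : ℕ) : Cx K n →+* Cob N n :=
  evP (C.comp κ) (tP p (Cob.univ N n).pt (seq (Cob.univ N n)))

variable (κ : K →+* N)

theorem ev_sg [ZP p R] (c : Chain N n R) (y : Cx K n) :
    Cob.ev c (sg p κ n y) = evP (c.pt.comp κ) (tP p c.pt (seq c)) y := by
  have h1 : (Cob.ev c).comp (Cob.univ N n).pt = c.pt := congrArg Chain.pt (Cob.univ_map_ev c)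
  rw [sg, ← evP_map, tP_map, ← seq_map, Cob.univ_map_ev, h1, ← RingHom.comp_assoc]
  exact congrArg (fun x => evP (RingHom.comp x κ) _ y) h1

/-- ring homomorphisms out of `K` are unique -/
def Uq (K : Type) [CommRing K] : Prop := ∀ (R : Type) [CommRing R] (f g : K →+* R), f = g

theorem uq_zmod (q : ℕ) : Uq (ZMod q) := fun _ _ f g => RingHom.ext_zmod f g

theorem ev_sg_ofSeq [ZP p R] (hK : Uq K) (κ' : K →+* R) (x : N →+* R) (G : ℕ → strict R)
    (y : Cx K n) : Cob.ev (ofSeq n x G) (sg p κ n y) = evP κ' (tP p x G) y := by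
  rw [ev_sg, ofSeq_pt, hK _ (RingHom.comp _ κ) κ',
    evP_tP_translate p κ' x G _ _ fun k hk => seq_ofSeq x G hk]

theorem isWt_sg (hK : Uq K) {w : ℤ} {y : Cx K n} (hy : BWt p w y) : Cob.IsWt w (sg p κ n y) := by
  intro B _ c u
  have : ZP p B := ZP.map p c.pt
  rw [ev_sg, ev_sg, seq_scale, hK _ (RingHom.comp _ κ) (c.pt.comp κ), ← hy, ← tP_scale]
  rfl

variable [ZP p K]

theorem sg_cm (hK : Uq K) (f : ℕ → ℕ) (y : Cx K m) :
    sg p κ n (cm p n f y) = mp n f (sg p κ m y) := by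
  apply Cob.ext_ev
  intro B _ c
  have : ZP p B := ZP.map p c.pt
  have h1 : c.res (fun i : Fin (m + 1) => (⟨min (f i) n, by omega⟩ : Fin (n + 1))) =
      ofSeq m c.pt fun k => seq c (min (f k) n) := by
    have h2 : ∀ k, (seq c (min k n) : InvSeries B) = c.g ⟨min k n, by omega⟩ := fun k => by
      change c.g _ = _
      congr 2
      omega
    ext1
    · rw [Chain.res_pt, ofSeq_pt, h2]
      rfl
    · funext i
      rw [Chain.res_g, ofSeq_g, h2, h2]
      rfl
  rw [ev_sg, evP_cm', tP_res, mp, Cob.ev_map_res, h1, ev_sg_ofSeq p κ hK]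

theorem sg_dB (hK : Uq K) (y : Cx K n) :
    sg p κ (n + 1) (dB p n y) = Cob.d n (sg p κ n y) := by
  rw [d_eq, dB_apply, map_sum]
  exact Finset.sum_congr rfl fun i _ => by rw [map_zsmul, sg_cm p κ hK]

namespace Dat

variable {p} (D : Dat p N K)

theorem pi_sg (hK : Uq K) (y : Cx K n) : D.pi n (sg p κ n y) = y := by
  rw [pi, ch, ev_sg_ofSeq p κ hK (kap K n), tP_pt, evP_uP]

theorem ev_sg_pi [ZP p R] (c : Chain N n R) (z : Cob N n) :
    Cob.ev c (sg p κ n (D.pi n z)) = evSeq c.pt z (uS p c.pt (seq c)) := by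
  rw [ev_sg, evP_pi, ch_tP, evSeq]

/-- the homotopy identity in positive degrees -/
theorem hB_d_add_d_hB (z : Cob N (n + 1)) : hB p (n + 1) (Cob.d (n + 1) z) +
    Cob.d n (hB p n z) = sg p κ (n + 1) (D.pi (n + 1) z) - z := by
  apply Cob.ext_ev
  intro B _ c
  have : ZP p B := ZP.map p c.pt
  have h2 : Cob.ev c (Cob.d n (hB p n z)) = ∑ i ∈ range (n + 1), ∑ j ∈ range (n + 1 + 1),
      ((-1 : ℤ) ^ (i + j)) • evSeq c.pt z (prs i (del j (seq c))
        (del j (uS p c.pt (seq c)))) := by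
    rw [Finset.sum_comm]
    conv_lhs => rw [← ofSeq_seq c, ev_d_ofSeq]
    refine Finset.sum_congr rfl fun j _ => ?_
    rw [evSeq, ev_hB, Finset.smul_sum]
    refine Finset.sum_congr rfl fun i hi => ?_
    rw [prz_ofSeq p (by have := Finset.mem_range.1 hi; omega), smul_smul, ← pow_add, add_comm,
      uS_del, evSeq]
  rw [map_add, map_sub, ev_sg_pi, ev_hB_d, h2, prism_identity, evSeq_mix]

/-- the homotopy identity in degree `0` -/
theorem hB_d_zero (z : Cob N 0) : hB p 0 (Cob.d 0 z) = sg p κ 0 (D.pi 0 z) - z := by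
  apply Cob.ext_ev
  intro B _ c
  have : ZP p B := ZP.map p c.pt
  have h3 := prism_identity (seq c) (uS p c.pt (seq c)) (evSeq c.pt z) 0
  rw [Finset.range_zero, Finset.sum_empty, add_zero] at h3
  rw [map_sub, ev_sg_pi, ev_hB_d, h3, evSeq_mix]

include κ in
/-- `pi` is injective in cohomology. -/
theorem mem_Bc_succ (hK : Uq K) {z : Cob N (n + 1)} (hd : Cob.d (n + 1) z = 0) {y : Cx K n}
    (hy : D.pi (n + 1) z = dB p n y) : z ∈ Bc N (n + 1) := by
  have h := D.hB_d_add_d_hB κ z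
  rw [hd, map_zero, zero_add, hy, sg_dB p κ hK] at h
  exact ⟨sg p κ n y - hB p n z, by rw [map_sub, h, sub_sub_cancel]⟩

include κ in
theorem eq_zero_zero {z : Cob N 0} (hd : Cob.d 0 z = 0) (hy : D.pi 0 z = 0) : z = 0 := by
  have h := D.hB_d_zero κ z
  rwa [hd, map_zero, hy, map_zero, zero_sub, zero_eq_neg] at h

include κ in
/-- `pi` is onto on cocycles. -/
theorem exists_cocycle (hK : Uq K) {w : ℤ} {y : Cx K n} (hw : BWt p w y) (hd : dB p n y = 0) :
    ∃ z : Cob N n, Cob.IsWt w z ∧ Cob.d n z = 0 ∧ D.pi n z = y :=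
  ⟨sg p κ n y, isWt_sg p κ hK hw, by rw [← sg_dB p κ hK, hd, map_zero], D.pi_sg κ hK y⟩

include κ D in
theorem dB_dB (hK : Uq K) (y : Cx K n) : dB p (n + 1) (dB p n y) = 0 := by
  rw [← D.pi_sg κ hK y, ← pi_d, ← pi_d, Cob.d_d, map_zero]

end Dat

/-! ### the two cases -/

/-- the datum for the Lazard ring -/
def datL (K : Type) [CommRing K] : Dat p Laz K :=
  ⟨Laz.lift (hz p (vmk X)), Laz.univ_map_lift _, LawRing.epi_laz⟩

theorem three_Q3 : ((3 : ℕ) : Q3) = 0 := by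
  rw [← map_natCast (Ideal.Quotient.mk (Laz.I 3 1)), Ideal.Quotient.eq_zero_iff_mem]
  have := vv_mem_Ih (p := 3) (Nat.zero_lt_one) Laz.univ
  rwa [vv_zero] at this

/-- the structure map of `Laz / 3` -/
def k3 : ZMod 3 →+* Q3 := ZMod.castHom (ringChar.dvd three_Q3) Q3

instance : ZP 3 Q3 := ZP.map 3 k3

/-- the datum for `Laz / 3` -/
def dat3 : Dat 3 Q3 (ZMod 3) where
  x := Ideal.Quotient.lift _ (datL 3 (ZMod 3)).x fun a ha => by
    have h1 := Ideal.mem_map_of_mem (datL 3 (ZMod 3)).x ha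
    rw [Laz.I, ← Ih_map, Ih] at h1
    refine (Ideal.span_eq_bot.2 ?_).le h1
    rintro _ ⟨i, hi, rfl⟩
    rw [show i = 0 by omega, vv_zero]
    exact CharP.cast_eq_zero _ 3
  law := (Law.map_map _ _ _).trans (datL 3 (ZMod 3)).law
  epi := LawRing.epi_quotient LawRing.epi_laz _ (P257.H314.invariant_I 3 1)

theorem pi_rd (x : Cob Laz n) : dat3.pi n (rd n x) = (datL 3 (ZMod 3)).pi n x := by
  rw [Dat.pi, Dat.pi, rd, Cob.ev_mapRing]
  refine congrArg (fun c => Cob.ev c x) (Chain.ext ?_ rfl)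
  change (act _ _ : Q3 →+* _).comp _ = act _ _
  rw [Path.gs_zero, act_one, act_one]
  rfl

end Vale.Agent.P236B

end
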