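import Vale.Agent.P236B.ResD

/-!
# P236B: functionals applied to the last arrow of a path
-/

noncomputable section

namespace Vale.Agent.P236B

open Vale.Agent.P257.H80 MvPolynomial Vale.Agent.P236T Finset Vale.Agent.P251.F.F3

variable (p : ℕ) [hp : Fact p.Prime] {K R S : Type} [CommRing K] [CommRing R] [CommRing S]
  {n m i : ℕ}

namespace Path

/-- the `i`-th arrow is replaced by a generic one -/
def gen (i : ℕ) (c : Path R) : Path (MvPolynomial ℕ R) :=
  ⟨C.comp c.v, fun j k => if j = i then X k else C (c.t j k)⟩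

theorem gen_t (i : ℕ) (c : Path R) : (c.gen i).t i = X := funext fun _ => if_pos rfl

theorem gen_t_ne {i j : ℕ} (h : j ≠ i) (c : Path R) : (c.gen i).t j = fun k => C (c.t j k) :=
  funext fun _ => if_neg h

theorem gen_map (θ : R →+* S) (i : ℕ) (c : Path R) :
    (c.gen i).map (MvPolynomial.map θ) = (c.map θ).gen i :=
  Path.ext (VPt.ext fun _ => map_C _ _) (funext fun j => funext fun k => by
    change MvPolynomial.map θ (ite _ _ _) = ite _ _ _
    split_ifs
    · exact map_X _ _
    · exact map_C _ _)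

variable [ZP p R]

theorem vert_gen (c : Path R) {i j : ℕ} (h : j ≤ i) :
    (c.gen i).vert p j = (c.map C).vert p j ∧ (c.gen i).gs p j = (c.map C).gs p j :=
  vert_congr p (c := c.gen i) (c' := c.map C) rfl (fun _ hl => gen_t_ne hl.ne c) j h

theorem vert_gen' (c : Path R) {i j : ℕ} (h : j ≤ i) :
    (c.gen i).vert p j = C.comp (c.vert p j) := by rw [(vert_gen p c h).1, vert_map]

theorem arr_gen (c : Path R) {i j l : ℕ} (h : j ≤ i) (h' : l ≤ i) :
    (c.gen i).arr p j l = fun k => C (c.arr p j l k) := by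
  funext k
  rw [← arr_map, arr, arr, (vert_gen p c h).1, (vert_gen p c h).2, (vert_gen p c h').2]

theorem vert_gen_succ (c : Path R) (i : ℕ) : (c.gen i).vert p (i + 1) = gT p (c.vert p i) := by
  rw [vert, vert_gen' p c le_rfl, gen_t, gT]

omit [ZP p R] in
theorem vert_X_zero [ZP p S] (h : (p : S) = 0) (c : Path S) (j : ℕ) :
    c.vert p j (X 0) = c.v (X 0) := by
  induction j with
  | zero => rfl
  | succ j ih => rw [vert, tgt_X_zero, h, zero_mul, add_zero, ih]

end Path

/-- the last arrow as a family of variables -/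
def cur (K : Type) [CommRing K] (i : ℕ) : Cx K (i + 1) →+* MvPolynomial ℕ (Cx K i) :=
  evP (C.comp (kap K i)) ((uP K i).gen i)

theorem map_cur (κ : K →+* R) (c : Path R) (z : Cx K (i + 1)) :
    map (evP κ c) (cur K i z) = evP (C.comp κ) (c.gen i) z := by
  refine (evP_map (R := MvPolynomial ℕ (Cx K i)) (map (evP κ c)) _ _ z).symm.trans ?_
  rw [Path.gen_map, uP_map, ← RingHom.comp_assoc, map_comp_C', RingHom.comp_assoc, evP_kap]
  refine RingHom.congr_fun (evP_congr _ (c := (c.trunc i).gen i) (c' := c.gen i) rfl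
    fun j hj => funext fun k => ?_) z
  simp only [Path.gen, Path.trunc]
  split_ifs with h1 h2
  · rfl
  · rfl
  · omega

theorem evP_gen (κ : K →+* R) (c : Path R) (y : Cx K i) :
    evP (C.comp κ) (c.gen i) y = C (evP κ c y) := by
  refine Eq.trans ?_ (evP_map C κ c y)
  exact RingHom.congr_fun (evP_congr _ (c := c.gen i) (c' := c.map C) rfl fun j hj =>
    Path.gen_t_ne hj.ne c) y

section

variable [ZP p K]

/-- the inverse of `cur` -/
def unc (i : ℕ) : MvPolynomial ℕ (Cx K i) →+* Cx K (i + 1) :=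
  eval₂Hom (cm p (i + 1) fun j => j) fun k => X (Fin.last i, k)

theorem evP_up [ZP p R] (κ : K →+* R) (c : Path R) (h : m ≤ n) (y : Cx K m) :
    evP κ c (cm p n (fun j => j) y) = evP κ c y := by
  rw [evP_cm p _ _ fun j hj => hj.trans h, Path.res_id]

theorem cur_unc (f : MvPolynomial ℕ (Cx K i)) : cur K i (unc p i f) = f := by
  have : (cur K i).comp (unc p i) = RingHom.id _ :=
    MvPolynomial.ringHom_ext (fun b => by
      rw [RingHom.comp_apply, unc, eval₂Hom_C, cur, evP_up p _ _ (Nat.le_succ i), evP_gen, evP_uP]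
      rfl) fun k => by
      rw [RingHom.comp_apply, unc, eval₂Hom_X', cur, evP_X]
      exact if_pos rfl
  exact RingHom.congr_fun this f

theorem cm_C (f : ℕ → ℕ) (h : f 0 = 0) (a : MvPolynomial ℕ K) :
    cm p n f (C a : Cx K m) = C a := by
  rw [cm, evP_C]
  change kx _ ((uP K n).vert p (f 0)) a = _
  rw [h]
  exact RingHom.congr_fun kx_uP a

theorem unc_cur (z : Cx K (i + 1)) : unc p i (cur K i z) = z := by
  have : (unc p i).comp (cur K i) = RingHom.id _ :=
    MvPolynomial.ringHom_ext (fun a => by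
      rw [RingHom.comp_apply, ← cm_C p (m := i) (fun j => j) rfl, cur,
        evP_up p _ _ (Nat.le_succ i), evP_gen, evP_uP, unc, eval₂Hom_C]
      rfl) fun ⟨j, k⟩ => by
      rw [RingHom.comp_apply, cur, evP_X]
      change unc p i (ite _ _ (C (dite _ _ _))) = X _
      split_ifs with h1 h2
      · rw [unc, eval₂Hom_X']
        exact congrArg (fun j => X (j, k)) (Fin.ext h1.symm)
      · rw [unc, eval₂Hom_C, cm, Path.res_id, evP_X]
        exact dif_pos j.2
      · omega
  exact RingHom.congr_fun this z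

/-- The functional `a` applied to the last arrow. -/
def al (a : Fn K) (i : ℕ) : Cx K (i + 1) →+ Cx K i :=
  (act a (kap K i) ((uP K i).vert p i)).toAddMonoidHom.comp (cur K i).toAddMonoidHom

theorem al_apply (a : Fn K) (z : Cx K (i + 1)) :
    al p a i z = act a (kap K i) ((uP K i).vert p i) (cur K i z) := rfl

theorem evP_al [ZP p R] (κ : K →+* R) (c : Path R) (a : Fn K) (z : Cx K (i + 1)) :
    evP κ c (al p a i z) = act a κ (c.vert p i) (evP (C.comp κ) (c.gen i) z) := by
  rw [al_apply, act_map, evP_kap, map_cur, ← Path.vert_map, uP_map, (c.vert_trunc p i i).1,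
    min_self]

omit [ZP p K] in
theorem evP_res_gen [ZP p R] (κ : K →+* R) (c : Path R) {f : ℕ → ℕ} (hf : ∀ j ≤ m, f j ≤ n)
    (h1 : f m = n) (h2 : f (m + 1) = n + 1) (z : Cx K (m + 1)) :
    evP (C.comp κ) ((c.gen n).res p f) z = evP (C.comp κ) ((c.res p f).gen m) z := by
  refine RingHom.congr_fun (evP_congr _ (Path.vert_gen' p c (hf 0 m.zero_le)) fun j hj => ?_) z
  change (c.gen n).arr p _ _ = _
  rcases (Nat.le_of_lt_succ hj).eq_or_lt with rfl | h
  · rw [h1, h2, Path.arr_succ, Path.gen_t, Path.gen_t]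
  · rw [Path.arr_gen p c (hf j h.le) (hf _ h), Path.gen_t_ne h.ne]
    rfl

/-- `al` commutes with the operators which preserve the last arrow. -/
theorem cm_al {f : ℕ → ℕ} (hf : ∀ j ≤ m, f j ≤ n) (h1 : f m = n) (h2 : f (m + 1) = n + 1)
    (a : Fn K) (z : Cx K (m + 1)) : cm p n f (al p a m z) = al p a n (cm p (n + 1) f z) := by
  rw [← evP_uP (al p a n _), evP_al, evP_cm, evP_res_gen p _ _ hf h1 h2, cm, evP_al,
    Path.vert_res, h1]
  intro j hj
  rcases hj.eq_or_lt with rfl | h
  · exact h2.le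
  · exact (hf j (Nat.le_of_lt_succ h)).trans n.le_succ

theorem al_mul (h : m ≤ i) (a : Fn K) (y : Cx K m) (z : Cx K (i + 1)) :
    al p a i (cm p (i + 1) (fun j => j) y * z) = cm p i (fun j => j) y * al p a i z := by
  rw [al_apply, map_mul, ← cm_cm p (m := i) (fun j => j) (g := fun j => j) fun j hj => hj.trans h,
    cur, evP_up p _ _ (Nat.le_succ i), evP_gen, evP_uP, act_C_mul]
  rfl

omit [ZP p K] in
theorem evP_face [ZP p R] (κ : K →+* R) (c : Path R) (z : Cx K (i + 1)) :
    evP (C.comp (C.comp κ)) (((c.gen i).gen (i + 1)).res p (sk (i + 1))) z =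
      gD p (c.vert p i) (evP (C.comp κ) (c.gen i) z) := by
  refine Eq.trans ?_ (evP_map (gD p (c.vert p i)) _ _ z)
  rw [← RingHom.comp_assoc κ C (gD p _), gD_comp_C, RingHom.comp_assoc]
  refine RingHom.congr_fun (evP_congr _ ?_ fun j hj => ?_) z
  · change ((c.gen i).gen (i + 1)).vert p (sk (i + 1) 0) = (gD p _).comp (C.comp c.v)
    rw [sk_of_lt i.succ_pos, ← RingHom.comp_assoc, gD_comp_C]
    rfl
  · change ((c.gen i).gen (i + 1)).arr p (sk _ _) (sk _ _) = fun k => gD p _ ((c.gen i).t j k)
    rcases (Nat.le_of_lt_succ hj).eq_or_lt with rfl | h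
    · rw [sk_of_lt hj, sk_of_le le_rfl, Path.arr_add_two, Path.gen_t, Path.gen_t_ne hj.ne,
        Path.gen_t, Path.vert_gen' p _ hj.le, Path.vert_gen' p _ le_rfl]
      exact funext fun k => (gD_X p _ k).symm
    · rw [sk_of_lt hj, sk_of_lt (Nat.succ_lt_succ h), Path.arr_succ, Path.gen_t_ne hj.ne,
        Path.gen_t_ne h.ne]
      exact funext fun k => (gD_C p _ _).symm

theorem evP_al_face [ZP p R] (κ : K →+* R) (c : Path R) (a : Fn K) (z : Cx K (i + 1)) :
    evP (C.comp κ) (c.gen i) (al p a (i + 1) (cm p (i + 2) (sk (i + 1)) z)) =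
      op p a κ (c.vert p i) (evP (C.comp κ) (c.gen i) z) := by
  rw [evP_al, Path.vert_gen_succ, evP_cm p _ _ fun j hj => (sk_le _ j).trans (Nat.succ_le_succ hj),
    op_apply]
  exact congrArg _ (evP_face p κ c z)

/-- The invariant operator on the last arrow. -/
theorem cur_al_face (a : Fn K) (z : Cx K (i + 1)) :
    cur K i (al p a (i + 1) (cm p (i + 2) (sk (i + 1)) z)) =
      op p a (kap K i) ((uP K i).vert p i) (cur K i z) := evP_al_face p _ _ a z

end

/-! ### weights -/

omit hp in
theorem coeff_scale (u : R) (E : ℕ →₀ ℕ) (f : MvPolynomial ℕ R) :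
    coeff E (eval₂Hom C (fun k => C u ^ wv p k * X k) f) = u ^ wE p E * coeff E f := by
  induction f using MvPolynomial.induction_on' with
  | add x y hx hy => rw [map_add, coeff_add, coeff_add, hx, hy, mul_add]
  | monomial F c =>
    rw [eval₂Hom_monomial, prod_sc, mul_left_comm, ← monomial_eq, ← map_pow, coeff_C_mul,
      coeff_monomial]
    split_ifs with h
    · rw [h]
    · rw [mul_zero, mul_zero]

omit hp in
theorem BWt.coeff_cur {w : ℤ} {z : Cx K (i + 1)} (hz : BWt p w z) (E : ℕ →₀ ℕ) :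
    BWt p (w - wE p E) (coeff E (cur K i z)) := fun R _ κ c u => by
  let σ : MvPolynomial ℕ R →+* MvPolynomial ℕ R :=
    eval₂Hom C fun k => C (u : R) ^ wv p k * X k
  let U : (MvPolynomial ℕ R)ˣ := Units.map (C : R →+* MvPolynomial ℕ R).toMonoidHom u
  have h0 : ∀ k b, σ (C ((u : R) ^ k * b)) = (U : MvPolynomial ℕ R) ^ k * C b := fun k b => by
    rw [eval₂Hom_C, map_mul, map_pow]
    rfl
  have h1 : σ.comp C = C := RingHom.ext fun b => eval₂Hom_C _ _ b
  have h2 : ((c.scale p u).gen i).map σ = (c.gen i).scale p U :=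
    Path.ext (VPt.ext fun k => (congrArg (fun b => σ (C b)) (vmk_X _ k)).trans
      ((h0 _ _).trans (vmk_X (sc p U fun k => C (c.v (X k))) k).symm))
      (funext fun j => funext fun k => by
        simp only [Path.map, Path.gen, Path.scale, sc]
        split_ifs
        · exact eval₂Hom_X' _ _ _
        · exact h0 _ _)
  have h3 := evP_map σ (C.comp κ) ((c.scale p u).gen i) z
  rw [h2, ← RingHom.comp_assoc, h1, hz, ← map_cur, ← map_cur, ← map_zpow] at h3
  have h4 := congrArg (coeff E) h3
  rw [coeff_scale, coeff_map] at h4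
  have h5 : (u ^ w : Rˣ) * evP κ c (coeff E (cur K i z)) = _ :=
    ((coeff_C_mul _ _ _).trans (by rw [coeff_map])).symm.trans h4
  rw [zpow_sub, zpow_natCast, mul_comm (u ^ w), Units.val_mul, mul_assoc, h5,
    ← Units.val_pow_eq_pow_val, Units.inv_mul_cancel_left]

theorem BWt.unc [ZP p K] {w : ℤ} {b : Cx K i} (hb : BWt p w b) (E : ℕ →₀ ℕ) :
    BWt p (w + wE p E) (unc p i (monomial E b)) := by
  rw [P236B.unc, eval₂Hom_monomial]
  refine (hb.cm p _).mul p fun R _ κ c u => ?_
  rw [map_finsuppProd, map_finsuppProd, zpow_natCast, Units.val_pow_eq_pow_val]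
  simp only [map_pow, evP_X]
  exact prod_sc (u : R) (wv p) (fun k => c.t i k) E

omit hp in
theorem BWt.eq_zero {w : ℤ} {b : Cx K i} (hb : BWt p w b) (hw : w < 0) : b = 0 := by
  ext β α
  by_contra h
  have := (bWt_iff p).1 hb β α h
  omega

omit hp in
theorem bWt_C {w : ℤ} {y : MvPolynomial ℕ K} :
    BWt p w (C y : Cx K n) ↔ ∀ α, coeff α y ≠ 0 → (wE p α : ℤ) = w := by
  classical
  rw [bWt_iff]
  refine ⟨fun h α hα => by simpa [wtm] using h 0 α (by simpa using hα), fun h β α hα => ?_⟩
  rw [coeff_C] at hα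
  split_ifs at hα with h0
  · subst h0
    simpa [wtm] using h α hα
  · exact absurd rfl hα

theorem kx_vert [ZP p K] (j : ℕ) (y : MvPolynomial ℕ K) :
    kx (kap K n) ((uP K n).vert p j) y = cm p n (fun _ => j) (C y : Cx K 0) := by
  rw [cm, evP_C]
  rfl

theorem BWt.al [ZP p K] {w e : ℤ} {a : Fn K} (ha : FW p e a) {z : Cx K (i + 1)}
    (hz : BWt p w z) : BWt p (w - e) (al p a i z) := by
  rw [al_apply, act_apply]
  refine BWt.sum p fun E _ => ?_
  rw [kx_vert, show w - e = w - wE p E + (wE p E - e) by ring]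
  exact (hz.coeff_cur p E).mul p (((bWt_C p).2 fun α hα => by
    have := ha E α hα
    omega).cm p _)

/-- the component of weight `w` -/
def prj (w : ℤ) : Cx K n →+ Cx K n where
  toFun y := (evP (LaurentPolynomial.C.comp (kap K n))
    (((uP K n).map LaurentPolynomial.C).scale p (uT _)) y).coeff w
  map_zero' := by rw [map_zero]; rfl
  map_add' x y := by rw [map_add, AddMonoidAlgebra.coeff_add, Finsupp.add_apply]

omit hp in
theorem BWt.prj {w k : ℤ} {y : Cx K n} (hy : BWt p k y) :
    prj p w y = if k = w then y else 0 := by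
  change AddMonoidAlgebra.coeff _ w = _
  rw [hy, evP_map, evP_uP, uT_zpow, mul_comm, ← LaurentPolynomial.single_eq_C_mul_T,
    AddMonoidAlgebra.coeff_single, Finsupp.single_apply]

omit hp in
theorem Cx.ind {P : Cx K n → Prop} (h1 : ∀ (k : ℕ) y, BWt p k y → P y)
    (h2 : ∀ x y, P x → P y → P (x + y)) (y : Cx K n) : P y := by
  induction y using MvPolynomial.induction_on' with
  | add x y hx hy => exact h2 x y hx hy
  | monomial β b =>
    induction b using MvPolynomial.induction_on' with
    | add x y hx hy => rw [map_add]; exact h2 _ _ hx hy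
    | monomial α a => exact h1 _ _ (bWt_monomial p β α a)

omit hp in
theorem bWt_prj (w : ℤ) (y : Cx K n) : BWt p w (prj p w y) := by
  induction y using Cx.ind p with
  | h1 k y hy =>
    rw [hy.prj]
    split_ifs with h
    · exact h ▸ hy
    · exact BWt.zero p w
  | h2 x y hx hy => rw [map_add]; exact hx.add p hy

omit hp in
/-- Maps which shift the weight commute with the projections. -/
theorem prj_comm (F : Cx K n →+ Cx K m) (e : ℤ) (hF : ∀ k y, BWt p k y → BWt p (k + e) (F y))
    (w : ℤ) (y : Cx K n) : prj p (w + e) (F y) = F (prj p w y) := by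
  induction y using Cx.ind p with
  | h1 k y hy =>
    rw [hy.prj, (hF k y hy).prj]
    simp only [add_left_inj]
    split_ifs
    · rfl
    · exact (map_zero F).symm
  | h2 x y hx hy => rw [map_add, map_add, map_add, map_add, hx, hy]

end Vale.Agent.P236B

end
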