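import Vale.Agent.P257.H80.HazWt
import Vale.Agent.P251.F.F3Maps

/-!
# P236B: the formal sums `x +_F t_1 x^p +_F t_2 x^{p^2} +_F ⋯`
-/

noncomputable section

namespace Vale.Agent.P236B

open Vale.Agent.P217 Vale.Agent.P251.F Vale.Agent.P251.F.F3 Vale.Agent.P257.H80 PowerSeries

variable (p : ℕ) [hp : Fact p.Prime] {A B : Type*} [CommRing A] [CommRing B]

/-- `tt t 0 = 1`, `tt t (k + 1) = t k`. -/
def tt (t : ℕ → B) : ℕ → B
  | 0 => 1
  | k + 1 => t k

@[simp] theorem tt_zero (t : ℕ → B) : tt t 0 = 1 := rfl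

@[simp] theorem tt_succ (t : ℕ → B) (k : ℕ) : tt t (k + 1) = t k := rfl

theorem map_tt (θ : A →+* B) (t : ℕ → A) (j : ℕ) : θ (tt t j) = tt (fun k => θ (t k)) j := by
  cases j
  · exact map_one θ
  · rfl

theorem eqMod_iff {m : ℕ} {f g : PowerSeries B} :
    EqMod m f g ↔ ∀ k < m, coeff k f = coeff k g := by
  constructor
  · intro h k hk
    exact h (Finsupp.single () k) (by simpa using hk)
  · intro h e he
    rw [← coeff_def (n := e ()) rfl]
    refine h _ ?_
    rwa [Finsupp.degree_eq_sum, Fintype.sum_unique] at he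

/-- the point `a x ^ q` -/
def mono (F : Law B) (a : B) (j : ℕ) : Pt F.toFG Unit :=
  Pt.mk _ (C a * X ^ p ^ j : PowerSeries B) (by
    change constantCoeff (C a * X ^ p ^ j : PowerSeries B) = 0
    simp [hp.out.ne_zero])

/-- the finite formal sums -/
def psum (F : Law B) (t : ℕ → B) (n : ℕ) : Pt F.toFG Unit :=
  ∑ j ∈ Finset.range (n + 1), mono p F (tt t j) j

theorem coeff_add_mono (F : Law B) (f : Pt F.toFG Unit) (a : B) (j : ℕ) {k : ℕ}
    (hk : k ≤ p ^ j) : coeff k ((f + mono p F a j).val : PowerSeries B) =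
      coeff k (f.val : PowerSeries B) + if k = p ^ j then a else 0 := by
  obtain ⟨H, hH⟩ := exists_FG_decomp F.toFG
  have hs := F3.hasSubst_pair f.const (mono p F a j).const
  have h1 : ((f + mono p F a j).val : PowerSeries B) = f.val + (mono p F a j).val +
      f.val * (mono p F a j).val * H.subst ![f.val, (mono p F a j).val] := by
    rw [Pt.val_add, hH, ← sHom_apply hs, map_add, map_add, map_mul, map_mul, sHom_X, sHom_X,
      sHom_apply]
    rfl
  obtain ⟨g, hg⟩ : (X : PowerSeries B) ∣ f.val := X_dvd_iff.2 f.const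
  have h2 : (X : PowerSeries B) ^ (p ^ j + 1) ∣
      f.val * (mono p F a j).val * H.subst ![f.val, (mono p F a j).val] :=
    Dvd.dvd.mul_right ⟨g * C a, by
      rw [hg]
      change (X * g * (C a * X ^ p ^ j) : PowerSeries B) = _
      ring⟩ _
  rw [h1, map_add, map_add, X_pow_dvd_iff.1 h2 k (by omega), add_zero]
  congr 1
  change coeff k (C a * X ^ p ^ j : PowerSeries B) = _
  rw [coeff_C_mul, coeff_X_pow, mul_ite, mul_one, mul_zero]

theorem psum_succ (F : Law B) (t : ℕ → B) (n : ℕ) :
    psum p F t (n + 1) = psum p F t n + mono p F (t n) (n + 1) := Finset.sum_range_succ _ _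

theorem psum_zero (F : Law B) (t : ℕ → B) : ((psum p F t 0).val : PowerSeries B) = X := by
  rw [psum, Finset.sum_range_one]
  change (C 1 * X ^ p ^ 0 : PowerSeries B) = X
  simp

theorem coeff_psum_le (F : Law B) (t : ℕ → B) {n n' k : ℕ} (h : n ≤ n') (hk : k < p ^ (n + 1)) :
    coeff k ((psum p F t n').val : PowerSeries B) = coeff k ((psum p F t n).val : PowerSeries B) := by
  induction n', h using Nat.le_induction with
  | base => rfl
  | succ m hm ih =>
    have h1 : p ^ (n + 1) ≤ p ^ (m + 1) := Nat.pow_le_pow_right hp.out.pos (by omega)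
    rw [psum_succ, coeff_add_mono p F _ _ _ (by omega), if_neg (by omega), add_zero, ih]

theorem lt_pow_succ (k : ℕ) : k < p ^ (k + 1) :=
  (Nat.lt_pow_self hp.out.one_lt).trans (Nat.pow_lt_pow_right hp.out.one_lt (Nat.lt_succ_self _))

theorem coeff_one_psum (F : Law B) (t : ℕ → B) :
    coeff 1 ((psum p F t 1).val : PowerSeries B) = 1 := by
  rw [coeff_psum_le p F t (Nat.zero_le 1) (by simpa using hp.out.one_lt), psum_zero, coeff_one_X]

/-- The formal sum `x +_F t_1 x^p +_F t_2 x^{p^2} +_F ⋯`. -/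
def par (F : Law B) (t : ℕ → B) : InvSeries B :=
  InvSeries.ofCoeff (fun m => coeff (m + 1) ((psum p F t (m + 1)).val : PowerSeries B))
    (by rw [zero_add, coeff_one_psum]; exact isUnit_one)

theorem par_mem (F : Law B) (t : ℕ → B) : par p F t ∈ strict B := by
  rw [mem_strict, par, InvSeries.c_ofCoeff, zero_add, coeff_one_psum]

theorem coeff_par (F : Law B) (t : ℕ → B) {n k : ℕ} (hk : k < p ^ (n + 1)) :
    coeff k (par p F t).val = coeff k ((psum p F t n).val : PowerSeries B) := by
  rcases k with _ | k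
  · rw [coeff_zero_eq_constantCoeff_apply, coeff_zero_eq_constantCoeff_apply, (par p F t).cc]
    exact (psum p F t n).const.symm
  · change (par p F t).c k = _
    rw [par, InvSeries.c_ofCoeff, ← coeff_psum_le p F t (le_max_left n (k + 1)) hk,
      coeff_psum_le p F t (le_max_right n (k + 1)) (lt_pow_succ p _)]

theorem par_eqMod (F : Law B) (t : ℕ → B) (n : ℕ) :
    EqMod (p ^ (n + 1)) (par p F t).val (psum p F t n).val :=
  eqMod_iff.2 fun _ hk => coeff_par p F t hk

theorem psum_congr (F : Law B) {t t' : ℕ → B} {n : ℕ} (h : ∀ k < n, t k = t' k) :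
    psum p F t n = psum p F t' n := by
  refine Finset.sum_congr rfl fun j hj => ?_
  rcases j with _ | j
  · rfl
  · rw [tt_succ, tt_succ, h j (by simpa using hj)]

/-- triangularity -/
theorem coeff_par_sub (F : Law B) {t t' : ℕ → B} {n : ℕ} (h : ∀ k < n, t k = t' k) :
    coeff (p ^ (n + 1)) (par p F t).val - coeff (p ^ (n + 1)) (par p F t').val = t n - t' n := by
  have h1 : p ^ (n + 1) < p ^ (n + 1 + 1) := Nat.pow_lt_pow_right hp.out.one_lt (by omega)
  rw [coeff_par p F t h1, coeff_par p F t' h1, psum_succ, psum_succ,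
    coeff_add_mono p F _ _ _ le_rfl, coeff_add_mono p F _ _ _ le_rfl, psum_congr p F h, if_pos rfl,
    if_pos rfl]
  ring

theorem par_injective (F : Law B) : Function.Injective (par p F) := by
  intro t t' h
  funext n
  induction n using Nat.strong_induction_on with
  | _ n ih =>
    have := coeff_par_sub p F ih
    rw [h, sub_self] at this
    exact sub_eq_zero.1 this.symm

theorem par_zero (F : Law B) : par p F (fun _ => 0) = 1 := by
  ext k
  rw [coeff_par p F _ (lt_pow_succ p k), InvSeries.one_val]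
  congr 1
  induction k with
  | zero => exact psum_zero p F _
  | succ k ih =>
    have : mono p F 0 (k + 1) = 0 := Pt.ext (by
      change (C 0 * X ^ p ^ (k + 1) : PowerSeries B) = 0
      simp)
    rw [psum_succ, this, add_zero, ih]

theorem par_map (θ : A →+* B) (F : Law A) (t : ℕ → A) :
    InvSeries.map θ (par p F t) = par p (F.map θ) fun k => θ (t k) := by
  ext k
  rw [InvSeries.map_val, coeff_map, coeff_par p _ _ (lt_pow_succ p k),
    coeff_par p _ _ (lt_pow_succ p k), ← coeff_map]
  congr 1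
  have h := congrArg Pt.val (map_sum (Pt.baseHom θ F.toFG) (fun j => mono p F (tt t j) j)
    (Finset.range (k + 1)))
  refine h.trans (congrArg Pt.val (Finset.sum_congr rfl fun j _ => Pt.ext ?_))
  change PowerSeries.map θ (C (tt t j) * X ^ p ^ j) = C _ * X ^ p ^ j
  rw [map_mul, map_pow, map_C, map_X, map_tt]

/-- an isomorphism acts on points -/
def ptMap (g : InvSeries B) {F G : Law B} (h : g • F = G) : Pt F.toFG Unit →+ Pt G.toFG Unit :=
  Pt.mapHom g.val g.cc fun f f' =>
    ((InvSeries.smul_eq_iff_isHom g F G).1 h).substL f.hasSubst f'.hasSubst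

theorem mul_par_eqMod (g : InvSeries B) {F G : Law B} (h : g • F = G) (t : ℕ → B) (n : ℕ) :
    EqMod (p ^ (n + 1)) (g * par p F t).val
      (∑ j ∈ Finset.range (n + 1), ptMap g h (mono p F (tt t j) j)).val := by
  rw [← map_sum]
  exact EqMod.subst_right (par p F t).hs.const (psum p F t n).hasSubst.const _
    fun _ => par_eqMod p F t n

theorem par_scale (u : Bˣ) (F : Law B) (t : ℕ → B) :
    par p ((InvSeries.lin u)⁻¹ • F) (fun k => (u : B) ^ (p ^ (k + 1) - 1) * t k) =
      (InvSeries.lin u)⁻¹ * par p F t * InvSeries.lin u := by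
  have hu : MvPowerSeries.constantCoeff (InvSeries.lin u).val = 0 := (InvSeries.lin u).cc
  ext k
  rw [coeff_par p _ _ (lt_pow_succ p k)]
  have h1 := (mul_par_eqMod p (InvSeries.lin u)⁻¹ (F := F) rfl t k).subst_left
    (InvSeries.lin u).hs.const (fun _ => hu)
  refine Eq.trans ?_ (eqMod_iff.1 h1 k (lt_pow_succ p k)).symm
  congr 1
  have h := congrArg Pt.val (map_sum (Pt.substHom ((InvSeries.lin u)⁻¹ • F).toFG
    (fun _ : Unit => (InvSeries.lin u).val) fun _ => hu)
    (fun j => ptMap (InvSeries.lin u)⁻¹ rfl (mono p F (tt t j) j)) (Finset.range (k + 1)))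
  refine Eq.trans (congrArg Pt.val (Finset.sum_congr rfl fun j _ => Pt.ext ?_)) h.symm
  have h2 : HasSubst (C (tt t j) * X ^ p ^ j : PowerSeries B) := (mono p F (tt t j) j).hasSubst
  change (C _ * X ^ p ^ j : PowerSeries B) = subst (InvSeries.lin u).val
    (subst (C (tt t j) * X ^ p ^ j : PowerSeries B) ((InvSeries.lin u)⁻¹).val : PowerSeries B)
  rw [← map_inv, InvSeries.lin_val, InvSeries.lin_val, subst_mul h2, subst_X h2, subst_C]
  have h3 : HasSubst (C (u : B) * X : PowerSeries B) := (InvSeries.lin u).hs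
  have h4 : ∀ a : B, (subst (C (u : B) * X : PowerSeries B)
      (MvPowerSeries.C a : PowerSeries B) : PowerSeries B) = C a := fun a => subst_C a
  rw [subst_mul h3, subst_mul h3, subst_pow h3, subst_X h3, h4, subst_C, mul_pow, ← map_pow]
  change _ = C _ * (C _ * (C _ * X ^ p ^ j))
  rw [← mul_assoc, ← mul_assoc, ← map_mul, ← map_mul]
  congr 2
  obtain ⟨m, hm⟩ : ∃ m, p ^ j = m + 1 := ⟨p ^ j - 1, by
    have := pow_pos hp.out.pos j
    omega⟩
  have h5 : (u⁻¹ : Bˣ) * tt t j * (u : B) ^ p ^ j = (u : B) ^ (p ^ j - 1) * tt t j := by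
    rw [hm, pow_succ, Nat.add_sub_cancel]
    linear_combination (u : B) ^ m * tt t j * u.inv_mul
  rw [h5]
  rcases j with _ | j
  · simp
  · rfl

theorem val_sum_addLaw {ι : Type*} (s : Finset ι) (f : ι → Pt (addLaw B).toFG Unit) :
    (∑ i ∈ s, f i).val = ∑ i ∈ s, (f i).val := by
  classical
  induction s using Finset.induction_on with
  | empty => rfl
  | insert a s ha ih =>
    have hs := F3.hasSubst_pair (f a).const (∑ i ∈ s, f i).const
    rw [Finset.sum_insert ha, Finset.sum_insert ha, Pt.val_add, ← ih]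
    change MvPowerSeries.subst _ (addLaw B).ps = _
    rw [addLaw_ps, MvPowerSeries.subst_add hs, MvPowerSeries.subst_X hs, MvPowerSeries.subst_X hs]
    rfl

theorem coeff_subst_mono (g : PowerSeries B) (a : B) {q : ℕ} (hq : 0 < q) (k : ℕ) :
    coeff k (subst (C a * X ^ q : PowerSeries B) g : PowerSeries B) =
      if q ∣ k then coeff (k / q) g * a ^ (k / q) else 0 := by
  have h0 : MvPowerSeries.constantCoeff (C a * X ^ q : PowerSeries B) = 0 := by
    change constantCoeff (C a * X ^ q : PowerSeries B) = 0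
    simp [hq.ne']
  have h := hz_coeff_subst g h0 (Finsupp.single () k) (M := k + 1) (by simp)
  refine h.trans ?_
  have h1 : ∀ m, MvPowerSeries.coeff (Finsupp.single () k) ((C a * X ^ q : PowerSeries B) ^ m) =
      if k = q * m then a ^ m else 0 := fun m => by
    change coeff k ((C a * X ^ q : PowerSeries B) ^ m) = _
    rw [mul_pow, ← map_pow, ← pow_mul, coeff_C_mul, coeff_X_pow, mul_ite, mul_one, mul_zero]
  simp only [h1]
  split_ifs with h2
  · obtain ⟨m, rfl⟩ := h2
    rw [Nat.mul_div_cancel_left m hq, Finset.sum_eq_single m, if_pos rfl]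
    · intro b _ hb
      rw [if_neg (fun e => hb (Nat.eq_of_mul_eq_mul_left hq e).symm), mul_zero]
    · intro hm
      exact absurd (Finset.mem_range.2 (by nlinarith)) hm
  · exact Finset.sum_eq_zero fun m _ => by rw [if_neg (fun e => h2 ⟨m, e⟩), mul_zero]

/-- The logarithm of the formal sum. -/
theorem coeff_log_par (L : InvSeries B) {F : Law B} (h : L • F = addLaw B) (t : ℕ → B)
    {n k : ℕ} (hk : k < p ^ (n + 1)) : coeff k (L * par p F t).val =
      ∑ j ∈ Finset.range (n + 1),
        if p ^ j ∣ k then coeff (k / p ^ j) L.val * tt t j ^ (k / p ^ j) else 0 := by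
  rw [eqMod_iff.1 (mul_par_eqMod p L h t n) k hk, val_sum_addLaw]
  refine (map_sum (coeff k) _ _).trans (Finset.sum_congr rfl fun j _ => ?_)
  exact coeff_subst_mono L.val _ (pow_pos hp.out.pos j) k

end Vale.Agent.P236B

end
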