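import Vale.Agent.P236B.Grp
import Vale.Agent.P251.F.F3Sparse

/-!
# P236B: paths in the groupoid of Hazewinkel laws, the cosimplicial ring `Cx K n`

A path is a point `v` with the coordinates `t i` of consecutive arrows. `Cx K n` is the ring
`K[v][t^(0), …, t^(n-1)]` of functions on paths of length `n`.
-/

noncomputable section

namespace Vale.Agent.P236B

open Vale.Agent.P217 Vale.Agent.P251.F Vale.Agent.P251.F.F3 Vale.Agent.P257.H80 MvPolynomial

variable (p : ℕ) [hp : Fact p.Prime] {R S : Type} [CommRing R] [CommRing S]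

/-- A point and a sequence of arrows. -/
@[ext] structure Path (R : Type) [CommRing R] where
  /-- the first vertex -/
  v : VPt R
  /-- the coordinates of the arrows -/
  t : ℕ → ℕ → R

namespace Path

/-- base change -/
def map (θ : R →+* S) (c : Path R) : Path S := ⟨θ.comp c.v, fun i k => θ (c.t i k)⟩

/-- the arrows from the `n`-th on are replaced by identities -/
def trunc (n : ℕ) (c : Path R) : Path R := ⟨c.v, fun i k => if i < n then c.t i k else 0⟩

/-- rescaling -/
def scale (u : Rˣ) (c : Path R) : Path R := ⟨scV p u c.v, fun i => sc p u (c.t i)⟩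

variable [ZP p R] [ZP p S]

/-- the vertices -/
def vert (c : Path R) : ℕ → VPt R
  | 0 => c.v
  | i + 1 => tgt p (vert c i) (c.t i)

/-- the isomorphisms from the first vertex -/
def gs (c : Path R) : ℕ → strict R
  | 0 => 1
  | i + 1 => ⟨iso p (vert p c i) (c.t i), iso_mem p _ _⟩ * gs c i

theorem gs_succ (c : Path R) (i : ℕ) :
    (c.gs p (i + 1) : InvSeries R) = iso p (c.vert p i) (c.t i) * c.gs p i := rfl

theorem gs_zero (c : Path R) : (c.gs p 0 : InvSeries R) = 1 := rfl

theorem gs_smul (c : Path R) (i : ℕ) :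
    (c.gs p i : InvSeries R) • hz p c.v = hz p (c.vert p i) := by
  induction i with
  | zero => exact one_smul _ _
  | succ i ih => rw [gs_succ, mul_smul, ih, iso_smul]; rfl

/-- the coordinates of the arrow from the vertex `i` to the vertex `j` -/
def arr (c : Path R) (i j : ℕ) : ℕ → R :=
  crd p (c.vert p i) (c.gs p j * (c.gs p i : InvSeries R)⁻¹)

theorem gs_div_smul (c : Path R) (i j : ℕ) : ((c.gs p j : InvSeries R) *
    (c.gs p i : InvSeries R)⁻¹) • hz p (c.vert p i) = hz p (c.vert p j) := by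
  rw [← gs_smul, ← gs_smul, smul_smul, inv_mul_cancel_right]

theorem iso_arr (c : Path R) (i j : ℕ) :
    iso p (c.vert p i) (c.arr p i j) = c.gs p j * (c.gs p i : InvSeries R)⁻¹ :=
  iso_crd p (mul_mem (c.gs p j).2 (inv_mem (c.gs p i).2)) (c.gs_div_smul p i j)

theorem tgt_arr (c : Path R) (i j : ℕ) : tgt p (c.vert p i) (c.arr p i j) = c.vert p j :=
  tgt_crd p (mul_mem (c.gs p j).2 (inv_mem (c.gs p i).2)) (c.gs_div_smul p i j)

theorem arr_self (c : Path R) (i : ℕ) : c.arr p i i = fun _ => 0 :=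
  iso_injective p _ (by rw [iso_arr, mul_inv_cancel, iso_zero])

theorem arr_succ (c : Path R) (i : ℕ) : c.arr p i (i + 1) = c.t i :=
  iso_injective p _ (by rw [iso_arr, gs_succ, mul_inv_cancel_right])

theorem cmp_arr (c : Path R) (i j k : ℕ) :
    cmp p (c.vert p i) (c.arr p i j) (c.arr p j k) = c.arr p i k :=
  iso_injective p _ (by rw [iso_cmp, tgt_arr, iso_arr, iso_arr, iso_arr]; group)

theorem arr_add_two (c : Path R) (i : ℕ) :
    c.arr p i (i + 2) = cmp p (c.vert p i) (c.t i) (c.t (i + 1)) := by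
  rw [← cmp_arr p c i (i + 1), arr_succ, arr_succ]

/-- the path through the vertices `f 0, f 1, …` -/
def res (f : ℕ → ℕ) (c : Path R) : Path R := ⟨c.vert p (f 0), fun i => c.arr p (f i) (f (i + 1))⟩

theorem vert_res (f : ℕ → ℕ) (c : Path R) (k : ℕ) : (c.res p f).vert p k = c.vert p (f k) := by
  induction k with
  | zero => rfl
  | succ k ih => rw [vert, ih]; exact c.tgt_arr p _ _

theorem gs_res (f : ℕ → ℕ) (c : Path R) (k : ℕ) : ((c.res p f).gs p k : InvSeries R) =
    c.gs p (f k) * (c.gs p (f 0) : InvSeries R)⁻¹ := by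
  induction k with
  | zero => exact (mul_inv_cancel _).symm
  | succ k ih =>
    rw [gs_succ, ih, vert_res]
    change iso p _ (c.arr p (f k) (f (k + 1))) * _ = _
    rw [iso_arr]
    group

theorem arr_res (f : ℕ → ℕ) (c : Path R) (i j : ℕ) :
    (c.res p f).arr p i j = c.arr p (f i) (f j) := by
  rw [arr, arr, vert_res, gs_res, gs_res]
  congr 1
  group

theorem res_res (f g : ℕ → ℕ) (c : Path R) :
    (c.res p f).res p g = c.res p fun i => f (g i) :=
  Path.ext (vert_res p f c _) (funext fun _ => arr_res p f c _ _)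

theorem res_id (c : Path R) : c.res p (fun i => i) = c :=
  Path.ext rfl (funext fun i => c.arr_succ p i)

theorem vert_map (θ : R →+* S) (c : Path R) (i : ℕ) :
    (c.map θ).vert p i = θ.comp (c.vert p i) := by
  induction i with
  | zero => rfl
  | succ i ih => rw [vert, vert, ih, tgt_map]; rfl

theorem gs_map (θ : R →+* S) (c : Path R) (i : ℕ) :
    (c.map θ).gs p i = smap θ (c.gs p i) := by
  apply Subtype.ext
  induction i with
  | zero => exact (map_one _).symm
  | succ i ih => rw [gs_succ, ih, val_smap, val_smap, gs_succ, map_mul, iso_map, vert_map]; rfl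

theorem arr_map (θ : R →+* S) (c : Path R) (i j k : ℕ) :
    (c.map θ).arr p i j k = θ (c.arr p i j k) := by
  rw [arr, arr, crd_map, vert_map, gs_map, gs_map, map_mul, map_inv, val_smap, val_smap]

theorem res_map (θ : R →+* S) (f : ℕ → ℕ) (c : Path R) :
    (c.res p f).map θ = (c.map θ).res p f :=
  Path.ext (vert_map p θ c _).symm (funext fun _ => funext fun _ => (arr_map p θ c _ _ _).symm)

theorem vert_congr {c c' : Path R} {n : ℕ} (hv : c.v = c'.v) (ht : ∀ i < n, c.t i = c'.t i) :
    ∀ i ≤ n, c.vert p i = c'.vert p i ∧ c.gs p i = c'.gs p i := by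
  intro i hi
  induction i with
  | zero => exact ⟨hv, rfl⟩
  | succ i ih =>
    obtain ⟨h1, h2⟩ := ih (by omega)
    refine ⟨by rw [vert, vert, h1, ht i hi], Subtype.ext ?_⟩
    rw [gs_succ, gs_succ, h1, h2, ht i hi]

theorem vert_trunc (c : Path R) (n i : ℕ) : (c.trunc n).vert p i = c.vert p (min i n) ∧
    (c.trunc n).gs p i = c.gs p (min i n) := by
  have h1 := vert_congr p (c := c.trunc n) (c' := c) (n := n) rfl
    fun j hj => funext fun k => if_pos hj
  rcases le_total i n with h | h
  · rw [min_eq_left h]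
    exact h1 i h
  · rw [min_eq_right h]
    induction i, h using Nat.le_induction with
    | base => exact h1 n le_rfl
    | succ i hi ih =>
      have h0 : (c.trunc n).t i = fun _ => 0 := funext fun k => if_neg (by omega)
      refine ⟨by rw [vert, h0, tgt_zero, ih.1], Subtype.ext ?_⟩
      rw [gs_succ, h0, iso_zero, one_mul, ih.2]

theorem res_trunc (c : Path R) (n : ℕ) (f : ℕ → ℕ) :
    (c.trunc n).res p f = c.res p fun i => min (f i) n :=
  Path.ext (c.vert_trunc p n _).1 (funext fun i => by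
    change (c.trunc n).arr p _ _ = c.arr p _ _
    rw [arr, arr, (c.vert_trunc p n _).1, (c.vert_trunc p n _).2, (c.vert_trunc p n _).2])

theorem vert_scale (u : Rˣ) (c : Path R) (i : ℕ) :
    (c.scale p u).vert p i = scV p u (c.vert p i) := by
  induction i with
  | zero => rfl
  | succ i ih => rw [vert, vert, ih, ← tgt_sc]; rfl

theorem gs_scale (u : Rˣ) (c : Path R) : (c.scale p u).gs p = conjSeq u (c.gs p) := by
  funext i
  apply Subtype.ext
  change _ = (InvSeries.lin u)⁻¹ * (c.gs p i : InvSeries R) * InvSeries.lin u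
  induction i with
  | zero => rw [gs_zero, gs_zero, mul_one, inv_mul_cancel]
  | succ i ih =>
    rw [gs_succ, gs_succ, ih, vert_scale]
    change iso p _ (sc p u (c.t i)) * _ = _
    rw [iso_sc]
    group

theorem res_scale (u : Rˣ) (f : ℕ → ℕ) (c : Path R) :
    (c.scale p u).res p f = (c.res p f).scale p u :=
  Path.ext (c.vert_scale p u _) (funext fun i => by
    change (c.scale p u).arr p _ _ = sc p u (c.arr p _ _)
    apply iso_injective p ((c.scale p u).vert p (f i))
    rw [iso_arr, vert_scale, iso_sc, iso_arr, gs_scale]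
    simp only [conjSeq]
    group)

end Path

/-! ### functions on paths -/

/-- `K[v][t^(0), …, t^(n-1)]` -/
abbrev Cx (K : Type) [CommRing K] (n : ℕ) : Type := MvPolynomial (Fin n × ℕ) (MvPolynomial ℕ K)

variable {K : Type} [CommRing K] {n m l : ℕ}

/-- the `K`-algebra point of `v` -/
def kx (κ : K →+* R) (v : VPt R) : MvPolynomial ℕ K →+* R := eval₂Hom κ fun k => v (X k)

@[simp] theorem kx_C (κ : K →+* R) (v : VPt R) (a : K) : kx κ v (C a) = κ a := eval₂Hom_C _ _ _

@[simp] theorem kx_X (κ : K →+* R) (v : VPt R) (k : ℕ) : kx κ v (X k) = v (X k) :=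
  eval₂Hom_X' _ _ _

theorem comp_kx (θ : R →+* S) (κ : K →+* R) (v : VPt R) :
    θ.comp (kx κ v) = kx (θ.comp κ) (θ.comp v) :=
  MvPolynomial.ringHom_ext (fun a => by simp) fun k => by simp

/-- Evaluation on a path. -/
def evP (κ : K →+* R) (c : Path R) : Cx K n →+* R :=
  eval₂Hom (kx κ c.v) fun im => c.t im.1 im.2

@[simp] theorem evP_C (κ : K →+* R) (c : Path R) (a : MvPolynomial ℕ K) :
    evP (n := n) κ c (C a) = kx κ c.v a := eval₂Hom_C _ _ _

@[simp] theorem evP_X (κ : K →+* R) (c : Path R) (im : Fin n × ℕ) :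
    evP κ c (X im) = c.t im.1 im.2 := eval₂Hom_X' _ _ _

theorem evP_map (θ : R →+* S) (κ : K →+* R) (c : Path R) (y : Cx K n) :
    evP (θ.comp κ) (c.map θ) y = θ (evP κ c y) := by
  have : evP (n := n) (θ.comp κ) (c.map θ) = θ.comp (evP κ c) :=
    MvPolynomial.ringHom_ext (fun a => by
      rw [evP_C, RingHom.comp_apply, evP_C, ← RingHom.comp_apply θ, comp_kx]; rfl) fun im => by
      rw [evP_X, RingHom.comp_apply, evP_X]; rfl
  rw [this, RingHom.comp_apply]

theorem evP_congr (κ : K →+* R) {c c' : Path R} (hv : c.v = c'.v)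
    (ht : ∀ i < n, c.t i = c'.t i) : evP (n := n) κ c = evP κ c' := by
  rw [evP, evP, hv]
  congr 1
  funext im
  rw [ht _ im.1.2]

/-- the structure map -/
def kap (K : Type) [CommRing K] (n : ℕ) : K →+* Cx K n := C.comp C

/-- the universal path -/
def uP (K : Type) [CommRing K] (n : ℕ) : Path (Cx K n) :=
  ⟨vmk fun k => C (X k), fun i k => if h : i < n then X (⟨i, h⟩, k) else 0⟩

theorem kx_uP : kx (kap K n) (uP K n).v = C :=
  MvPolynomial.ringHom_ext (fun _ => kx_C _ _ _) fun _ => (kx_X _ _ _).trans (vmk_X _ _)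

theorem evP_uP (y : Cx K n) : evP (kap K n) (uP K n) y = y := by
  have : evP (n := n) (kap K n) (uP K n) = RingHom.id _ :=
    MvPolynomial.ringHom_ext (fun a => by rw [evP_C, kx_uP]; rfl) fun im => by
      rw [evP_X]; exact dif_pos im.1.2
  rw [this, RingHom.id_apply]

theorem evP_kap (κ : K →+* R) (c : Path R) : (evP κ c).comp (kap K n) = κ :=
  RingHom.ext fun _ => (evP_C _ _ _).trans (kx_C _ _ _)

theorem uP_map (κ : K →+* R) (c : Path R) : (uP K n).map (evP κ c) = c.trunc n :=
  Path.ext (VPt.ext fun k => by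
    change evP κ c (vmk _ (X k)) = _
    rw [vmk_X, evP_C, kx_X]; rfl) (funext fun i => funext fun k => by
    change evP κ c (dite _ _ _) = ite _ _ _
    split_ifs with h
    · exact evP_X _ _ _
    · exact map_zero _)

theorem uP_trunc : (uP K n).trunc n = uP K n :=
  Path.ext rfl (funext fun i => funext fun k => by
    change ite _ (dite _ _ _) _ = dite _ _ _
    split_ifs <;> rfl)

variable [ZP p K]

/-- The cosimplicial operator with vertices `f 0, f 1, …`. -/
def cm (n : ℕ) (f : ℕ → ℕ) {m : ℕ} : Cx K m →+* Cx K n := evP (kap K n) ((uP K n).res p f)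

theorem evP_cm' [ZP p R] (κ : K →+* R) (c : Path R) (f : ℕ → ℕ) (y : Cx K m) :
    evP κ c (cm p n f y) = evP κ (c.res p fun i => min (f i) n) y := by
  rw [cm, ← evP_map, evP_kap, Path.res_map, uP_map, Path.res_trunc]

omit [ZP p K] in
theorem evP_res_congr [ZP p R] (κ : K →+* R) (c : Path R) {f g : ℕ → ℕ}
    (h : ∀ i ≤ m, f i = g i) : evP (n := m) κ (c.res p f) = evP κ (c.res p g) :=
  evP_congr κ (by change c.vert p _ = c.vert p _; rw [h 0 (Nat.zero_le m)]) fun i hi => by
    change c.arr p _ _ = c.arr p _ _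
    rw [h i hi.le, h (i + 1) hi]

theorem evP_cm [ZP p R] (κ : K →+* R) (c : Path R) {f : ℕ → ℕ} (hf : ∀ i ≤ m, f i ≤ n)
    (y : Cx K m) : evP κ c (cm p n f y) = evP κ (c.res p f) y := by
  rw [evP_cm', evP_res_congr p κ c fun i hi => min_eq_left (hf i hi)]

theorem cm_congr {f g : ℕ → ℕ} (h : ∀ i ≤ m, f i = g i) (y : Cx K m) :
    cm p n f y = cm p n g y := by rw [cm, cm, evP_res_congr p _ _ h]

theorem cm_cm (f : ℕ → ℕ) {g : ℕ → ℕ} (hg : ∀ i ≤ l, g i ≤ m) (y : Cx K l) :
    cm p n f (cm p m g y) = cm p n (fun i => f (g i)) y := by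
  rw [cm, evP_cm p _ _ hg, Path.res_res, cm]

theorem cm_id (y : Cx K n) : cm p n (fun i => i) y = y := by rw [cm, Path.res_id, evP_uP]

/-- `y` is homogeneous of weight `w`. -/
def BWt (w : ℤ) (y : Cx K n) : Prop :=
  ∀ (R : Type) [CommRing R] (κ : K →+* R) (c : Path R) (u : Rˣ),
    evP κ (c.scale p u) y = ((u ^ w : Rˣ) : R) * evP κ c y

theorem BWt.cm {w : ℤ} {y : Cx K m} (hy : BWt p w y) (f : ℕ → ℕ) : BWt p w (cm p n f y) :=
  fun R _ κ c u => by
    have : ZP p R := ZP.map p κ
    rw [evP_cm', evP_cm', Path.res_scale, hy]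

end Vale.Agent.P236B

end
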