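import Vale.Agent.P236B.Path
import Vale.Agent.P236T.Coh

/-!
# P236B: the comparison `pi` of the cobar complex of a law ring with the complex `Cx K`

`pi` restricts functions on chains of laws to chains of Hazewinkel laws; `sg` composes with the
canonical isomorphisms onto Hazewinkel laws. `pi ∘ sg = 1`, and `sg ∘ pi` is homotopic to `1`.
-/

noncomputable section

namespace Vale.Agent.P236B

open Vale.Agent.P217 Vale.Agent.P251.F Vale.Agent.P251.F.F3 Vale.Agent.P257.H80 MvPolynomial
  Vale.Agent.P236T LawRing Finset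

variable (p : ℕ) [hp : Fact p.Prime] {R S K N : Type} [CommRing R] [CommRing S] [CommRing K]
  [CommRing N] [LawRing N] {n m : ℕ}

section cx

variable [ZP p K]

/-- The differential of `Cx K`. -/
def dB (n : ℕ) : Cx K n →+ Cx K (n + 1) :=
  ∑ i ∈ range (n + 2), (-1 : ℤ) ^ i • (cm p (n + 1) (sk i) : Cx K n →+* _).toAddMonoidHom

theorem dB_apply (y : Cx K n) :
    dB p n y = ∑ i ∈ range (n + 2), (-1 : ℤ) ^ i • cm p (n + 1) (sk i) y := by
  rw [dB, AddMonoidHom.finsetSum_apply]
  rfl

/-- The cup product of `Cx K`. -/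
def cpB {a b n : ℕ} (_ : a + b = n) (x : Cx K a) (y : Cx K b) : Cx K n :=
  cm p n (fun i => i) x * cm p n (fun i => a + i) y

end cx

/-- A point of the law ring `N` with the universal Hazewinkel law over `K[v]`. -/
structure Dat (N K : Type) [CommRing N] [LawRing N] [CommRing K] where
  /-- the point -/
  x : N →+* MvPolynomial ℕ K
  law : (LawRing.law (N := N)).map x = hz p (vmk X)
  epi : LawRing.Epi N

namespace Dat

variable {p} (D : Dat p N K)

/-- the point of `N` with the law of `v` -/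
def pt (κ : K →+* R) (v : VPt R) : N →+* R := (kx κ v).comp D.x

theorem law_pt (κ : K →+* R) (v : VPt R) : (LawRing.law (N := N)).map (D.pt κ v) = hz p v := by
  rw [pt, ← Law.map_map, D.law, hz_map]
  exact congrArg (hz p) (VPt.ext fun k => by rw [RingHom.comp_apply, vmk_X, kx_X])

theorem comp_pt (θ : R →+* S) (κ : K →+* R) (v : VPt R) :
    θ.comp (D.pt κ v) = D.pt (θ.comp κ) (θ.comp v) := by
  rw [pt, pt, ← RingHom.comp_assoc, comp_kx]

theorem act_pt (κ : K →+* R) {v w : VPt R} {g : InvSeries R} (h : g • hz p v = hz p w) :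
    act g (D.pt κ v) = D.pt κ w :=
  D.epi _ _ _ (by rw [law_act, law_pt, law_pt, h])

/-- the chain of a path -/
def ch [ZP p R] (n : ℕ) (κ : K →+* R) (c : Path R) : Chain N n R := ofSeq n (D.pt κ c.v) (c.gs p)

theorem ch_map [ZP p R] [ZP p S] (θ : R →+* S) (κ : K →+* R) (c : Path R) :
    (D.ch n κ c).map θ = D.ch n (θ.comp κ) (c.map θ) := by
  rw [ch, ofSeq_map, comp_pt, ch]
  congr 1
  funext k
  exact (c.gs_map p θ k).symm

theorem ch_trunc [ZP p R] (κ : K →+* R) (c : Path R) : D.ch n κ (c.trunc n) = D.ch n κ c :=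
  ofSeq_congr fun k hk => by rw [(c.vert_trunc p n k).2, min_eq_left hk]

theorem ch_res [ZP p R] (κ : K →+* R) (c : Path R) (α : Fin (m + 1) → Fin (n + 1)) {f : ℕ → ℕ}
    (h : ∀ i : Fin (m + 1), (α i : ℕ) = f i) : (D.ch n κ c).res α = D.ch m κ (c.res p f) := by
  have h0 : (α 0 : ℕ) = f 0 := h 0
  ext1
  · rw [Chain.res_pt, ch, ch, ofSeq_pt, ofSeq_pt, ofSeq_g, ← act_mul, inv_mul_cancel_right,
      Path.gs_zero, act_one, h0]
    exact D.act_pt κ (c.gs_smul p _)
  · funext i
    rw [Chain.res_g, ch, ch, ofSeq_g, ofSeq_g, ofSeq_g, Path.gs_res, Path.gs_res, h, h0]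
    group

theorem ch_scale [ZP p R] (κ : K →+* R) (c : Path R) (u : Rˣ) :
    D.ch n κ (c.scale p u) = (D.ch n κ c).scale u := by
  rw [ch, ch, ofSeq_scale, Path.gs_scale, D.act_pt κ (hz_scV p u c.v).symm]
  rfl

variable [ZP p K]

/-- **The comparison map.** -/
def pi (n : ℕ) : Cob N n →+* Cx K n := Cob.ev (D.ch n (kap K n) (uP K n))

theorem evP_pi [ZP p R] (κ : K →+* R) (c : Path R) (x : Cob N n) :
    evP κ c (D.pi n x) = Cob.ev (D.ch n κ c) x := by
  rw [pi, ← Cob.ev_map, ch_map, evP_kap, uP_map, ch_trunc]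

theorem pi_C (a : N) : D.pi n (C a) = C (D.x a) := by
  rw [pi, Cob.ev_C, ch, ofSeq_pt, Path.gs_zero, act_one, pt, kx_uP]
  rfl

theorem pi_mp (f : ℕ → ℕ) (x : Cob N m) : D.pi n (mp n f x) = cm p n f (D.pi m x) := by
  rw [← evP_uP (cm p n f _), evP_cm', evP_pi, pi, mp, Cob.ev_map_res, ch_res]
  exact fun _ => rfl

theorem pi_d (x : Cob N n) : D.pi (n + 1) (Cob.d n x) = dB p n (D.pi n x) := by
  rw [d_eq, dB_apply, map_sum]
  exact Finset.sum_congr rfl fun i _ => by rw [map_zsmul, pi_mp]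

theorem pi_cp {a b : ℕ} (h : a + b = n) (x : Cob N a) (y : Cob N b) :
    D.pi n (cp h x y) = cpB p h (D.pi a x) (D.pi b y) := by
  rw [cp, cpB, map_mul, pi_mp, pi_mp]

theorem bWt_pi {w : ℤ} {x : Cob N n} (hx : Cob.IsWt w x) : BWt p w (D.pi n x) :=
  fun R _ κ c u => by
    have : ZP p R := ZP.map p κ
    rw [evP_pi, evP_pi, ch_scale, hx]

end Dat

/-! ### the canonical isomorphisms -/

section ty

variable [ZP p R] [ZP p S]

/-- the canonical isomorphism of `F` with a Hazewinkel law -/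
def ty (F : Law R) : InvSeries R := strictMk (bS p (typ p (ZP.ploc p) F))

/-- the point of the Hazewinkel law of `F` -/
def tv (F : Law R) : VPt R := vS p (typ p (ZP.ploc p) F)

theorem ty_smul (F : Law R) : ty p F • F = hz p (tv p F) := isTyp_typ p _ F

theorem ty_hz (v : VPt R) : ty p (hz p v) = 1 := by rw [ty, typ_haz, bS_seqV, strictMk_zero]

theorem tv_hz (v : VPt R) : tv p (hz p v) = v := by rw [tv, typ_haz, vS_seqV]

theorem map_ty (θ : R →+* S) (F : Law R) : InvSeries.map θ (ty p F) = ty p (F.map θ) := by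
  rw [ty, ty, map_strictMk]
  congr 1
  funext n
  rw [map_bS]
  congr 1
  funext k
  exact (typ_map p _ _ θ F k).symm

theorem comp_tv (θ : R →+* S) (F : Law R) : θ.comp (tv p F) = tv p (F.map θ) :=
  hz_injective p (by rw [← hz_map, ← ty_smul, ← ty_smul, InvSeries.map_smul, map_ty])

theorem ty_lin (u : Rˣ) (F : Law R) : ty p ((InvSeries.lin u)⁻¹ • F) =
    (InvSeries.lin u)⁻¹ * ty p F * InvSeries.lin u := by
  refine InvSeries.ext_c fun k => ?_
  rw [c_conj_lin]
  rcases k with _ | k
  · rw [ty, ty, c_zero_strictMk, c_zero_strictMk, pow_zero, mul_one]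
  · rw [ty, ty, c_succ_strictMk, c_succ_strictMk, bS, bS]
    split_ifs
    · rw [mul_zero]
    · exact typ_lin p _ u F k

theorem tv_lin (u : Rˣ) (F : Law R) : tv p ((InvSeries.lin u)⁻¹ • F) = scV p u (tv p F) :=
  hz_injective p (by
    rw [← ty_smul, hz_scV, ← ty_smul, ty_lin, mul_smul, smul_inv_smul, mul_smul])

/-- `U k = ty (G k • x) * G k` -/
def uS (x : N →+* R) (G : ℕ → strict R) : ℕ → strict R := fun k =>
  ⟨ty p ((G k : InvSeries R) • law.map x) * G k, mul_mem (strictMk_mem _) (G k).2⟩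

theorem val_uS (x : N →+* R) (G : ℕ → strict R) (k : ℕ) :
    (uS p x G k : InvSeries R) = ty p ((G k : InvSeries R) • law.map x) * G k := rfl

theorem uS_smul (x : N →+* R) (G : ℕ → strict R) (k : ℕ) : (uS p x G k : InvSeries R) • law.map x =
    hz p (tv p ((G k : InvSeries R) • law.map x)) := by rw [val_uS, mul_smul, ty_smul]

theorem uS_del (x : N →+* R) (G : ℕ → strict R) (j : ℕ) : uS p x (del j G) = del j (uS p x G) := by
  funext k
  simp only [del, uS]
  split_ifs <;> rfl

theorem smap_uS (θ : R →+* S) (x : N →+* R) (G : ℕ → strict R) (k : ℕ) :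
    smap θ (uS p x G k) = uS p (θ.comp x) (fun k => smap θ (G k)) k := by
  apply Subtype.ext
  rw [val_smap, val_uS, val_uS, map_mul, map_ty, InvSeries.map_smul, Law.map_map]
  rfl

theorem uS_translate (x : N →+* R) (G G' : ℕ → strict R) (g : InvSeries R) (k : ℕ)
    (h : (G' k : InvSeries R) = G k * g⁻¹) :
    (uS p (act g x) G' k : InvSeries R) = uS p x G k * g⁻¹ := by
  rw [val_uS, val_uS, h, law_act, smul_smul, inv_mul_cancel_right, mul_assoc]

theorem conj_smul (x : N →+* R) (G : ℕ → strict R) (u : Rˣ) (k : ℕ) :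
    ((conjSeq u G k : strict R) : InvSeries R) • law.map (act (InvSeries.lin u)⁻¹ x) =
      (InvSeries.lin u)⁻¹ • ((G k : InvSeries R) • law.map x) := by
  rw [law_act, smul_smul, smul_smul]
  congr 1
  change (InvSeries.lin u)⁻¹ * G k * InvSeries.lin u * (InvSeries.lin u)⁻¹ = _
  group

theorem uS_conj (x : N →+* R) (G : ℕ → strict R) (u : Rˣ) :
    uS p (act (InvSeries.lin u)⁻¹ x) (conjSeq u G) = conjSeq u (uS p x G) := by
  funext k
  apply Subtype.ext
  rw [val_uS, conj_smul, ty_lin]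
  change _ * ((InvSeries.lin u)⁻¹ * G k * InvSeries.lin u) =
    (InvSeries.lin u)⁻¹ * (ty p ((G k : InvSeries R) • law.map x) * G k) * InvSeries.lin u
  group

/-- the path of Hazewinkel laws attached to a sequence -/
def tP (x : N →+* R) (G : ℕ → strict R) : Path R :=
  ⟨tv p ((G 0 : InvSeries R) • law.map x), fun i => crd p (tv p ((G i : InvSeries R) • law.map x))
    (uS p x G (i + 1) * (uS p x G i : InvSeries R)⁻¹)⟩

theorem uS_div_smul (x : N →+* R) (G : ℕ → strict R) (i j : ℕ) :
    ((uS p x G j : InvSeries R) * (uS p x G i : InvSeries R)⁻¹) •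
      hz p (tv p ((G i : InvSeries R) • law.map x)) =
      hz p (tv p ((G j : InvSeries R) • law.map x)) := by
  rw [← uS_smul, ← uS_smul, smul_smul, inv_mul_cancel_right]

theorem vert_tP (x : N →+* R) (G : ℕ → strict R) (k : ℕ) :
    (tP p x G).vert p k = tv p ((G k : InvSeries R) • law.map x) := by
  induction k with
  | zero => rfl
  | succ k ih =>
    rw [Path.vert, ih]
    exact tgt_crd p (mul_mem (uS p x G _).2 (inv_mem (uS p x G _).2)) (uS_div_smul p x G _ _)

theorem gs_tP (x : N →+* R) (G : ℕ → strict R) (k : ℕ) : ((tP p x G).gs p k : InvSeries R) =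
    uS p x G k * (uS p x G 0 : InvSeries R)⁻¹ := by
  induction k with
  | zero => exact (mul_inv_cancel _).symm
  | succ k ih =>
    rw [Path.gs_succ, ih, vert_tP]
    change iso p _ (crd p _ _) * _ = _
    rw [iso_crd p (mul_mem (uS p x G _).2 (inv_mem (uS p x G _).2)) (uS_div_smul p x G _ _)]
    group

theorem tP_res (x : N →+* R) (G : ℕ → strict R) (f : ℕ → ℕ) :
    (tP p x G).res p f = tP p x fun k => G (f k) :=
  Path.ext (vert_tP p x G _) (funext fun i => by
    change crd p _ _ = crd p _ ((uS p x G (f (i + 1)) : InvSeries R) *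
      (uS p x G (f i) : InvSeries R)⁻¹)
    rw [vert_tP, gs_tP, gs_tP]
    congr 1
    group)

theorem tP_map (θ : R →+* S) (x : N →+* R) (G : ℕ → strict R) :
    (tP p x G).map θ = tP p (θ.comp x) fun k => smap θ (G k) := by
  have h : ∀ i, θ.comp (tv p ((G i : InvSeries R) • law.map x)) =
      tv p ((smap θ (G i) : InvSeries S) • law.map (θ.comp x)) := fun i => by
    rw [comp_tv, InvSeries.map_smul, Law.map_map, val_smap]
  refine Path.ext (h 0) (funext fun i => funext fun k => ?_)
  change θ (crd p _ _ k) = crd p _ _ k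
  rw [crd_map, h, map_mul, map_inv, ← smap_uS, ← smap_uS, val_smap, val_smap, val_smap]

theorem evP_tP_translate (κ : K →+* R) (x : N →+* R) (G G' : ℕ → strict R) (g : InvSeries R)
    (h : ∀ k ≤ n, (G' k : InvSeries R) = G k * g⁻¹) :
    evP (n := n) κ (tP p (act g x) G') = evP κ (tP p x G) := by
  have h1 : ∀ k ≤ n, (G' k : InvSeries R) • law.map (act g x) = (G k : InvSeries R) • law.map x :=
    fun k hk => by rw [h k hk, law_act, smul_smul, inv_mul_cancel_right]
  refine evP_congr κ (congrArg (tv p) (h1 0 (Nat.zero_le n))) fun i hi => ?_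
  change crd p _ _ = crd p _ _
  rw [h1 i hi.le, uS_translate p x G G' g _ (h i hi.le), uS_translate p x G G' g _ (h _ hi)]
  congr 1
  group

theorem tP_scale (x : N →+* R) (G : ℕ → strict R) (u : Rˣ) :
    tP p (act (InvSeries.lin u)⁻¹ x) (conjSeq u G) = (tP p x G).scale p u := by
  refine Path.ext ((congrArg (tv p) (conj_smul x G u 0)).trans (tv_lin p u _)) (funext fun i => ?_)
  change crd p _ _ = sc p u (crd p _ _)
  rw [conj_smul, tv_lin, uS_conj]
  refine Eq.trans (congrArg (crd p _) ?_) (crd_iso p _ _)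
  rw [iso_sc, iso_crd p (mul_mem (uS p x G _).2 (inv_mem (uS p x G _).2)) (uS_div_smul p x G _ _)]
  simp only [conjSeq]
  group

theorem Dat.tP_pt (D : Dat p N K) (κ : K →+* R) (c : Path R) :
    tP p (D.pt κ c.v) (c.gs p) = c := by
  have h1 : ∀ k, (c.gs p k : InvSeries R) • LawRing.law.map (D.pt κ c.v) = hz p (c.vert p k) :=
    fun k => by rw [D.law_pt, Path.gs_smul]
  refine Path.ext ((congrArg (tv p) (h1 0)).trans (tv_hz p _)) (funext fun i => ?_)
  change crd p _ _ = _
  rw [val_uS, val_uS, h1, h1, tv_hz, ty_hz, ty_hz, one_mul, one_mul]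
  exact c.arr_succ p i

theorem Dat.ch_tP (D : Dat p N K) (κ : K →+* R) (x : N →+* R) (G : ℕ → strict R) :
    D.ch n κ (tP p x G) = ofSeq n x (uS p x G) := by
  have h : D.pt κ (tP p x G).v = act (uS p x G 0 : InvSeries R) x :=
    D.epi _ _ _ (by rw [law_act, D.law_pt, uS_smul]; rfl)
  rw [Dat.ch, h]
  exact ofSeq_translate x _ _ _ fun k _ => gs_tP p x G k

end ty

end Vale.Agent.P236B

end
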