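import Vale.Agent.P236B.Col

/-!
# P236B: `Φ` is a quasi-isomorphism modulo `v₁ ^ r` in the checked range
-/

noncomputable section

namespace Vale.Agent.P236B

open Vale.Agent.P257.H80 MvPolynomial Vale.Agent.P236T Finset

namespace Res

variable {G : Type} [Fintype G] [DecidableEq G] (R : Res 3 G) {i j n r N e : ℕ} {w : ℤ}

/-- The checked range covers all weights up to `e` and all stages up to `n`. -/
def OkU (N n e : ℕ) : Prop := ∀ j ≤ n, R.Q N j e ∧ ∀ e' ≤ e, R.Xc j e'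

/-- boundaries of the small complex modulo `v₁ ^ r` -/
def Bd (n : ℕ) (w : ℤ) (r : ℕ) : AddSubgroup (L G 0) where
  carrier := {y | ∃ x ∈ R.VW (n - 1) w 0, y - R.Dp n 0 x ∈ Jv G r 0}
  zero_mem' := ⟨0, zero_mem _, by simp⟩
  add_mem' := by
    rintro a b ⟨x, hx, h1⟩ ⟨y, hy, h2⟩
    exact ⟨x + y, add_mem hx hy, by rw [map_add, add_sub_add_comm]; exact add_mem h1 h2⟩
  neg_mem' := by
    rintro a ⟨x, hx, h1⟩
    exact ⟨-x, neg_mem hx, by rw [map_neg, neg_sub_neg, ← neg_sub]; exact neg_mem h1⟩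

/-- a function in the place of the generator of stage zero -/
def sg0 (n : ℕ) : Cx (ZMod 3) n →+ L G n := AddMonoidHom.single (fun _ => Cx (ZMod 3) n) R.g0

/-- **The comparison map.** -/
def Φ (n : ℕ) : Cx (ZMod 3) n →+ L G 0 := (R.Ψ n 0).comp (R.sg0 n)

variable {R}

omit [DecidableEq G] in
theorem Bd_of_Jv {y : L G 0} (h : y ∈ Jv G r 0) : y ∈ R.Bd n w r := ⟨0, zero_mem _, by simpa⟩

omit [DecidableEq G] in
theorem Bd_mono (hr : r ≤ N) {y : L G 0} (h : y ∈ R.Bd n w N) : y ∈ R.Bd n w r :=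
  let ⟨x, hx, h1⟩ := h
  ⟨x, hx, Jv_mono hr h1⟩

omit [Fintype G] in
theorem sg0_comm {m : ℕ} (F : Cx (ZMod 3) n → Cx (ZMod 3) m) (h : F 0 = 0) (z : Cx (ZMod 3) n) :
    (fun g => F (R.sg0 n z g)) = R.sg0 m (F z) :=
  funext fun g => Pi.apply_single (fun _ => F) (fun _ => h) R.g0 z g

omit [Fintype G] in
theorem cv_sg0 {m : ℕ} (f : ℕ → ℕ) (z : Cx (ZMod 3) n) :
    cv m f (R.sg0 n z) = R.sg0 m (cm 3 m f z) := sg0_comm (R := R) (cm 3 m f) (map_zero _) z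

omit [Fintype G] in
theorem sg0_mem {z : Cx (ZMod 3) n} : R.sg0 n z ∈ Jv G r n ↔ C (X 0) ^ r ∣ z := by
  refine ⟨fun h => by simpa [sg0] using h R.g0, fun h g => ?_⟩
  by_cases h1 : g = R.g0
  · simpa [sg0, h1] using h
  · simp [sg0, h1]

omit [Fintype G] in
theorem sg0_wt {z : Cx (ZMod 3) n} (hz : BWt 3 w z) : R.sg0 n z ∈ R.VW 0 w n := fun g => by
  by_cases h1 : g = R.g0
  · simpa [sg0, h1, (R.deg_zero R.g0).2 rfl] using hz
  · simpa [sg0, h1] using BWt.zero 3 _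

omit [Fintype G] in
theorem dv_up_sg0 (z : Cx (ZMod 3) n) : dv (n + 1) (cv (n + 1) (fun k => k) (R.sg0 n z)) =
    cv (n + 2) (fun k => k) (R.sg0 (n + 1) (dB 3 n z)) := by
  rw [dv_up, sg0_comm _ (map_zero _)]

omit [Fintype G] [DecidableEq G] in
theorem down_up (c : L G n) : cv n (fun k => k) (cv (n + 1) (fun k => k) c) = c :=
  cv_cv_id (fun k hk => by omega) c

theorem Av_up (z : Cx (ZMod 3) n) : R.Av 0 n (cv (n + 1) (fun k => k) (R.sg0 n z)) = 0 := by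
  have h1 := R.Av_mul (j := 0) le_rfl z (R.sg0 (n + 1) 1)
  rw [sg0_comm (fun y => cm 3 (n + 1) (fun k => k) z * y) (mul_zero _), mul_one] at h1
  rw [cv_sg0, h1]
  funext g
  have h2 := Av_wt (R := R) (sg0_wt (n := n + 1) (w := 0) (z := 1) fun _ _ _ _ _ => by simp) g
  have h3 := R.deg_one g
  rw [h2.eq_zero 3 (by simp only [zero_add]; omega), mul_zero]
  rfl

theorem D_up (z : Cx (ZMod 3) n) : R.D 0 (n + 1) (cv (n + 1) (fun k => k) (R.sg0 n z)) = 0 := by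
  rw [D_apply, cv_cv_eq (f' := fun k => k) (g' := fun k => k) (m' := n + 1) fun k hk => ?_,
    cv_sg0 (m := n + 1), Av_up]
  unfold sk
  split_ifs <;> omega

theorem Φ_wt {z : Cx (ZMod 3) n} (hz : BWt 3 w z) : R.Φ n z ∈ R.VW n w 0 := Ψ_wt (sg0_wt hz)

theorem Φ_mem {z : Cx (ZMod 3) n} (hz : C (X 0) ^ r ∣ z) : R.Φ n z ∈ Jv G r 0 :=
  R.Ψ_mem (sg0_mem.2 hz)

/-- **`Φ` is a chain map.** -/
theorem Φ_dB (hQ : ∀ k < n, R.Q N k e) {z : Cx (ZMod 3) n} (hz : BWt 3 e z) :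
    R.Φ (n + 1) (dB 3 n z) - R.D n 0 (R.Φ n z) ∈ Jv G N 0 := by
  have h := Ψ_dv (j := 0) hQ (sg0_wt hz)
  have h1 := congrArg (R.Ψ (n + 1) 0) (dB_eq_dv (R.sg0 n z))
  rw [sg0_comm _ (map_zero _), map_add, map_zsmul, Ψ_succ (c := cv _ _ _), Av_up, map_zero,
    smul_zero, add_zero] at h1
  rwa [← h1] at h

/-- **`Φ` is compatible with products.** -/
theorem Φ_cpB {a : ℕ} (h : a + i = n) (b : Cx (ZMod 3) a) (z : Cx (ZMod 3) i) :
    R.Φ n (cpB 3 h b z) = R.acG a i b (R.Φ i z) := by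
  refine Eq.trans ?_ (R.Ψ_mul (j := 0) h b (R.sg0 i z))
  rw [sg0_comm (fun y => cm 3 n (fun k => k) b * cm 3 n (fun k => a + k) y)
    (by rw [map_zero, mul_zero])]
  rfl

omit [DecidableEq G] in
theorem stair (hQ : ∀ k < i + j, R.Q N k e) (hr : r ≤ N) {k : L G (i + 1)}
    (hk : k ∈ R.VW j e (i + 1)) :
    R.Ψ (i + 1) j (cv (i + 1) (fun l => l) (dv (i + 1) k)) - (-1 : ℤ) ^ (i + 1) •
      R.Ψ i (j + 1) (cv i (fun l => l) (R.D j (i + 1) k)) ∈ R.Bd (i + j + 1) e r := by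
  rw [down_dv, map_add, map_zsmul, down_D, ← Ψ_succ, add_sub_cancel_right]
  exact ⟨_, Ψ_wt (cv_wt _ hk), Jv_mono hr (Ψ_dv hQ (cv_wt _ hk))⟩

theorem neg_one_smul_smul {M : Type*} [AddCommGroup M] (k : ℕ) (x : M) :
    (-1 : ℤ) ^ k • (-1 : ℤ) ^ k • x = x := by
  rw [smul_smul, ← mul_pow, neg_mul_neg, one_mul, one_pow, one_smul]

theorem BWt.zsmul {z : Cx (ZMod 3) n} (hz : BWt 3 w z) (k : ℤ) : BWt 3 w (k • z) :=
  zsmul_mem (S := AddSubgroup _) (K := BW w n) hz k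

theorem surj_aux (hO : R.OkU N n e) (hr : r ≤ N) (h : i + j = n) {c : L G (i + 1)}
    (hc : c ∈ R.VW j e (i + 1)) (h1 : dv (i + 1) c ∈ Jv G r (i + 2))
    (h2 : R.D j (i + 1) c ∈ Jv G r (i + 1)) : ∃ z, BWt 3 e z ∧ C (X 0) ^ r ∣ dB 3 n z ∧
      R.Φ n z - R.Ψ i j (cv i (fun l => l) c) ∈ R.Bd n e r := by
  induction j generalizing i with
  | zero =>
    obtain rfl : i = n := h
    obtain ⟨z, hz, h3⟩ := col_zero (hO 0 i.zero_le).2 hc h2
    have h4 := cv_mem (n := i + 1) (fun k => k) (sub_mem h1 (dv_mem h3))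
    have h5 := R.Ψ_mem (j := 0) (neg_mem (cv_mem (n := i) (fun k => k) h3))
    rw [map_sub, neg_sub, map_sub, down_up] at h5
    rw [map_sub (dv _), sub_sub_cancel] at h4
    exact ⟨z, hz, sg0_mem.1 (by rwa [← down_up (R.sg0 _ _), ← dv_up_sg0]), Bd_of_Jv h5⟩
  | succ j ih =>
    obtain ⟨k, hk, h3⟩ := col hr (hO _ (by omega)).2 (fun l hl => (hO l (by omega)).1) hc h2
    obtain ⟨z, hz, h4, h5⟩ := ih (i := i + 1) (by omega) (dv_wt hk) (by
      rw [dv_dv]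
      exact zero_mem _) (by
      have h4 := sub_mem h1 (dv_mem h3)
      rwa [map_sub, sub_sub_cancel, ← D_dv] at h4)
    have h6 := stair (fun l hl => (hO l (by omega)).1) hr hk
    rw [show i + j + 1 = n from h] at h6
    have h7 := Bd_of_Jv (R := R) (n := n) (w := e)
      (R.Ψ_mem (j := j + 1) (cv_mem (n := i) (fun k => k) h3))
    refine ⟨(-1 : ℤ) ^ (i + 1) • z, BWt.zsmul hz _, ?_, ?_⟩
    · rw [map_zsmul, zsmul_eq_mul]
      exact h4.mul_left _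
    · convert sub_mem (zsmul_mem (add_mem h5 h6) ((-1 : ℤ) ^ (i + 1))) h7 using 1
      rw [sub_add_sub_cancel, smul_sub, neg_one_smul_smul, map_zsmul, map_sub, map_sub]
      abel

/-- **Surjectivity in cohomology modulo `v₁ ^ r`.** -/
theorem Φ_surj (hO : R.OkU N n e) (hr : r ≤ N) {x : L G 0} (hx : x ∈ R.VW n e 0)
    (hd : R.D n 0 x ∈ Jv G r 0) :
    ∃ z, BWt 3 e z ∧ C (X 0) ^ r ∣ dB 3 n z ∧ R.Φ n z - x ∈ R.Bd n e r := by
  have h := surj_aux hO hr (zero_add n) (dv_wt hx) (by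
    rw [dv_dv]
    exact zero_mem _) (by
    rw [D_dv]
    exact dv_mem hd)
  rwa [dv_apply, Finset.sum_range_one, pow_zero, one_smul, cv_cv_id fun k hk => by omega,
    Ψ_zero] at h

omit [Fintype G] [DecidableEq G] in
theorem eq_dv {c : L G (i + 1)} (h1 : dv (i + 1) c ∈ Jv G r (i + 2)) :
    c - dv i ((-1 : ℤ) ^ i • cv i (fun l => l) c) ∈ Jv G r (i + 1) := by
  have h := zsmul_mem (cv_mem (n := i + 1) (fun k => k) h1) ((-1 : ℤ) ^ (i + 1))
  rwa [down_dv, smul_add, neg_one_smul_smul, pow_succ, mul_neg_one, neg_smul, neg_add_eq_sub,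
    ← map_zsmul] at h

variable (R) in
/-- the statement of the induction for injectivity -/
def InjS (r e i j : ℕ) : Prop := ∀ c ∈ R.VW (j + 1) e (i + 1), dv (i + 1) c ∈ Jv G r (i + 2) →
  R.D (j + 1) (i + 1) c ∈ Jv G r (i + 1) →
  R.Ψ i (j + 1) (cv i (fun l => l) c) ∈ R.Bd (i + j + 1) e r →
  ∃ m ∈ R.VW j e i, c - dv i (R.D j i m) ∈ Jv G r (i + 1)

omit [DecidableEq G] in
theorem inj_step (hQ : ∀ k ≤ i + j, R.Q N k e) (hr : r ≤ N) (hI : R.InjS r e i j)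
    {c : L G (i + 2)} (hc : c ∈ R.VW j e (i + 2)) (h1 : dv (i + 2) c ∈ Jv G r (i + 3))
    (h2 : R.D j (i + 2) c ∈ Jv G r (i + 2))
    (h3 : R.Ψ (i + 1) j (cv (i + 1) (fun l => l) c) ∈ R.Bd (i + j + 1) e r) :
    ∃ k ∈ R.VW j e (i + 1), R.D j (i + 1) k ∈ Jv G r (i + 1) ∧
      c - dv (i + 1) k ∈ Jv G r (i + 2) := by
  have h4 := eq_dv h1
  have hk : (-1 : ℤ) ^ (i + 1) • cv (i + 1) (fun l => l) c ∈ R.VW j e (i + 1) :=
    zsmul_mem (cv_wt _ hc) _
  generalize (-1 : ℤ) ^ (i + 1) • cv (i + 1) (fun l => l) c = k at h4 hk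
  obtain ⟨m, hm, h5⟩ := hI _ (D_wt hk) (by
    have h5 := sub_mem h2 (R.D_mem (j := j) h4)
    rwa [map_sub, sub_sub_cancel, D_dv] at h5) (Jv_mono hr (D_D (hQ j (by omega)) hk)) (by
    have h5 := Bd_of_Jv (R := R) (n := i + j + 1) (w := e)
      (R.Ψ_mem (j := j) (cv_mem (n := i + 1) (fun k => k) h4))
    have h6 := zsmul_mem (sub_mem (sub_mem h3 h5)
      (stair (fun l hl => hQ l hl.le) hr hk)) ((-1 : ℤ) ^ (i + 1))
    rwa [map_sub, map_sub, sub_sub_cancel, sub_sub_cancel, neg_one_smul_smul] at h6)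
  refine ⟨k - dv i m, sub_mem hk (dv_wt hm), by rwa [map_sub, D_dv], ?_⟩
  rwa [map_sub, dv_dv, sub_zero]

theorem injS (hO : R.OkU N n e) (hr : r ≤ N) (h : i + j ≤ n) : R.InjS r e i j := by
  induction i generalizing j with
  | zero =>
    intro c _ h1 _ h3
    rw [Nat.zero_add] at h3
    obtain ⟨x, hx, h4⟩ := h3
    have h5 := add_mem (eq_dv h1) (dv_mem h4)
    rw [pow_zero, one_smul, map_sub, Ψ_zero, sub_add_sub_cancel] at h5
    exact ⟨x, hx, h5⟩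
  | succ i ih =>
    intro c hc h1 h2 h3
    obtain ⟨k, hk, h4, h5⟩ := inj_step (fun l hl => (hO l (by omega)).1) hr
      (ih (j := j + 1) (by omega)) hc h1 h2 (by rwa [show i + (j + 1) = i + 1 + j by omega])
    obtain ⟨m, hm, h6⟩ := col hr (hO _ (by omega)).2 (fun l hl => (hO l (by omega)).1) hk h4
    have h7 := add_mem h5 (dv_mem h6)
    rw [map_sub, sub_add_sub_cancel] at h7
    exact ⟨m, hm, h7⟩

/-- **Injectivity in cohomology modulo `v₁ ^ r`.** -/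
theorem Φ_inj (hO : R.OkU N n e) (hr : r ≤ N) {z : Cx (ZMod 3) (n + 1)} (hz : BWt 3 e z)
    (hd : C (X 0) ^ r ∣ dB 3 (n + 1) z) (h : R.Φ (n + 1) z ∈ R.Bd (n + 1) e r) :
    ∃ y, BWt 3 e y ∧ C (X 0) ^ r ∣ z - dB 3 n y := by
  obtain ⟨k, hk, h1, h2⟩ := inj_step (i := n) (j := 0) (fun l hl => (hO l hl).1) hr
    (injS hO hr le_rfl) (cv_wt (fun k => k) (sg0_wt hz)) (by
      rw [dv_up_sg0]
      exact cv_mem _ (sg0_mem.2 hd)) (by
      rw [D_up]
      exact zero_mem _) (by rwa [down_up])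
  obtain ⟨y, hy, h3⟩ := col_zero (hO 0 n.zero_le).2 hk h1
  have h4 := cv_mem (n := n + 1) (fun k => k) (add_mem h2 (dv_mem h3))
  rw [map_sub (dv _), sub_add_sub_cancel] at h4
  refine ⟨y, hy, (sg0_mem (R := R)).1 ?_⟩
  rwa [map_sub, ← down_up (R.sg0 _ z), ← down_up (R.sg0 _ (dB 3 n y)), ← dv_up_sg0, ← map_sub]

theorem Φ_inj_zero {z : Cx (ZMod 3) 0} (h : R.Φ 0 z ∈ R.Bd 0 w r) : C (X 0) ^ r ∣ z := by
  obtain ⟨x, -, h1⟩ := h
  rw [Dp, AddMonoidHom.zero_apply, sub_zero] at h1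
  exact sg0_mem.1 h1

omit [DecidableEq G] in
/-- In weight zero nothing has to be checked. -/
theorem okU_zero (h : ∀ j g, 0 < R.deg (j + 1) g) (N n : ℕ) : R.OkU N n 0 := fun j _ => by
  refine ⟨fun g'' g E hE => ?_, fun e' he => ?_⟩
  · refine sum_mem fun g' _ => ?_
    rw [show conv 3 (R.a (j + 1) g'' g') (R.a j g' g) E = 0 from MvPolynomial.ext _ _ fun α => ?_]
    · exact zero_mem _
    · by_contra h1
      have h2 := (R.hom (j + 1) g'' g').conv 3 (R.hom j g' g) E α h1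
      have h3 := h (j + 1) g''
      omega
  · obtain rfl : e' = 0 := by omega
    rcases j with _ | j
    · exact fun h => absurd h (lt_irrefl 0)
    · refine fun c hc _ => ⟨0, fun _ _ h => absurd rfl h, funext fun g => ?_⟩
      rw [show c g = 0 from MvPolynomial.ext _ _ fun E => by_contra fun h1 => by
        have h2 := hc g E h1
        have h3 := h j g
        omega]
      simp [D0]

end Res

end Vale.Agent.P236B

end
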