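import Vale.Agent.P236B.Last

/-!
# P236B: the double complex of a small resolution and the comparison map `Φ`
-/

noncomputable section

namespace Vale.Agent.P236B

open Vale.Agent.P257.H80 MvPolynomial Vale.Agent.P236T Finset

section cm

variable (p : ℕ) [hp : Fact p.Prime] {K : Type} [CommRing K] [ZP p K] {n m l : ℕ}

theorem cm_min (f : ℕ → ℕ) (y : Cx K m) : cm p n f y = cm p n (fun i => min (f i) n) y := by
  rw [← evP_uP (cm p n f y), evP_cm']
  rfl

theorem cm_congr' {f g : ℕ → ℕ} (h : ∀ i ≤ m, min (f i) n = min (g i) n) (y : Cx K m) :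
    cm p n f y = cm p n g y := by rw [cm_min p f, cm_min p g, cm_congr p h]

theorem cm_cm' (f g : ℕ → ℕ) (y : Cx K l) :
    cm p n f (cm p m g y) = cm p n (fun i => f (min (g i) m)) y := by
  rw [cm_min p g, cm_cm p f fun i _ => min_le_right _ _]

theorem cm_cm_eq {m' : ℕ} {f g f' g' : ℕ → ℕ}
    (h : ∀ i ≤ l, min (f (min (g i) m)) n = min (f' (min (g' i) m')) n) (y : Cx K l) :
    cm p n f (cm p m g y) = cm p n f' (cm p m' g' y) := by
  rw [cm_cm', cm_cm', cm_congr' p h]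

theorem cm_cm_id {f g : ℕ → ℕ} (h : ∀ i ≤ n, min (f (min (g i) m)) n = i) (y : Cx K n) :
    cm p n f (cm p m g y) = y := by
  rw [cm_cm', cm_congr' p (g := fun i => i) fun i hi => (h i hi).trans (min_eq_left hi).symm, cm_id]

end cm

variable {G : Type} {n m i j r : ℕ} {w : ℤ}

/-- vectors of functions on paths -/
abbrev L (G : Type) (n : ℕ) : Type := G → Cx (ZMod 3) n

theorem cm_v1 (f : ℕ → ℕ) : cm 3 n f (C (X 0) : Cx (ZMod 3) m) = C (X 0) := by
  have h3 : ((3 : ℕ) : Cx (ZMod 3) n) = 0 := by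
    rw [← map_natCast (kap (ZMod 3) n), ZMod.natCast_self, map_zero]
  rw [cm, evP_C, kx_X]
  exact (Path.vert_X_zero 3 h3 _ _).trans (vmk_X _ _)

theorem cm_dvd (f : ℕ → ℕ) {y : Cx (ZMod 3) m} (h : C (X 0) ^ r ∣ y) :
    C (X 0) ^ r ∣ cm 3 n f y := by
  have := map_dvd (cm 3 n f) h
  rwa [map_pow, cm_v1] at this

theorem al_dvd (a : Fn (ZMod 3)) {y : Cx (ZMod 3) (i + 1)} (h : C (X 0) ^ r ∣ y) :
    C (X 0) ^ r ∣ al 3 a i y := by
  obtain ⟨y, rfl⟩ := h
  have := al_mul 3 (Nat.zero_le i) a (C (X 0) ^ r) y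
  rw [map_pow, map_pow, cm_v1, cm_v1] at this
  exact ⟨_, this⟩

variable (G) in
/-- the multiples of `v₁ ^ r` -/
def Jv (r n : ℕ) : AddSubgroup (L G n) where
  carrier := {c | ∀ g, C (X 0) ^ r ∣ c g}
  zero_mem' _ := dvd_zero _
  add_mem' hx hy g := dvd_add (hx g) (hy g)
  neg_mem' hx g := dvd_neg.2 (hx g)

theorem Jv_mono {N : ℕ} (h : r ≤ N) {c : L G n} (hc : c ∈ Jv G N n) : c ∈ Jv G r n :=
  fun g => (pow_dvd_pow _ h).trans (hc g)

/-- the cosimplicial operators on vectors -/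
def cv (n : ℕ) (f : ℕ → ℕ) {m : ℕ} : L G m →+ L G n :=
  (cm 3 n f : Cx (ZMod 3) m →+* _).toAddMonoidHom.compLeft G

theorem cv_apply (f : ℕ → ℕ) (c : L G m) (g : G) : cv n f c g = cm 3 n f (c g) := rfl

theorem cv_mem (f : ℕ → ℕ) {c : L G m} (hc : c ∈ Jv G r m) : cv n f c ∈ Jv G r n :=
  fun g => cm_dvd f (hc g)

theorem cv_cv_eq {l m' : ℕ} {f g f' g' : ℕ → ℕ}
    (h : ∀ i ≤ l, min (f (min (g i) m)) n = min (f' (min (g' i) m')) n) (c : L G l) :
    cv n f (cv m g c) = cv n f' (cv m' g' c) := funext fun x => cm_cm_eq 3 h (c x)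

theorem cv_cv_id {f g : ℕ → ℕ} (h : ∀ i ≤ n, min (f (min (g i) m)) n = i) (c : L G n) :
    cv n f (cv m g c) = c := funext fun x => cm_cm_id 3 h (c x)

theorem cv_congr {f g : ℕ → ℕ} (h : ∀ i ≤ m, min (f i) n = min (g i) n) (c : L G m) :
    cv n f c = cv n g c := funext fun x => cm_congr' 3 h (c x)

/-- the alternating sum of all faces but the last one -/
def dv (n : ℕ) : L G n →+ L G (n + 1) := ∑ k ∈ range (n + 1), (-1 : ℤ) ^ k • cv (n + 1) (sk k)

theorem dv_apply (c : L G n) :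
    dv n c = ∑ k ∈ range (n + 1), (-1 : ℤ) ^ k • cv (n + 1) (sk k) c := by
  rw [dv, AddMonoidHom.finsetSum_apply]
  rfl

theorem dv_mem {c : L G n} (hc : c ∈ Jv G r n) : dv n c ∈ Jv G r (n + 1) := by
  rw [dv_apply]
  exact sum_mem fun k _ => zsmul_mem (cv_mem _ hc) _

theorem dB_eq_dv (c : L G n) : (fun g => dB 3 n (c g)) =
    dv n c + (-1 : ℤ) ^ (n + 1) • cv (n + 1) (fun i => i) c := by
  funext g
  rw [dB_apply, Finset.sum_range_succ, dv_apply, Pi.add_apply, Finset.sum_apply,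
    cm_congr 3 (g := fun i => i) fun i hi => sk_of_lt (Nat.lt_succ_of_le hi)]
  rfl

theorem dv_up (c : L G n) : dv (n + 1) (cv (n + 1) (fun i => i) c) =
    cv (n + 2) (fun i => i) fun g => dB 3 n (c g) := by
  rw [dB_eq_dv, map_add, map_zsmul, dv_apply, Finset.sum_range_succ, dv_apply, map_sum]
  refine congrArg₂ _ (Finset.sum_congr rfl fun k hk => ?_) ?_
  · rw [map_zsmul, cv_cv_eq fun i hi => ?_]
    unfold sk
    split_ifs <;> omega
  · rw [cv_cv_eq fun i hi => ?_]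
    unfold sk
    split_ifs <;> omega

theorem dv_dv (c : L G n) : dv (n + 1) (dv n c) = 0 := by
  have h1 : (fun g => dB 3 (n + 1) (dB 3 n (c g))) = 0 :=
    funext fun g => dat3.dB_dB k3 (uq_zmod 3) (c g)
  rw [dB_eq_dv fun g => dB 3 n (c g), ← dv_up, dB_eq_dv, map_add, map_zsmul, pow_succ _ (n + 1),
    mul_neg_one, neg_smul, add_neg_cancel_right] at h1
  exact h1

/-- The rows are contractible. -/
theorem down_dv (c : L G (n + 1)) : cv (n + 1) (fun i => i) (dv (n + 1) c) =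
    dv n (cv n (fun i => i) c) + (-1 : ℤ) ^ (n + 1) • c := by
  rw [dv_apply, Finset.sum_range_succ, dv_apply, map_add, map_sum, map_zsmul,
    cv_cv_id fun i hi => ?_]
  · refine congrArg₂ _ (Finset.sum_congr rfl fun k hk => ?_) rfl
    have := Finset.mem_range.1 hk
    rw [map_zsmul, cv_cv_eq fun i hi => ?_]
    unfold sk
    split_ifs <;> omega
  · unfold sk
    split_ifs <;> omega

namespace Res

variable [Fintype G] (R : Res 3 G)

/-- the matrix of functionals applied to the last arrow -/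
def Av (j i : ℕ) : L G (i + 1) →+ L G i :=
  AddMonoidHom.pi fun g' => ∑ g, (al 3 (R.a j g' g) i).comp (Pi.evalAddMonoidHom _ g)

theorem Av_apply (c : L G (i + 1)) (g' : G) :
    R.Av j i c g' = ∑ g, al 3 (R.a j g' g) i (c g) := by
  rw [Av, AddMonoidHom.pi_apply, AddMonoidHom.finsetSum_apply]
  rfl

theorem Av_mem {c : L G (i + 1)} (hc : c ∈ Jv G r (i + 1)) : R.Av j i c ∈ Jv G r i := fun g => by
  rw [Av_apply]
  exact Finset.dvd_sum fun g _ => al_dvd _ (hc g)

theorem cv_Av {f : ℕ → ℕ} (hf : ∀ j ≤ m, f j ≤ n) (h1 : f m = n) (h2 : f (m + 1) = n + 1)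
    (c : L G (m + 1)) : cv n f (R.Av j m c) = R.Av j n (cv (n + 1) f c) := funext fun g' => by
  rw [cv_apply, Av_apply, Av_apply, map_sum]
  exact Finset.sum_congr rfl fun g _ => cm_al 3 hf h1 h2 _ _

theorem face_Av {k : ℕ} (hk : k ≤ m) (c : L G (m + 1)) :
    cv (m + 1) (sk k) (R.Av j m c) = R.Av j (m + 1) (cv (m + 2) (sk k) c) :=
  R.cv_Av (fun _ hi => (sk_le _ _).trans (Nat.succ_le_succ hi)) (sk_of_le hk)
    (sk_of_le (hk.trans m.le_succ)) c

theorem Av_mul (h : m ≤ i) (y : Cx (ZMod 3) m) (c : L G (i + 1)) :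
    R.Av j i (fun g => cm 3 (i + 1) (fun j => j) y * c g) =
      fun g => cm 3 i (fun j => j) y * R.Av j i c g := funext fun g' => by
  rw [Av_apply, Av_apply, Finset.mul_sum]
  exact Finset.sum_congr rfl fun g _ => al_mul 3 h _ _ _

/-- the differential of the columns; for `i = 0` the differential of the small complex -/
def D (j i : ℕ) : L G i →+ L G i := (R.Av j i).comp (cv (i + 1) (sk i))

theorem D_apply (c : L G i) : R.D j i c = R.Av j i (cv (i + 1) (sk i) c) := rfl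

theorem D_mem {c : L G i} (hc : c ∈ Jv G r i) : R.D j i c ∈ Jv G r i := R.Av_mem (cv_mem _ hc)

theorem D_dv (c : L G i) : R.D j (i + 1) (dv i c) = dv i (R.D j i c) := by
  rw [dv_apply, dv_apply, map_sum]
  refine Finset.sum_congr rfl fun k hk => ?_
  have := Finset.mem_range.1 hk
  rw [map_zsmul, D_apply, D_apply, R.face_Av (by omega), cv_cv_eq fun i hi => ?_]
  unfold sk
  split_ifs <;> omega

theorem down_D (c : L G (i + 1)) : cv i (fun k => k) (R.D j (i + 1) c) = R.Av j i c := by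
  have h := R.cv_Av (j := j) (m := i + 1) (n := i) (f := fun k => if k ≤ i then k else k - 1)
    (fun k hk => by split_ifs <;> omega) (by rw [if_neg] <;> omega) (by rw [if_neg] <;> omega)
    (cv (i + 2) (sk (i + 1)) c)
  rw [cv_cv_id fun k hk => ?_] at h
  · exact (cv_congr (fun k hk => by split_ifs <;> omega) _).trans h
  · unfold sk
    split_ifs <;> omega

/-- all functionals applied one after the other -/
def Ψ : ∀ i _ : ℕ, L G i →+ L G 0
  | 0, _ => AddMonoidHom.id _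
  | i + 1, j => (Ψ i (j + 1)).comp (R.Av j i)

theorem Ψ_zero (c : L G 0) : R.Ψ 0 j c = c := rfl

theorem Ψ_succ (c : L G (i + 1)) : R.Ψ (i + 1) j c = R.Ψ i (j + 1) (R.Av j i c) := rfl

theorem Ψ_mem {c : L G i} (hc : c ∈ Jv G r i) : R.Ψ i j c ∈ Jv G r 0 := by
  induction i generalizing j with
  | zero => exact hc
  | succ i ih => exact ih (R.Av_mem hc)

/-- the action of a cochain on the small complex -/
def acG (a s : ℕ) (b : Cx (ZMod 3) a) (x : L G 0) : L G 0 :=
  R.Ψ a s fun g => b * cm 3 a (fun _ => a) (x g)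

theorem Ψ_mul {a : ℕ} (h : a + i = n) (b : Cx (ZMod 3) a) (c : L G i) :
    R.Ψ n j (fun g => cm 3 n (fun k => k) b * cm 3 n (fun k => a + k) (c g)) =
      R.acG a (i + j) b (R.Ψ i j c) := by
  subst h
  induction i generalizing j with
  | zero =>
    rw [acG, Nat.zero_add]
    refine congrArg (R.Ψ a j) (funext fun g => ?_)
    exact congrArg₂ _ (cm_id 3 b) (cm_congr 3 (fun k hk => by omega) (c g))
  | succ i ih =>
    have h1 := R.cv_Av (j := j) (m := i) (n := a + i) (f := fun k => a + k)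
      (fun k hk => by omega) rfl rfl c
    rw [show i + 1 + j = i + (j + 1) by omega, Ψ_succ, ← ih]
    exact congrArg (R.Ψ (a + i) (j + 1)) ((R.Av_mul (Nat.le_add_right a i) b
      (cv (a + i + 1) (fun k => a + k) c)).trans (by rw [← h1]; rfl))

theorem acG_one (x : L G 0) : R.acG 1 j 1 x = R.D j 0 x :=
  congrArg (R.Av j 0) (funext fun g => (one_mul _).trans (cm_congr 3 (fun k hk => by
    rw [sk_of_le k.zero_le]
    omega) _))

theorem Ψ_face_zero (c : L G i) :
    R.Ψ (i + 1) j (cv (i + 1) (sk 0) c) = R.D (i + j) 0 (R.Ψ i j c) := by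
  rw [← acG_one, ← R.Ψ_mul (Nat.add_comm 1 i)]
  refine congrArg _ (funext fun g => ?_)
  rw [map_one, one_mul, cv_apply]
  exact cm_congr 3 (fun k _ => by rw [sk_of_le k.zero_le, Nat.add_comm]) _

/-! ### weights -/

/-- homogeneous vectors -/
def VW (j : ℕ) (w : ℤ) (n : ℕ) : AddSubgroup (L G n) where
  carrier := {c | ∀ g, BWt 3 (w - R.deg j g) (c g)}
  zero_mem' _ := BWt.zero 3 _
  add_mem' hx hy g := (hx g).add 3 (hy g)
  neg_mem' hx g := (hx g).neg 3

variable {R}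

omit [Fintype G] in
theorem cv_wt (f : ℕ → ℕ) {c : L G m} (hc : c ∈ R.VW j w m) : cv n f c ∈ R.VW j w n :=
  fun g => (hc g).cm 3 f

omit [Fintype G] in
theorem dv_wt {c : L G n} (hc : c ∈ R.VW j w n) : dv n c ∈ R.VW j w (n + 1) := by
  rw [dv_apply]
  exact sum_mem fun k _ => zsmul_mem (cv_wt _ hc) _

theorem Av_wt {c : L G (i + 1)} (hc : c ∈ R.VW j w (i + 1)) :
    R.Av j i c ∈ R.VW (j + 1) w i := fun g' => by
  rw [Av_apply]
  refine BWt.sum 3 fun g _ => ?_
  convert (hc g).al 3 (R.hom j g' g) using 1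
  ring

theorem D_wt {c : L G i} (hc : c ∈ R.VW j w i) : R.D j i c ∈ R.VW (j + 1) w i :=
  Av_wt (cv_wt _ hc)

theorem Ψ_wt {c : L G i} (hc : c ∈ R.VW j w i) : R.Ψ i j c ∈ R.VW (i + j) w 0 := by
  induction i generalizing j with
  | zero => rwa [Nat.zero_add]
  | succ i ih =>
    rw [show i + 1 + j = i + (j + 1) by omega]
    exact ih (Av_wt hc)

/-! ### the relation -/

variable {N e : ℕ}

theorem Av_D (hQ : R.Q N j e) {c : L G (i + 1)} (hc : c ∈ R.VW j e (i + 1)) :
    R.Av (j + 1) i (R.D j (i + 1) c) ∈ Jv G N i := fun g'' => by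
  have h1 : R.Av (j + 1) i (R.D j (i + 1) c) g'' = ∑ g, act
      (∑ g', conv 3 (R.a (j + 1) g'' g') (R.a j g' g)) (kap _ i) ((uP _ i).vert 3 i)
        (cur _ i (c g)) := by
    simp only [Av_apply, D_apply, map_sum, act_sum, act_conv]
    rw [Finset.sum_comm]
    refine Finset.sum_congr rfl fun g _ => Finset.sum_congr rfl fun g' _ => ?_
    rw [al_apply, cv_apply, cur_al_face]
  rw [h1]
  refine Finset.dvd_sum fun g _ => ?_
  rw [act_apply]
  refine Finset.dvd_sum fun E hE => Dvd.dvd.mul_left ?_ _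
  have h2 : ¬ (e : ℤ) - R.deg j g - wE 3 E < 0 := fun h =>
    mem_support_iff.1 hE (((hc g).coeff_cur 3 E).eq_zero 3 h)
  obtain ⟨y, hy⟩ := Ideal.mem_span_singleton.1 (hQ g'' g E (by omega))
  rw [Finset.sum_apply, hy, kx_vert, map_mul, map_pow]
  exact cm_dvd _ (dvd_mul_right _ _)

theorem D_D (hQ : R.Q N j e) {c : L G i} (hc : c ∈ R.VW j e i) :
    R.D (j + 1) i (R.D j i c) ∈ Jv G N i := by
  have h := Av_D hQ (cv_wt (n := i + 1) (sk i) hc)
  rw [D_apply, cv_cv_eq (f' := sk i) (g' := sk i) (m' := i + 1) fun k hk => ?_] at h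
  · rwa [D_apply, D_apply, R.face_Av le_rfl]
  · unfold sk
    split_ifs <;> omega

theorem Ψ_face (hQ : ∀ k < i + 1 + j, R.Q N k e) {k : ℕ} (hk : k ≤ i) {c : L G (i + 1)}
    (hc : c ∈ R.VW j e (i + 1)) :
    R.Ψ (i + 2) j (cv (i + 2) (sk (k + 1)) c) ∈ Jv G N 0 := by
  induction i generalizing j with
  | zero =>
    obtain rfl : k = 0 := by omega
    exact Av_D (hQ j (by omega)) hc
  | succ i ih =>
    rcases hk.eq_or_lt with rfl | h
    · rw [Ψ_succ, Ψ_succ]
      exact R.Ψ_mem (Av_D (hQ j (by omega)) hc)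
    · rw [Ψ_succ, ← R.face_Av h]
      exact ih (fun k hk => hQ k (by omega)) (by omega) (Av_wt hc)

/-- **The chain map property.** -/
theorem Ψ_dv (hQ : ∀ k < i + j, R.Q N k e) {c : L G i} (hc : c ∈ R.VW j e i) :
    R.Ψ (i + 1) j (dv i c) - R.D (i + j) 0 (R.Ψ i j c) ∈ Jv G N 0 := by
  rw [dv_apply, Finset.sum_range_succ', map_add, pow_zero, one_smul, Ψ_face_zero,
    add_sub_cancel_right, map_sum]
  refine sum_mem fun k hk => ?_
  have := Finset.mem_range.1 hk
  obtain ⟨i, rfl⟩ : ∃ l, i = l + 1 := ⟨i - 1, by omega⟩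
  rw [map_zsmul]
  exact zsmul_mem (Ψ_face hQ (by omega) hc) _

/-- The action of a cocycle commutes with the differential up to sign. -/
theorem D_acG {a s : ℕ} (hQ : ∀ k < a + s, R.Q N k e) {b : Cx (ZMod 3) a} {u : ℤ}
    (hb : BWt 3 u b) (db : dB 3 a b = 0) {x : L G 0} (hx : x ∈ R.VW s (e - u) 0) :
    R.D (a + s) 0 (R.acG a s b x) + (-1 : ℤ) ^ (a + 1) • R.acG a (s + 1) b (R.D s 0 x) ∈
      Jv G N 0 := by
  have h1 := Ψ_dv (c := fun g => b * cm 3 a (fun _ => a) (x g)) hQ fun g => by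
    convert hb.mul 3 ((hx g).cm 3 _) using 1
    ring
  have h2 := R.Ψ_mul (j := s) (rfl : a + 1 = a + 1) b (cv 1 (sk 0) x)
  rw [Nat.add_comm 1 s] at h2
  have h3 : dv a (fun g => b * cm 3 a (fun _ => a) (x g)) + (-1 : ℤ) ^ (a + 1) •
      (fun g => cm 3 (a + 1) (fun k => k) b * cm 3 (a + 1) (fun k => a + k) (cv 1 (sk 0) x g)) =
        0 := funext fun g => by
    have h4 := congrFun (dB_eq_dv fun _ : G => b) g
    rw [db, dv_apply] at h4
    have h5 : ∀ k ∈ range (a + 1), ((-1 : ℤ) ^ k • cv (a + 1) (sk k)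
        (fun g => b * cm 3 a (fun _ => a) (x g))) g = ((-1 : ℤ) ^ k • cv (a + 1) (sk k)
          fun _ : G => b) g * cm 3 (a + 1) (fun k => a + k) (cv 1 (sk 0) x g) := fun k hk => by
      have := Finset.mem_range.1 hk
      rw [Pi.smul_apply, Pi.smul_apply, cv_apply, cv_apply, cv_apply, map_mul, smul_mul_assoc,
        cm_cm_eq 3 fun i hi => ?_]
      unfold sk
      split_ifs <;> omega
    rw [Pi.add_apply, dv_apply, Finset.sum_apply, Finset.sum_congr rfl h5, ← Finset.sum_mul,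
      ← Finset.sum_apply, Pi.smul_apply, ← smul_mul_assoc, ← add_mul]
    exact (congrArg (· * _) h4.symm).trans (zero_mul _)
  have h6 := congrArg (R.Ψ (a + 1) s) h3
  rw [map_add, map_zsmul, h2, map_zero] at h6
  have h7 := neg_mem h1
  rwa [neg_sub, eq_neg_of_add_eq_zero_left h6, sub_neg_eq_add] at h7

end Res

end Vale.Agent.P236B

end
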