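import Vale.Agent.P236B.Fnl

/-!
# P236B: the data of a small resolution and the conditions which are checked by computation
-/

noncomputable section

namespace Vale.Agent.P236B

open Vale.Agent.P257.H80 MvPolynomial Finset

variable (p : ℕ) [hp : Fact p.Prime] {K : Type} [CommRing K]

/-- the weight of a monomial in the `t_i` or in the `v_i` -/
abbrev wE (p : ℕ) (E : ℕ →₀ ℕ) : ℕ := Finsupp.weight (wv p) E

/-- The functional `a` lowers the weight by `e`. -/
def FW (p : ℕ) (e : ℤ) (a : Fn K) : Prop :=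
  ∀ E α, coeff α (a E) ≠ 0 → (wE p α : ℤ) + e = wE p E

/-- Generators with weights in every stage, and the matrices of functionals between the stages. -/
structure Res (p : ℕ) (G : Type) where
  /-- the weights of the generators -/
  deg : ℕ → G → ℕ
  /-- `a j g' g` goes from the generator `g` of stage `j` to the generator `g'` of stage `j + 1` -/
  a : ℕ → G → G → Fn (ZMod p)
  /-- the generator of stage zero -/
  g0 : G
  hom : ∀ j g' g, FW p ((deg (j + 1) g' : ℤ) - deg j g) (a j g' g)
  deg_zero : ∀ g, deg 0 g = 0 ↔ g = g0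
  deg_one : ∀ g, 0 < deg 1 g

namespace Res

variable {p} {G : Type} [Fintype G] (R : Res p G)

/-- The composite of two consecutive maps vanishes modulo `v₁ ^ N` in weights at most `e`. -/
def Q (N j e : ℕ) : Prop := ∀ g'' g E, wE p E + R.deg j g ≤ e →
  ∑ g', conv p (R.a (j + 1) g'' g') (R.a j g' g) E ∈
    Ideal.span {(X 0 : MvPolynomial ℕ (ZMod p)) ^ N}

/-- The differential modulo the ideal of all `v_i`. -/
def D0 (j : ℕ) (c : G → MvPolynomial ℕ (ZMod p)) : G → MvPolynomial ℕ (ZMod p) :=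
  fun g' => ∑ g, op p (R.a j g' g) (RingHom.id _) (vmk 0) (c g)

/-- homogeneous vectors of polynomials in the `t_i` -/
def PW (j e : ℕ) (c : G → MvPolynomial ℕ (ZMod p)) : Prop :=
  ∀ g E, coeff E (c g) ≠ 0 → wE p E + R.deg j g = e

/-- Exactness modulo the ideal of all `v_i`, in stage `j` and weight `e`. -/
def Xc : ℕ → ℕ → Prop
  | 0, e => 0 < e → ∀ c, R.PW 0 e c → R.D0 0 c = 0 → c = 0
  | j + 1, e => ∀ c, R.PW (j + 1) e c → R.D0 (j + 1) c = 0 → ∃ k, R.PW j e k ∧ R.D0 j k = c

/-- The checked range covers the bidegree `(n, w)`. -/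
def Ok (N n w : ℕ) : Prop :=
  (∀ j < n, ∀ e, e + (p - 1) * (n - 2 - j) ≤ w → R.Q N j e) ∧
    ∀ j ≤ n, ∀ e, e + (p - 1) * (n - 1 - j) ≤ w → R.Xc j e

end Res

end Vale.Agent.P236B

end
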