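import Mathlib.Algebra.BigOperators.Group.Finset.Basic
import Mathlib.Algebra.Ring.Hom.Defs
import Mathlib.Data.Nat.Bitwise
import Mathlib.Tactic.Ring
import Mathlib.Tactic.LinearCombination
import Mathlib.Tactic.IntervalCases

/-!
# P236B: sparse polynomials with packed exponents, modulo an integer

A term is a pair (coefficient, key); the digits of the key in base `256` are the exponents of the
variables `x 0, …, x 11`.
-/

noncomputable section

namespace Vale.Agent.P236B

variable {B S : Type} [CommRing B] [CommRing S]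

/-- the monomial whose exponents are the first `n` digits of `k` -/
def monN : ℕ → (ℕ → B) → ℕ → B
  | 0, _, _ => 1
  | n + 1, x, k => x 0 ^ (k % 256) * monN n (fun i => x (i + 1)) (k / 256)

/-- the top bits of `n` digits -/
def msk : ℕ → ℕ
  | 0 => 0
  | n + 1 => 128 + 256 * msk n

theorem small_step {n k : ℕ} (h : k &&& msk (n + 1) = 0) :
    k % 256 < 128 ∧ (k / 256) &&& msk n = 0 := by
  have h1 : (k &&& msk (n + 1)) % 2 ^ 8 = k % 2 ^ 8 &&& msk (n + 1) % 2 ^ 8 := Nat.and_mod_two_pow
  have h2 : (k &&& msk (n + 1)) / 2 ^ 8 = k / 2 ^ 8 &&& msk (n + 1) / 2 ^ 8 := Nat.and_div_two_pow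
  have h3 : msk (n + 1) % 2 ^ 8 = 128 := by rw [msk]; omega
  have h4 : msk (n + 1) / 2 ^ 8 = msk n := by rw [msk]; omega
  rw [h, h3] at h1
  rw [h, h4] at h2
  have h5 : ∀ a < 256, a &&& 128 = 0 → a < 128 := by decide +kernel
  exact ⟨h5 _ (Nat.mod_lt _ (by norm_num)) h1.symm, h2.symm⟩

theorem monN_add (n : ℕ) (x : ℕ → B) {k l : ℕ} (hk : k &&& msk n = 0) (hl : l &&& msk n = 0) :
    monN n x (k + l) = monN n x k * monN n x l := by
  induction n generalizing x k l with
  | zero => exact (mul_one _).symm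
  | succ n ih =>
    obtain ⟨k1, k2⟩ := small_step hk
    obtain ⟨l1, l2⟩ := small_step hl
    rw [monN, monN, monN, show (k + l) % 256 = k % 256 + l % 256 by omega,
      show (k + l) / 256 = k / 256 + l / 256 by omega, ih _ k2 l2, pow_add]
    ring

theorem monN_zero (n : ℕ) (x : ℕ → B) : monN n x 0 = 1 := by
  induction n generalizing x with
  | zero => rfl
  | succ n ih => rw [monN, Nat.zero_div, ih, Nat.zero_mod, pow_zero, mul_one]

theorem monN_pow {n i : ℕ} (h : i < n) (x : ℕ → B) : monN n x (256 ^ i) = x i := by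
  induction i generalizing n x with
  | zero =>
    obtain ⟨n, rfl⟩ := Nat.exists_eq_succ_of_ne_zero h.ne'
    rw [monN, pow_zero, show 1 / 256 = 0 from rfl, monN_zero, mul_one]
    exact pow_one _
  | succ i ih =>
    obtain ⟨n, rfl⟩ := Nat.exists_eq_succ_of_ne_zero (Nat.zero_lt_of_lt h).ne'
    rw [monN, pow_succ, Nat.mul_mod_left, Nat.mul_div_cancel _ (by norm_num),
      ih (Nat.lt_of_succ_lt_succ h), pow_zero, one_mul]

theorem map_monN (θ : B →+* S) (n : ℕ) (x : ℕ → B) (k : ℕ) :
    θ (monN n x k) = monN n (fun i => θ (x i)) k := by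
  induction n generalizing x k with
  | zero => exact map_one θ
  | succ n ih => rw [monN, monN, map_mul, map_pow, ih]

/-- sparse polynomials -/
abbrev Pl : Type := List (ℕ × ℕ)

/-- The value of a sparse polynomial. -/
def den (x : ℕ → B) : Pl → B
  | [] => 0
  | t :: P => t.1 * monN 12 x t.2 + den x P

theorem map_den (θ : B →+* S) (x : ℕ → B) (P : Pl) :
    θ (den x P) = den (fun i => θ (x i)) P := by
  induction P with
  | nil => exact map_zero θ
  | cons t P ih => rw [den, den, map_add, map_mul, map_natCast, map_monN, ih]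

/-- Terms divisible by `x 0 ^ N` may be dropped. -/
theorem den_filter {x : ℕ → B} {N : ℕ} (h : x 0 ^ N = 0) (P : Pl) :
    den x (P.filter fun t => t.2 % 256 < N) = den x P := by
  induction P with
  | nil => rfl
  | cons t P ih =>
    rw [List.filter_cons]
    split_ifs with ht
    · rw [den, den, ih]
    · rw [den, ih, monN, pow_eq_zero_of_le (by simpa using ht) h, zero_mul, mul_zero, zero_add]

/-- add a term, evaluating its entries -/
def cns (c k : ℕ) (P : Pl) : Pl :=
  Nat.casesOn c P fun c' => Nat.casesOn k ((c'.succ, 0) :: P) fun k' => (c'.succ, k'.succ) :: P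

theorem den_cns (x : ℕ → B) (c k : ℕ) (P : Pl) :
    den x (cns c k P) = c * monN 12 x k + den x P := by
  rcases c with _ | c
  · rw [Nat.cast_zero, zero_mul, zero_add]; rfl
  · rcases k with _ | k <;> rfl

/-- the sum of two sorted polynomials -/
def mrg (M : ℕ) (P : Pl) : Pl → Pl :=
  List.rec (fun Q => Q) (fun t P ih Q => List.rec (t :: P) (fun u Q ihQ =>
    cond (Nat.beq t.2 u.2) (cns (Nat.mod (Nat.add t.1 u.1) M) t.2 (ih Q))
      (cond (Nat.ble t.2 u.2) (t :: ih (u :: Q)) (u :: ihQ))) Q) P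

theorem cast_mod {M : ℕ} (hM : (M : B) = 0) (a : ℕ) : ((Nat.mod a M : ℕ) : B) = a := by
  conv_rhs => rw [← Nat.mod_add_div a M, Nat.cast_add, Nat.cast_mul, hM, zero_mul, add_zero]
  rfl

theorem den_mrg {M : ℕ} (hM : (M : B) = 0) (x : ℕ → B) (P Q : Pl) :
    den x (mrg M P Q) = den x P + den x Q := by
  induction P generalizing Q with
  | nil => exact (zero_add _).symm
  | cons t P ih =>
    induction Q with
    | nil => exact (add_zero _).symm
    | cons u Q ihQ =>
      change den x (cond _ (cns _ _ (mrg M P Q)) (cond _ (t :: mrg M P (u :: Q))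
        (u :: mrg M (t :: P) Q))) = _
      cases h : Nat.beq t.2 u.2
      · cases Nat.ble t.2 u.2
        · rw [cond_false, cond_false, den, ihQ, den, den]; ring
        · rw [cond_false, cond_true, den, ih, den, den]; ring
      · rw [cond_true, den_cns, ih, cast_mod hM, den, den, ← Nat.eq_of_beq_eq_true h, Nat.add_eq,
          Nat.cast_add]
        ring

/-- all exponents are smaller than `128` -/
def sml (P : Pl) : Bool :=
  List.rec true (fun t _ ih => Nat.beq (Nat.land t.2 (msk 12)) 0 && ih) P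

/-- the product with a term -/
def mulT (M c k : ℕ) (Q : Pl) : Pl :=
  List.rec [] (fun u _ ih => cns (Nat.mod (Nat.mul c u.1) M) (Nat.add k u.2) ih) Q

theorem sml_cons {t : ℕ × ℕ} {P : Pl} (h : sml (t :: P) = true) :
    t.2 &&& msk 12 = 0 ∧ sml P = true := by
  obtain ⟨h1, h2⟩ := Bool.and_eq_true_iff.1 h
  exact ⟨Nat.eq_of_beq_eq_true h1, h2⟩

theorem den_mulT {M : ℕ} (hM : (M : B) = 0) (x : ℕ → B) (c : ℕ) {k : ℕ} (hk : k &&& msk 12 = 0)
    {Q : Pl} (hQ : sml Q = true) : den x (mulT M c k Q) = c * monN 12 x k * den x Q := by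
  induction Q with
  | nil => exact (mul_zero _).symm
  | cons u Q ih =>
    obtain ⟨h1, h2⟩ := sml_cons hQ
    change den x (cns _ _ (mulT M c k Q)) = _
    rw [den_cns, ih h2, cast_mod hM, den, Nat.add_eq, monN_add _ _ hk h1, Nat.mul_eq, Nat.cast_mul]
    ring

/-- the product -/
def mulP (M : ℕ) (P Q : Pl) : Pl := List.rec [] (fun t _ ih => mrg M (mulT M t.1 t.2 Q) ih) P

theorem den_mulP {M : ℕ} (hM : (M : B) = 0) (x : ℕ → B) {P Q : Pl} (hP : sml P = true)
    (hQ : sml Q = true) : den x (mulP M P Q) = den x P * den x Q := by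
  induction P with
  | nil => exact (zero_mul _).symm
  | cons t P ih =>
    obtain ⟨h1, h2⟩ := sml_cons hP
    change den x (mrg M _ (mulP M P Q)) = _
    rw [den_mrg hM, den_mulT hM x _ h1 hQ, ih h2, den, add_mul]

/-- polynomial expressions -/
inductive Ex : Type
  | lit : Pl → Ex
  | add : Ex → Ex → Ex
  | mul : Ex → Ex → Ex
  | smul : ℕ → Ex → Ex
  | neg : Ex → Ex
  | cube : Ex → Ex

namespace Ex

/-- the value of an expression -/
def ev (x : ℕ → B) : Ex → B
  | lit P => den x P
  | add a b => ev x a + ev x b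
  | mul a b => ev x a * ev x b
  | smul c a => c * ev x a
  | neg a => -ev x a
  | cube a => ev x a ^ 3

theorem map_ev (θ : B →+* S) (x : ℕ → B) (e : Ex) : θ (e.ev x) = e.ev fun i => θ (x i) := by
  induction e <;> simp only [ev, map_den, map_add, map_mul, map_natCast, map_neg, map_pow, *]

/-- the normal form modulo `M + 1`, with a flag which tells that no exponent was too large -/
def nf (M : ℕ) : Ex → Bool × Pl
  | lit P => (true, P)
  | add a b => ((nf M a).1 && (nf M b).1, mrg (M + 1) (nf M a).2 (nf M b).2)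
  | mul a b => ((nf M a).1 && (nf M b).1 && sml (nf M a).2 && sml (nf M b).2,
      mulP (M + 1) (nf M a).2 (nf M b).2)
  | smul c a => ((nf M a).1 && sml (nf M a).2, mulT (M + 1) c 0 (nf M a).2)
  | neg a => ((nf M a).1 && sml (nf M a).2, mulT (M + 1) M 0 (nf M a).2)
  | cube a => ((nf M a).1 && sml (nf M a).2 && sml (mulP (M + 1) (nf M a).2 (nf M a).2),
      mulP (M + 1) (nf M a).2 (mulP (M + 1) (nf M a).2 (nf M a).2))

theorem den_nf {M : ℕ} (hM : ((M + 1 : ℕ) : B) = 0) (x : ℕ → B) (e : Ex)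
    (h : (e.nf M).1 = true) : den x (e.nf M).2 = e.ev x := by
  induction e with
  | lit P => rfl
  | add a b ha hb =>
    simp only [nf, Bool.and_eq_true] at h
    rw [nf, ev, den_mrg hM, ha h.1, hb h.2]
  | mul a b ha hb =>
    simp only [nf, Bool.and_eq_true] at h
    rw [nf, ev, den_mulP hM x h.1.2 h.2, ha h.1.1.1, hb h.1.1.2]
  | smul c a ha =>
    simp only [nf, Bool.and_eq_true] at h
    rw [nf, ev, den_mulT hM x c (Nat.zero_and _) h.2, ha h.1, monN_zero, mul_one]
  | neg a ha =>
    simp only [nf, Bool.and_eq_true] at h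
    rw [nf, ev, den_mulT hM x M (Nat.zero_and _) h.2, ha h.1, monN_zero, mul_one]
    push_cast at hM
    linear_combination ev x a * hM
  | cube a ha =>
    simp only [nf, Bool.and_eq_true] at h
    rw [nf, ev, den_mulP hM x h.1.2 h.2, den_mulP hM x h.1.2 h.1.2, ha h.1.1]
    ring

/-- the test for zero modulo `M + 1` -/
def isZ (M : ℕ) (e : Ex) : Bool := (e.nf M).1 && (e.nf M).2.isEmpty

theorem ev_eq_zero {M : ℕ} (hM : ((M + 1 : ℕ) : B) = 0) (x : ℕ → B) {e : Ex}
    (h : e.isZ M = true) : e.ev x = 0 := by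
  obtain ⟨h1, h2⟩ := Bool.and_eq_true_iff.1 h
  rw [← den_nf hM x e h1, List.isEmpty_iff.1 h2, den]

/-- the variables -/
def var (i : ℕ) : Ex := lit [(1, 256 ^ i)]

theorem ev_var {i : ℕ} (h : i < 12) (x : ℕ → B) : (var i).ev x = x i := by
  rw [var, ev, den, den, monN_pow h, Nat.cast_one, one_mul, add_zero]

/-- the constant one -/
def one : Ex := lit [(1, 0)]

theorem ev_one (x : ℕ → B) : one.ev x = 1 := by
  rw [one, ev, den, den, monN_zero, Nat.cast_one, one_mul, add_zero]

/-- the power with exponent `3 ^ k` -/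
def pw (e : Ex) : ℕ → Ex
  | 0 => e
  | k + 1 => cube (pw e k)

theorem ev_pw (x : ℕ → B) (e : Ex) (k : ℕ) : (e.pw k).ev x = e.ev x ^ 3 ^ k := by
  induction k with
  | zero => exact (pow_one _).symm
  | succ k ih => rw [pw, ev, ih, ← pow_mul, ← pow_succ]

/-- finite sums -/
def sum (f : ℕ → Ex) : ℕ → Ex
  | 0 => lit []
  | n + 1 => add (f n) (sum f n)

theorem ev_sum (x : ℕ → B) (f : ℕ → Ex) (n : ℕ) :
    (sum f n).ev x = ∑ i ∈ Finset.range n, (f i).ev x := by
  induction n with
  | zero => rfl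
  | succ n ih => rw [sum, ev, ih, Finset.sum_range_succ, add_comm]

end Ex

end Vale.Agent.P236B

end
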