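import Vale.Agent.P236B.Step
import Vale.Agent.P236B.ExplR
import Vale.Agent.P236B.Col

/-!
# P236B: convolutions in terms of arrays of values

Right convolution with the duals of the `t_(i+1) ^ n` and with the polynomials in the `v_i`,
functionals which are given in coordinates of the second kind.
-/

noncomputable section

namespace Vale.Agent.P236B

open Vale.Agent.P257.H80 MvPolynomial Finset

variable {K B : Type} [CommRing K] [CommRing B]

/-- exchange of the variables -/
def sw : Px B →+* Polynomial (MvPolynomial ℕ B) :=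
  eval₂Hom (Polynomial.mapRingHom C) fun k => Polynomial.C (X k)

theorem sw_C (c : Polynomial B) : sw (C c) = c.map C := eval₂Hom_C _ _ c

theorem sw_X (k : ℕ) : sw (X k : Px B) = Polynomial.C (X k) := eval₂Hom_X' _ _ k

theorem sw_mo (N : ℕ) (E : ℕ →₀ ℕ) :
    sw (mo N E : Px B) = Polynomial.C (monomial E 1) * Polynomial.X ^ N := by
  rw [mo, monomial_eq, monomial_eq, map_mul, sw_C, mul_comm, Finsupp.prod, Finsupp.prod, map_prod,
    C_1, one_mul, map_prod, Polynomial.map_pow, Polynomial.map_X]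
  simp only [map_pow, sw_X]

/-- the coefficient of `x ^ n` -/
def cfx (n : ℕ) : Px B →ₗ[B] MvPolynomial ℕ B where
  toFun f := (sw f).coeff n
  map_add' f g := by rw [map_add, Polynomial.coeff_add]
  map_smul' c f := by
    rw [← C_C_mul, map_mul, sw_C, Polynomial.map_C, Polynomial.coeff_C_mul, smul_eq_C_mul]
    rfl

theorem cfx_mo (n N : ℕ) (E : ℕ →₀ ℕ) :
    cfx n (mo N E : Px B) = if n = N then monomial E 1 else 0 := by
  change (sw _).coeff n = _
  rw [sw_mo, Polynomial.coeff_C_mul, Polynomial.coeff_X_pow, mul_ite, mul_one, mul_zero]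

theorem monomial_kk (a b c d : ℕ) : (monomial (kk a b c d) 1 : MvPolynomial ℕ B) =
    X 0 ^ a * X 1 ^ b * X 2 ^ c * X 3 ^ d := by
  simp only [X_pow_eq_monomial, monomial_mul, mul_one, kk]
  congr 2
  abel

theorem xv_lt (v : ℕ → B) {k : ℕ} (h : k < 4) : xv v k = C (Polynomial.C (v k)) := if_pos h

theorem xv_add (v : ℕ → B) {k : ℕ} (h : k < 4) : xv v (4 + k) = X k := by
  rw [xv, if_neg (by omega), if_pos (by omega), Nat.add_sub_cancel_left]

theorem xv_eight (v : ℕ → B) : xv v 8 = C Polynomial.X := rfl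

/-- Terms divisible by `v₁ ^ N` may be dropped. -/
theorem den_cut {v : ℕ → B} {N : ℕ} (h : v 0 ^ N = 0) (P : Pl) :
    den (xv v) (P.filter fun t => t.2 % 256 < N) = den (xv v) P :=
  den_filter (by rw [xv_lt v (by norm_num), ← map_pow, ← map_pow, h, map_zero, map_zero]) P

/-- the value of a functional on a monomial -/
def vl (κ : K →+* B) (v : VPt B) (a : Fn K) (E : ℕ →₀ ℕ) : B := kx κ v (a E)

theorem vl_eq (κ : K →+* B) (v : VPt B) (a : Fn K) (E : ℕ →₀ ℕ) :
    vl κ v a E = act a κ v (monomial E 1) := by rw [act_monomial, one_mul, vl]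

theorem single_map {R S : Type} [CommRing R] [CommRing S] (θ : R →+* S) (i : ℕ) (x : R) :
    (fun k => θ (Pi.single (M := fun _ => R) i x k)) = Pi.single i (θ x) :=
  funext fun k => Pi.apply_single (fun _ => θ) (fun _ => map_zero _) i x k

theorem one1_C (i : ℕ) (c : B) : one1 i (C c) = Polynomial.C c := eval₂Hom_C _ _ c

theorem one1_X (i : ℕ) : (fun k => one1 (B := B) i (X k)) = Pi.single i Polynomial.X :=
  funext fun k => eval₂Hom_X' _ _ k

/-- the variable `t_(i+1)` as the variable of a polynomial ring -/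
def phi (i : ℕ) : MvPolynomial ℕ B →+* Polynomial (MvPolynomial ℕ B) :=
  eval₂Hom (Polynomial.C.comp C) fun m => if m = i then Polynomial.X else Polynomial.C (X m)

theorem phi_C (i : ℕ) (c : B) : phi i (C c) = Polynomial.C (C c) := eval₂Hom_C _ _ c

theorem phi_X (i : ℕ) : phi (B := B) i (X i) = Polynomial.X := (eval₂Hom_X' _ _ i).trans (if_pos rfl)

theorem phi_X_ne {i m : ℕ} (h : m ≠ i) : phi (B := B) i (X m) = Polynomial.C (X m) :=
  (eval₂Hom_X' _ _ m).trans (if_neg h)

theorem coeff_phi {i : ℕ} {E : ℕ →₀ ℕ} (hE : E i = 0) (n : ℕ) (g : MvPolynomial ℕ B) :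
    coeff E ((phi i g).coeff n) = coeff (E + Finsupp.single i n) g := by
  induction g using MvPolynomial.induction_on' with
  | add x y hx hy => simp only [map_add, Polynomial.coeff_add, coeff_add, hx, hy]
  | monomial F c =>
    obtain ⟨F, e, hF, rfl⟩ : ∃ F' e, F' i = 0 ∧ F = F' + Finsupp.single i e :=
      ⟨F.erase i, F i, Finsupp.erase_same, (Finsupp.erase_add_single i F).symm⟩
    have h1 : phi i (monomial F c) = Polynomial.C (monomial F c) := by
      rw [monomial_eq, map_mul, map_mul, phi_C, Finsupp.prod, map_prod, map_prod]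
      refine congrArg _ (Finset.prod_congr rfl fun m hm => ?_)
      rw [map_pow, map_pow, phi_X_ne]
      rintro rfl
      exact Finsupp.mem_support_iff.1 hm hF
    rw [coeff_monomial, monomial_add_single, map_mul, map_pow, phi_X, h1, Polynomial.coeff_C_mul,
      Polynomial.coeff_X_pow]
    by_cases h : n = e
    · subst h
      simp only [if_true, mul_one, coeff_monomial, add_left_inj]
    · rw [if_neg h, mul_zero, coeff_zero, if_neg fun h' => h ?_]
      simpa [hE, hF] using (DFunLike.congr_fun h' i).symm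

theorem cfx_map (g : MvPolynomial ℕ B) : cfx 0 (map Polynomial.C g) = g := by
  have : sw.comp (map Polynomial.C) = (Polynomial.C : MvPolynomial ℕ B →+* _) :=
    MvPolynomial.ringHom_ext (fun c => by simp [sw_C]) fun k => by simp [sw_X]
  exact (congrArg (Polynomial.coeff · 0) (RingHom.congr_fun this g)).trans
    (Polynomial.coeff_C_zero)

theorem kk_inj {a b c d a' b' c' d' : ℕ} :
    kk a b c d = kk a' b' c' d' ↔ a = a' ∧ b = b' ∧ c = c' ∧ d = d' := by
  refine ⟨fun h => ⟨?_, ?_, ?_, ?_⟩, fun ⟨h0, h1, h2, h3⟩ => by rw [h0, h1, h2, h3]⟩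
  · simpa [kk] using DFunLike.congr_fun h 0
  · simpa [kk] using DFunLike.congr_fun h 1
  · simpa [kk] using DFunLike.congr_fun h 2
  · simpa [kk] using DFunLike.congr_fun h 3

theorem arr_zero (κ : K →+* B) (v : VPt B) (y : Fn K) :
    (fun N E => if N = 0 then vl κ v y E else 0) = arr (act y κ v ∘ₗ cfx 0) :=
  funext₂ fun N E => by
    simp only [arr, LinearMap.comp_apply, cfx_mo, apply_ite (act _ κ v), map_zero, vl_eq,
      eq_comm (a := 0)]

variable [ZP 3 B]

/-- composition with the arrow `t_(i+1) = x` on the right -/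
def rho (i : ℕ) (v : VPt B) : MvPolynomial ℕ B →+* Px B :=
  eval₂Hom (C.comp Polynomial.C) (cmp 3 (C.comp (Polynomial.C.comp v)) X
    (Pi.single i (C Polynomial.X)))

theorem one1_gD_X (i : ℕ) (v : VPt B) (k : ℕ) : one1 i (gD 3 v (X k)) =
    cmp 3 (Polynomial.C.comp (C.comp v)) (fun k => Polynomial.C (X k))
      (Pi.single i Polynomial.X) k := by
  rw [gD_X, cmp_map, one1_X]
  simp only [one1_C]
  exact congrArg (fun w => cmp 3 w _ _ k) (VPt.ext fun j => one1_C i _)

theorem op_single (i n : ℕ) (κ : K →+* B) (v : VPt B) (f : MvPolynomial ℕ B) :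
    op 3 (dl (Finsupp.single i n)) κ v f = cfx n (rho i v f) := by
  have h : sw.comp (rho i v) = (one1 i).comp (gD 3 v) :=
    MvPolynomial.ringHom_ext (fun c => by simp [rho, sw_C, gD_C, one1_C]) fun k => by
      rw [RingHom.comp_apply, RingHom.comp_apply, one1_gD_X, rho, eval₂Hom_X', cmp_map, single_map,
        sw_C, Polynomial.map_X]
      simp only [sw_X]
      exact congrArg (fun w => cmp 3 w _ _ k) (VPt.ext fun j => by simp [sw_C])
  rw [op_apply, act_dl, ← coeff_one1]
  exact congrArg (Polynomial.coeff · n) (RingHom.congr_fun h f).symm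

variable [ZP 3 K] (h3 : (3 : B) = 0) (κ : K →+* B) (v : VPt B)

include h3 in
/-- **Contraction**: right convolution with the duals of the powers of `t_(i+1)`. -/
theorem vl_contr {i : ℕ} (hi : i < 4) {r : ℕ → Pl} (hT : Tri r)
    (hr : ∀ n < 4, den (xv fun k => v (X k)) (r n) = den (xv fun k => v (X k)) (rL i n))
    (y : ℕ → Fn K) (M : ℕ) {a b c d : ℕ} (ha : a < 243) (hb : b < 27) (hc : c < 9) (hd : d < 3) :
    vl κ v (∑ n ∈ range M, conv 3 (y n) (dl (Finsupp.single i n))) (kk a b c d) =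
      allSteps (fun k => v (X k)) r (fun N E => if N < M then vl κ v (y N) E else 0) 0
        (kk a b c d) := by
  have h1 : (fun N E => if N < M then vl κ v (y N) E else 0) =
      arr (∑ n ∈ range M, act (y n) κ v ∘ₗ cfx n) := funext₂ fun N E => by
    simp only [arr, LinearMap.sum_apply, LinearMap.comp_apply, cfx_mo, apply_ite (act _ κ v),
      map_zero, Finset.sum_ite_eq', Finset.mem_range, vl_eq]
  have h2 (n) (hn : n < 4) : rho i v (X n) = X n + den (xv fun k => v (X k)) (r n) := by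
    rw [rho, eval₂Hom_X', hr n hn]
    exact cmp_rL (three_Px h3) (fun k hk => (xv_lt (fun k => v (X k)) hk).symm) hi
      (fun k hk => (xv_add _ hk).symm) hn
  rw [h1, allSteps_arr h3 _ hT _ _ ha hb hc hd, vl_eq, act_sum, LinearMap.sum_apply, monomial_kk]
  refine Finset.sum_congr rfl fun n _ => ?_
  rw [act_conv, op_single, LinearMap.comp_apply]
  simp only [map_mul, map_pow, h2, Nat.ofNat_pos, Nat.one_lt_ofNat, Nat.reduceLT, mo, pow_zero]
  rw [monomial_zero', C_1, mul_one]

/-! ### coordinates of the second kind -/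

/-- the composite of four one-parameter arrows -/
def tauA (v : VPt B) (x : ℕ → B) : ℕ → B :=
  cmp 3 v (cmp 3 v (cmp 3 v (Pi.single 3 (x 3)) (Pi.single 2 (x 2))) (Pi.single 1 (x 1)))
    (Pi.single 0 (x 0))

omit [ZP 3 K] in
theorem map_tauA {S : Type} [CommRing S] [ZP 3 S] (θ : B →+* S) (x : ℕ → B) (k : ℕ) :
    θ (tauA v x k) = tauA (θ.comp v) (fun i => θ (x i)) k := by
  simp only [tauA, cmp_map, single_map]

/-- functions of an arrow in coordinates of the second kind -/
def tau : MvPolynomial ℕ B →+* MvPolynomial ℕ B := eval₂Hom C (tauA (C.comp v) X)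

theorem map_tau {S : Type} [CommRing S] [ZP 3 S] (θ : B →+* S) (f : MvPolynomial ℕ B) :
    map θ (tau v f) = tau (θ.comp v) (map θ f) := by
  have : (map θ).comp (tau v) = (tau (θ.comp v)).comp (map θ) :=
    MvPolynomial.ringHom_ext (fun c => by simp [tau]) fun k => by
      simp only [RingHom.comp_apply, tau, eval₂Hom_X', map_X, map_tauA]
      exact congrArg (fun w => tauA w _ k) (VPt.ext fun j => by simp)
  exact RingHom.congr_fun this f

omit [ZP 3 K] in
theorem coeff_cmp_single {i : ℕ} {T : ℕ → MvPolynomial ℕ B}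
    (hT : (fun k => phi i (T k)) = fun k => Polynomial.C (T k)) {E : ℕ →₀ ℕ} (hE : E i = 0) (n : ℕ)
    (f : MvPolynomial ℕ B) :
    coeff (E + Finsupp.single i n) (eval₂Hom C (cmp 3 (C.comp v) T (Pi.single i (X i))) f) =
      coeff E (eval₂Hom C T (op 3 (dl (Finsupp.single i n)) κ v f)) := by
  have h : (phi i).comp (eval₂Hom C (cmp 3 (C.comp v) T (Pi.single i (X i)))) =
      (Polynomial.mapRingHom (eval₂Hom C T)).comp ((one1 i).comp (gD 3 v)) :=
    MvPolynomial.ringHom_ext (fun c => by simp [phi_C, gD_C, one1_C]) fun k => by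
      rw [RingHom.comp_apply, RingHom.comp_apply, RingHom.comp_apply, one1_gD_X, eval₂Hom_X',
        cmp_map, cmp_map, single_map, single_map, hT, phi_X]
      simp only [Polynomial.coe_mapRingHom, Polynomial.map_C, Polynomial.map_X, eval₂Hom_X']
      exact congrArg (fun w => cmp 3 w _ _ k) (VPt.ext fun j => by simp [phi_C])
  rw [← coeff_phi hE, op_apply, act_dl, ← coeff_one1, ← Polynomial.coeff_map]
  exact congrArg (fun q => coeff E (Polynomial.coeff q n)) (RingHom.congr_fun h f)

/-- the basis of the second kind -/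
def th (a b c d : ℕ) : Fn K := conv 3 (conv 3 (conv 3 (dl (Finsupp.single 3 d))
  (dl (Finsupp.single 2 c))) (dl (Finsupp.single 1 b))) (dl (Finsupp.single 0 a))

theorem act_th (a b c d : ℕ) (f : MvPolynomial ℕ B) :
    act (th a b c d) κ v f = coeff (kk a b c d) (tau v f) := by
  have h (i : ℕ) : (phi i).comp (C.comp v) = Polynomial.C.comp (C.comp v) :=
    VPt.ext fun j => phi_C i _
  rw [tau, tauA, kk, coeff_cmp_single κ v (funext fun k => ?_) (by simp),
    coeff_cmp_single κ v (funext fun k => ?_) (by simp),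
    coeff_cmp_single κ v ?_ (by simp), ← cmp_zero_left 3 (C.comp v) (Pi.single 3 _),
    ← zero_add (Finsupp.single 3 d), coeff_cmp_single κ v (by simp) rfl, ← constantCoeff_eq,
    eval₂Hom_zero', RingHom.comp_apply, constantCoeff_C, constantCoeff_eq, coeff_zero_op, th,
    act_conv, act_conv, act_conv]
  all_goals simp [cmp_map, single_map, phi_X_ne, h]

/-- The functional with the coordinates `Y` in the basis of the second kind. -/
def ofX (Y : Fn K) : Fn K := fun E => act Y C (vmk X) (tau (vmk X) (monomial E 1))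

theorem act_ofX (Y : Fn K) (f : MvPolynomial ℕ B) : act (ofX Y) κ v f = act Y κ v (tau v f) := by
  induction f using MvPolynomial.induction_on' with
  | add x y hx hy => simp only [map_add, hx, hy]
  | monomial E c =>
    rw [act_monomial, ofX, act_map, map_tau, kx_comp_C, kx_comp_vmk, map_monomial, map_one,
      ← act_C_mul, show monomial E c = C c * monomial E 1 by rw [C_mul_monomial, mul_one],
      RingHom.map_mul, tau, eval₂Hom_C]

include h3 in
/-- **The values of a functional which is given in the basis of the second kind.** -/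
theorem vl_ofX (Y : Fn K) {a b c d : ℕ} (ha : a < 243) (hb : b < 27) (hc : c < 9) (hd : d < 3) :
    vl κ v (ofX Y) (kk a b c d) =
      allSteps (fun k => v (X k)) tauL (fun N E => if N = 0 then vl κ v Y E else 0) 0
        (kk a b c d) := by
  have h2 (n) (hn : n < 4) :
      map Polynomial.C (tau v (X n)) = X n + den (xv fun k => v (X k)) (tauL n) := by
    rw [tau, eval₂Hom_X', map_tauA, ← xv_add (fun k => v (X k)) hn,
      ← cmp_tau (three_Px h3) (v := (MvPolynomial.map Polynomial.C).comp (C.comp v))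
        (fun k hk => by simp [xv_lt _ hk]) hn, xv_add _ (k := 0) (by norm_num),
      xv_add _ (k := 1) (by norm_num), xv_add _ (k := 2) (by norm_num),
      xv_add _ (k := 3) (by norm_num), tauA, map_X, map_X, map_X, map_X]
  rw [arr_zero, allSteps_arr h3 _ (by decide +kernel) _ _ ha hb hc hd, vl_eq, act_ofX,
    LinearMap.comp_apply, monomial_kk, ← cfx_map (tau v _)]
  simp only [map_mul, map_pow, h2, Nat.ofNat_pos, Nat.one_lt_ofNat, Nat.reduceLT, mo, pow_zero]
  rw [monomial_zero', C_1, mul_one]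

/-- the support of `Y` is contained in a box -/
def Box (Y : Fn K) (M₀ M₁ M₂ M₃ : ℕ) : Prop :=
  ∀ F, Y F ≠ 0 → ∃ a < M₀, ∃ b < M₁, ∃ c < M₂, ∃ d < M₃, F = kk a b c d

theorem ofX_eq_sum {Y : Fn K} {M₀ M₁ M₂ M₃ : ℕ} (h : Box Y M₀ M₁ M₂ M₃) :
    ofX Y = ∑ a ∈ range M₀, ∑ b ∈ range M₁, ∑ c ∈ range M₂, ∑ d ∈ range M₃,
      Y (kk a b c d) • th a b c d := Fn.ext' fun f => by
  simp only [act_ofX, act_sum, act_smul, act_th]
  generalize tau _ f = g
  induction g using MvPolynomial.induction_on' with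
  | add x y hx hy => simp only [map_add, coeff_add, mul_add, Finset.sum_add_distrib, hx, hy]
  | monomial E e =>
    simp only [act_monomial, coeff_monomial, mul_ite, mul_zero]
    by_cases hE : Y E = 0
    · rw [hE, map_zero, mul_zero]
      refine (Finset.sum_eq_zero fun a _ => Finset.sum_eq_zero fun b _ =>
        Finset.sum_eq_zero fun c _ => Finset.sum_eq_zero fun d _ => ?_).symm
      split_ifs with h'
      · rw [← h', hE, map_zero, zero_mul]
      · rfl
    · obtain ⟨a, ha, b, hb, c, hc, d, hd, rfl⟩ := h E hE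
      simp [kk_inj, ite_and, ha, hb, hc, hd, mul_comm]

theorem sum_conv {ι : Type*} (s : Finset ι) (a : ι → Fn K) (b : Fn K) :
    conv 3 (∑ i ∈ s, a i) b = ∑ i ∈ s, conv 3 (a i) b :=
  Fn.ext' fun f => by simp only [act_sum, act_conv]

theorem conv_sum {ι : Type*} (s : Finset ι) (a : Fn K) (b : ι → Fn K) :
    conv 3 a (∑ i ∈ s, b i) = ∑ i ∈ s, conv 3 a (b i) :=
  Fn.ext' fun f => by simp only [act_sum, act_conv, op_apply, map_sum]

/-- the contraction of a family of functionals with the duals of the powers of `t_(i+1)` -/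
def ctr (i M : ℕ) (y : ℕ → Fn K) : Fn K := ∑ n ∈ range M, conv 3 (y n) (dl (Finsupp.single i n))

/-- the functional `f ↦ y (η c * f)` -/
def zf (y : Fn K) (c : MvPolynomial ℕ K) : Fn K := conv 3 y (c • dl 0)

/-- **The composite of two rows of functionals as an iterated contraction.** -/
theorem sum_conv_ofX {G : Type*} (s : Finset G) (y Y : G → Fn K) {M₀ M₁ M₂ M₃ : ℕ}
    (h : ∀ g ∈ s, Box (Y g) M₀ M₁ M₂ M₃) :
    ∑ g ∈ s, conv 3 (y g) (ofX (Y g)) = ctr 0 M₀ fun a => ctr 1 M₁ fun b => ctr 2 M₂ fun c =>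
      ctr 3 M₃ fun d => ∑ g ∈ s, zf (y g) (Y g (kk a b c d)) := by
  rw [Finset.sum_congr rfl fun g hg => by rw [ofX_eq_sum (h g hg)]]
  simp only [ctr, zf, sum_conv, conv_sum, conv_assoc, smul_conv, dl_zero_conv, th]
  rw [Finset.sum_comm]
  refine Finset.sum_congr rfl fun a _ => Finset.sum_comm.trans (Finset.sum_congr rfl fun b _ =>
    Finset.sum_comm.trans (Finset.sum_congr rfl fun c _ => Finset.sum_comm))

theorem act_zf (y : Fn K) (c : MvPolynomial ℕ K) (f : MvPolynomial ℕ B) :
    act (zf y c) κ v f = act y κ v (kx (C.comp κ) (gT 3 v) c * f) := by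
  rw [zf, act_conv, op_smul, op_dl_zero]

theorem zf_one (y : Fn K) : zf y 1 = y := by rw [zf, one_smul, conv_dl_zero]

theorem zf_zero (y : Fn K) : zf y 0 = 0 :=
  Fn.ext' fun f => by rw [act_zf, map_zero, zero_mul, map_zero, act_zero]

theorem zf_add (y : Fn K) (c c' : MvPolynomial ℕ K) : zf y (c + c') = zf y c + zf y c' := by
  rw [zf, add_smul, conv_add, zf, zf]

theorem zf_sum {ι : Type*} (s : Finset ι) (y : Fn K) (c : ι → MvPolynomial ℕ K) :
    zf y (∑ i ∈ s, c i) = ∑ i ∈ s, zf y (c i) := by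
  simp only [zf, Finset.sum_smul, conv_sum]

theorem zf_zf (y : Fn K) (c c' : MvPolynomial ℕ K) : zf (zf y c) c' = zf y (c * c') :=
  Fn.ext' fun f => by rw [act_zf, act_zf, act_zf, RingHom.map_mul, mul_assoc]

theorem zf_C_mul (y : Fn K) (r : K) (c : MvPolynomial ℕ K) :
    zf y (C r * c) = (C r : MvPolynomial ℕ K) • zf y c :=
  Fn.ext' fun f => by
    rw [act_smul, act_zf, act_zf, RingHom.map_mul, kx_C, kx_C, mul_assoc, RingHom.comp_apply,
      act_C_mul]

include h3 in
theorem vl_zf_v1 (y : Fn K) (n : ℕ) (c : MvPolynomial ℕ K) (E : ℕ →₀ ℕ) :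
    vl κ v (zf y (X 0 ^ n * c)) E = v (X 0) ^ n * vl κ v (zf y c) E := by
  rw [vl_eq, vl_eq, act_zf, act_zf, RingHom.map_mul, map_pow, kx_X, gT, tgt_X_zero, Nat.cast_ofNat,
    ← map_ofNat (C : B →+* MvPolynomial ℕ B), h3, map_zero, zero_mul, add_zero, RingHom.comp_apply,
    ← map_pow, mul_assoc, act_C_mul]

include h3 in
/-- **Multiplication by `η (v_(k+1)) ^ q`.** -/
theorem vl_zf_pow {k : ℕ} (hk : k < 4) {P : Pl}
    (hP : den (xv fun k => v (X k)) P = den (xv fun k => v (X k)) (etaF k)) (y : Fn K) (j : ℕ)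
    (E : ℕ →₀ ℕ) : vl κ v (zf y (X k ^ 3 ^ j)) E =
      apL (fun k => v (X k)) (3 ^ j) (fun N E => if N = 0 then vl κ v y E else 0) P 0 E := by
  have h1 : map Polynomial.C (gT 3 v (X k)) = den (xv fun k => v (X k)) P := by
    rw [hP, ← RingHom.comp_apply, comp_gT]
    exact tgt_etaF (three_Px h3) (fun k hk => by simp [xv_lt _ hk])
      (fun k hk => by simp [xv_add _ hk]) hk
  rw [arr_zero, apL_arr h3, vl_eq, act_zf, LinearMap.comp_apply, ← cfx_map (_ * _), map_mul,
    map_pow, map_pow, kx_X, h1, map_monomial, mo, pow_zero, map_one]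

/-! ### weights -/

section weights

variable {p : ℕ} {e : ℤ} {y y' : Fn K}

omit [ZP 3 K]

theorem FW.dl (E : ℕ →₀ ℕ) : FW p (wE p E) (dl E : Fn K) := fun F α h => by
  rw [P236B.dl] at h
  split_ifs at h with h'
  · rw [coeff_one] at h
    split_ifs at h with h''
    · rw [← h'', h', wE, map_zero, Nat.cast_zero, zero_add]
    · exact absurd rfl h
  · exact absurd rfl h

theorem FW.add (h : FW p e y) (h' : FW p e y') : FW p e (y + y') := fun F α h1 => by
  by_cases h2 : coeff α (y F) = 0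
  · exact h' F α (by rwa [Pi.add_apply, coeff_add, h2, zero_add] at h1)
  · exact h F α h2

theorem FW.sum {ι : Type*} {s : Finset ι} {y : ι → Fn K} (h : ∀ i ∈ s, FW p e (y i)) :
    FW p e (∑ i ∈ s, y i) :=
  Finset.sum_induction y (FW p e) (fun _ _ => FW.add) (fun _ _ h => absurd rfl h) h

theorem FW.smul {c : MvPolynomial ℕ K} {w : ℤ} (hc : ∀ α, coeff α c ≠ 0 → (wE p α : ℤ) + e = w)
    (h : FW p w y) : FW p e (c • y) := fun F α h1 => by
  rw [Pi.smul_apply, smul_eq_mul, coeff_mul] at h1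
  obtain ⟨⟨β, γ⟩, h2, h3⟩ := Finset.exists_ne_zero_of_sum_ne_zero h1
  have h4 := hc β (left_ne_zero_of_mul h3)
  have h5 := h F γ (right_ne_zero_of_mul h3)
  have h6 : wE p α = wE p β + wE p γ := by rw [← mem_antidiagonal.1 h2, wE, map_add]
  omega

theorem wE_kk (a b c d : ℕ) : wE 3 (kk a b c d) = 2 * a + 8 * b + 26 * c + 80 * d := by
  simp [kk, wE, Finsupp.weight_single, wv]
  ring

theorem exists_kk {E : ℕ →₀ ℕ} (h : wE 3 E < 242) : E = kk (E 0) (E 1) (E 2) (E 3) := by
  ext k
  by_cases hk : k < 4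
  · interval_cases k <;> simp [kk]
  · have h1 : 3 ^ 5 ≤ 3 ^ (k + 1) := Nat.pow_le_pow_right (by norm_num) (by omega)
    have h2 : E k = 0 := by
      by_contra h2
      have h3 : 3 ^ (k + 1) - 1 ≤ wE 3 E := Finsupp.le_weight_of_ne_zero' (wv 3) h2
      omega
    rw [h2, kk]
    simp only [Finsupp.add_apply, Finsupp.single_apply]
    rw [if_neg (by omega), if_neg (by omega), if_neg (by omega), if_neg (by omega)]
    rfl

end weights

theorem FW.th (a b c d : ℕ) : FW 3 (wE 3 (kk a b c d)) (th a b c d : Fn K) := by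
  simpa only [kk, wE, map_add, Nat.cast_add, P236B.th] using (((FW.dl (Finsupp.single 3 d)).conv 3
    (FW.dl (Finsupp.single 2 c))).conv 3 (FW.dl (Finsupp.single 1 b))).conv 3
    (FW.dl (Finsupp.single 0 a))

theorem FW.ofX {e : ℤ} {Y : Fn K} {M₀ M₁ M₂ M₃ : ℕ} (h : Box Y M₀ M₁ M₂ M₃) (hY : FW 3 e Y) :
    FW 3 e (ofX Y) := by
  rw [ofX_eq_sum h]
  exact FW.sum fun a _ => FW.sum fun b _ => FW.sum fun c _ => FW.sum fun d _ =>
    (FW.th a b c d).smul (hY _)

/-- the polynomials in the `v_i` modulo `3` and `v₁ ^ N` -/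
abbrev Vq (N : ℕ) : Type :=
  MvPolynomial ℕ (ZMod 3) ⧸ Ideal.span {(X 0 : MvPolynomial ℕ (ZMod 3)) ^ N}

/-- the constants of `Vq N` -/
def Vq.kq (N : ℕ) : ZMod 3 →+* Vq N := (Ideal.Quotient.mk _).comp C

/-- the tautological point of `Vq N` -/
def Vq.vq (N : ℕ) : VPt (Vq N) := (Ideal.Quotient.mk _).comp (vmk X)

theorem Vq.three (N : ℕ) : (3 : Vq N) = 0 := by
  rw [← map_ofNat (Vq.kq N), show (3 : ZMod 3) = 0 from rfl, map_zero]

theorem Vq.kx_eq (N : ℕ) : kx (Vq.kq N) (Vq.vq N) = Ideal.Quotient.mk _ := by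
  rw [Vq.kq, Vq.vq, ← comp_kx, kx_univ, RingHom.comp_id]

theorem Vq.pow (N : ℕ) : Vq.vq N (X 0) ^ N = 0 := by
  rw [← kx_X (Vq.kq N), ← map_pow, Vq.kx_eq, Ideal.Quotient.eq_zero_iff_mem]
  exact Ideal.mem_span_singleton_self _

/-- **The condition `Q` in terms of values.** -/
theorem Res.q_of_vl {G : Type} [Fintype G] (R : Res 3 G) {N j e : ℕ} (he : e < 242)
    (h : ∀ g'' g a b c d, 2 * a + 8 * b + 26 * c + 80 * d + R.deg j g ≤ e →
      R.deg (j + 2) g'' ≤ 2 * a + 8 * b + 26 * c + 80 * d + R.deg j g →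
      vl (Vq.kq N) (Vq.vq N) (∑ g', conv 3 (R.a (j + 1) g'' g') (R.a j g' g)) (kk a b c d) = 0) :
    R.Q N j e := fun g'' g E hE => by
  rw [← Finset.sum_apply, exists_kk (E := E) (by omega)]
  rw [exists_kk (E := E) (by omega), wE_kk] at hE
  by_cases h1 : R.deg (j + 2) g'' ≤ 2 * E 0 + 8 * E 1 + 26 * E 2 + 80 * E 3 + R.deg j g
  · rw [← Ideal.Quotient.eq_zero_iff_mem, ← Vq.kx_eq]
    exact h g'' g _ _ _ _ hE h1
  · have h2 : FW 3 ((R.deg (j + 2) g'' : ℤ) - R.deg j g)
        (∑ g', conv 3 (R.a (j + 1) g'' g') (R.a j g' g)) := FW.sum fun g' _ => by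
      simpa only [sub_add_sub_cancel] using (R.hom (j + 1) g'' g').conv 3 (R.hom j g' g)
    convert Ideal.zero_mem _
    ext α
    by_contra h3
    have := h2 _ α h3
    rw [wE_kk] at this
    omega

end Vale.Agent.P236B

end
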