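import Vale.Agent.P236B.Rfl
import Mathlib.RingTheory.MvPolynomial.Basic
import Mathlib.Algebra.Polynomial.AlgebraMap

/-!
# P236B: triangular substitutions on arrays of values, digit by digit

An array `Y N K` is the value of a functional on the monomial `x ^ N t ^ K`.
-/

noncomputable section

namespace Vale.Agent.P236B

open MvPolynomial Finset

variable {B : Type} [CommRing B]

/-- the digit with index `i` in base `256` -/
def dg (i k : ℕ) : ℕ := k / 256 ^ i % 256

/-- the exponent vector of `t₁ ^ a t₂ ^ b t₃ ^ c t₄ ^ d` -/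
def kk (a b c d : ℕ) : ℕ →₀ ℕ :=
  Finsupp.single 3 d + Finsupp.single 2 c + Finsupp.single 1 b + Finsupp.single 0 a

/-- the exponents of `t₁, …, t₄` in a key -/
def kt (k : ℕ) : ℕ →₀ ℕ := kk (dg 4 k) (dg 5 k) (dg 6 k) (dg 7 k)

/-- arrays of values -/
abbrev Arr (B : Type) : Type := ℕ → (ℕ →₀ ℕ) → B

/-- The value of the functional on `P ^ q x ^ N t ^ K` for a power `q` of three. -/
def apL (v : ℕ → B) (q : ℕ) (Y : Arr B) : Pl → Arr B
  | [], _, _ => 0
  | t :: P, N, K => t.1 * monN 4 v t.2 ^ q * Y (N + q * dg 8 t.2) (K + q • kt t.2) +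
      apL v q Y P N K

/-- the value on `P ^ q x ^ N t ^ K / t_(n+1) ^ q` -/
def apS (v : ℕ → B) (P : Pl) (n q : ℕ) (Y : Arr B) : Arr B :=
  fun N K => apL v q Y P N (K - Finsupp.single n q)

/-- One digit of the substitution `t_(n+1) ↦ t_(n+1) + P`. -/
def step (v : ℕ → B) (P : Pl) (n j : ℕ) (Y : Arr B) : Arr B := fun N K =>
  Y N K + (K n / 3 ^ j % 3 : ℕ) * apS v P n (3 ^ j) Y N K +
    if K n / 3 ^ j % 3 = 2 then apS v P n (3 ^ j) (apS v P n (3 ^ j) Y) N K else 0

/-- the digits `0, …, J - 1`, the lowest one first -/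
def steps (v : ℕ → B) (P : Pl) (n : ℕ) (Y : Arr B) : ℕ → Arr B
  | 0 => Y
  | j + 1 => step v P n j (steps v P n Y j)

/-- the substitutions for `t₄, t₃, t₂, t₁`, in this order -/
def allSteps (v : ℕ → B) (r : ℕ → Pl) (Y : Arr B) : Arr B :=
  steps v (r 0) 0 (steps v (r 1) 1 (steps v (r 2) 2 (steps v (r 3) 3 Y 1) 2) 3) 5

/-- polynomials in `x` and the `t_i` -/
abbrev Px (B : Type) [CommRing B] : Type := MvPolynomial ℕ (Polynomial B)

/-- the variables of the sparse polynomials in `Px B` -/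
def xv (v : ℕ → B) (i : ℕ) : Px B :=
  if i < 4 then C (Polynomial.C (v i)) else if i < 8 then X (i - 4)
    else if i = 8 then C Polynomial.X else 1

/-- the monomials -/
def mo (N : ℕ) (K : ℕ →₀ ℕ) : Px B := monomial K (Polynomial.X ^ N)

theorem mo_mul (N N' : ℕ) (K K' : ℕ →₀ ℕ) : (mo N K * mo N' K' : Px B) = mo (N + N') (K + K') := by
  rw [mo, mo, mo, monomial_mul, pow_add]

theorem mo_pow (N q : ℕ) (K : ℕ →₀ ℕ) : (mo N K ^ q : Px B) = mo (q * N) (q • K) := by
  rw [mo, mo, monomial_pow, ← pow_mul, mul_comm]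

theorem monN_xv (v : ℕ → B) (k : ℕ) :
    monN 12 (xv v) k = C (Polynomial.C (monN 4 v k)) * mo (dg 8 k) (kt k) := by
  have h : (mo (dg 8 k) (kt k) : Px B) =
      X 3 ^ dg 7 k * X 2 ^ dg 6 k * X 1 ^ dg 5 k * X 0 ^ dg 4 k * C Polynomial.X ^ dg 8 k := by
    rw [← map_pow, C_apply]
    simp only [X_pow_eq_monomial, monomial_mul, mul_one, add_zero, one_mul]
    rfl
  rw [h]
  simp only [monN, dg, Nat.div_div_eq_div_mul, map_mul, map_pow, map_one]
  simp [xv]
  ring

/-- the array of a functional -/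
def arr (Y : Px B →ₗ[B] B) : Arr B := fun N K => Y (mo N K)

theorem C_C_mul (c : B) (f : Px B) : C (Polynomial.C c) * f = c • f := by
  rw [Algebra.smul_def]
  rfl

theorem add_pow3 {R : Type} [CommRing R] (h3 : (3 : R) = 0) (a b : R) (j : ℕ) :
    (a + b) ^ 3 ^ j = a ^ 3 ^ j + b ^ 3 ^ j := by
  induction j with
  | zero => simp only [pow_zero, pow_one]
  | succ j ih =>
    rw [pow_succ, pow_mul, pow_mul, pow_mul, ih]
    linear_combination (a ^ 3 ^ j * b ^ 3 ^ j * (a ^ 3 ^ j + b ^ 3 ^ j)) * h3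

theorem cast_pow3 {R : Type} [CommRing R] (h3 : (3 : R) = 0) (n j : ℕ) :
    (n : R) ^ 3 ^ j = n := by
  induction n with
  | zero => rw [Nat.cast_zero, zero_pow (by positivity)]
  | succ n ih => rw [Nat.cast_succ, add_pow3 h3, ih, one_pow]

theorem three_Px (h3 : (3 : B) = 0) : (3 : Px B) = 0 := by
  rw [← map_ofNat (C.comp Polynomial.C : B →+* Px B), h3, map_zero]

theorem apL_arr (h3 : (3 : B) = 0) (v : ℕ → B) (j : ℕ) (Y : Px B →ₗ[B] B) (P : Pl) (N : ℕ)
    (K : ℕ →₀ ℕ) : apL v (3 ^ j) (arr Y) P N K = Y (den (xv v) P ^ 3 ^ j * mo N K) := by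
  induction P with
  | nil => rw [den, zero_pow (by positivity), zero_mul, map_zero, apL]
  | cons t P ih =>
    rw [apL, ih, den, add_pow3 (three_Px h3), add_mul, map_add, mul_pow, cast_pow3 (three_Px h3),
      monN_xv, mul_pow, mo_pow, ← map_pow, ← map_pow, mul_assoc, mul_assoc, mul_assoc (C _), mo_mul,
      C_C_mul, ← nsmul_eq_mul (α := Px B), map_nsmul, map_smul, add_comm N, add_comm K,
      nsmul_eq_mul, smul_eq_mul, arr]

/-- the substitution `t ↦ t + r` on the lowest `j` digits of the exponent of `t = X n` -/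
def lam (r : Px B) (n j : ℕ) : Px B →ₗ[Polynomial B] Px B :=
  (basisMonomials ℕ _).constr (Polynomial B) fun K =>
    (X n + r) ^ (K n % 3 ^ j) * monomial (K - Finsupp.single n (K n % 3 ^ j)) 1

theorem lam_monomial (r : Px B) (n j : ℕ) (K : ℕ →₀ ℕ) (c : Polynomial B) :
    lam r n j (monomial K c) =
      (X n + r) ^ (K n % 3 ^ j) * monomial (K - Finsupp.single n (K n % 3 ^ j)) c := by
  have h := (basisMonomials ℕ (Polynomial B)).constr_basis (Polynomial B) (fun K =>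
    (X n + r) ^ (K n % 3 ^ j) * monomial (K - Finsupp.single n (K n % 3 ^ j)) 1) K
  rw [coe_basisMonomials] at h
  rw [← mul_one c, ← smul_eq_mul, map_smul, map_smul, lam, h, map_smul, mul_smul_comm]

/-- the elements over which `Λ` is linear -/
def cmt (Λ : Px B →ₗ[Polynomial B] Px B) : Subring (Px B) where
  carrier := {q | ∀ f, Λ (q * f) = q * Λ f}
  one_mem' f := by rw [one_mul, one_mul]
  zero_mem' f := by rw [zero_mul, zero_mul, map_zero]
  mul_mem' {a b} ha hb f := by rw [mul_assoc, ha, hb, mul_assoc]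
  add_mem' {a b} ha hb f := by rw [add_mul, map_add, ha, hb, add_mul]
  neg_mem' {a} ha f := by
    rw [show -a * f = -(a * f) by ring, map_neg, ha]
    ring

theorem C_mem_cmt (Λ : Px B →ₗ[Polynomial B] Px B) (c : Polynomial B) : C c ∈ cmt Λ := fun f => by
  rw [← smul_eq_C_mul, map_smul, smul_eq_C_mul]

theorem X_mem_cmt (r : Px B) {n m : ℕ} (h : m ≠ n) (j : ℕ) : X m ∈ cmt (lam r n j) := fun f => by
  induction f using MvPolynomial.induction_on' with
  | add x y hx hy => rw [mul_add, map_add, hx, hy, map_add, mul_add]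
  | monomial K c =>
    rw [X, monomial_mul, lam_monomial, lam_monomial, mul_left_comm, monomial_mul,
      Finsupp.add_apply, Finsupp.single_eq_of_ne h.symm, zero_add, add_tsub_assoc_of_le]
    exact Finsupp.single_le_iff.2 (Nat.mod_le _ _)

theorem monomial_mem_cmt (r : Px B) {n : ℕ} (j : ℕ) {K : ℕ →₀ ℕ} (h : K n = 0)
    (c : Polynomial B) : monomial K c ∈ cmt (lam r n j) := by
  rw [monomial_eq]
  refine mul_mem (C_mem_cmt _ c) (prod_mem fun m hm => pow_mem (X_mem_cmt r ?_ j) _)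
  rintro rfl
  exact Finsupp.mem_support_iff.1 hm h

theorem den_mem_cmt (v : ℕ → B) (r : Px B) {n : ℕ} (j : ℕ) {P : Pl}
    (h : ∀ t ∈ P, kt t.2 n = 0) : den (xv v) P ∈ cmt (lam r n j) := by
  induction P with
  | nil => exact zero_mem _
  | cons t P ih =>
    rw [den, monN_xv]
    exact add_mem (mul_mem (natCast_mem _ _) (mul_mem (C_mem_cmt _ _)
      (monomial_mem_cmt r j (h t List.mem_cons_self) _)))
      (ih fun u hu => h u (List.mem_cons_of_mem _ hu))

theorem lam_mo (r : Px B) (n j N : ℕ) {K : ℕ →₀ ℕ} (h : K n = 0) (e : ℕ) :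
    lam r n j (mo N (K + Finsupp.single n e)) =
      (X n + r) ^ (e % 3 ^ j) * X n ^ (3 ^ j * (e / 3 ^ j)) * mo N K := by
  rw [mo, lam_monomial, Finsupp.add_apply, h, zero_add, Finsupp.single_eq_same,
    add_tsub_assoc_of_le (Finsupp.single_le_iff.2 (by simpa using Nat.mod_le _ _)),
    ← Finsupp.single_tsub, mul_assoc, X_pow_eq_monomial, mo, monomial_mul, one_mul, add_comm K,
    show e - e % 3 ^ j = 3 ^ j * (e / 3 ^ j) from Nat.sub_eq_of_eq_add (Nat.div_add_mod e _).symm]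

theorem apL_sub (v : ℕ → B) {P : Pl} {n : ℕ} (h : ∀ t ∈ P, kt t.2 n = 0) (q e : ℕ) (Y : Arr B)
    (N : ℕ) (K : ℕ →₀ ℕ) : apL v q (fun N K => Y N (K - Finsupp.single n e)) P N K =
      apL v q Y P N (K - Finsupp.single n e) := by
  induction P with
  | nil => rfl
  | cons t P ih =>
    rw [apL, apL, ih fun u hu => h u (List.mem_cons_of_mem _ hu)]
    congr 3
    ext m
    by_cases hm : m = n
    · subst hm
      simp [h t List.mem_cons_self]
    · simp [Finsupp.single_eq_of_ne hm]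

theorem step_arr (h3 : (3 : B) = 0) (v : ℕ → B) {P : Pl} {n : ℕ} (h : ∀ t ∈ P, kt t.2 n = 0)
    (j : ℕ) (Y : Px B →ₗ[B] B) :
    step v P n j (arr (Y ∘ₗ (lam (den (xv v) P) n j).restrictScalars B)) =
      arr (Y ∘ₗ (lam (den (xv v) P) n (j + 1)).restrictScalars B) := by
  set r := den (xv v) P with hr
  set Z := Y ∘ₗ (lam r n j).restrictScalars B with hZ
  have hq : ∀ f, lam r n j (r ^ 3 ^ j * f) = _ := pow_mem (den_mem_cmt v r j h) _
  have h1 (W : Px B →ₗ[B] B) : apS v P n (3 ^ j) (arr W) = fun N K =>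
      arr (W ∘ₗ LinearMap.mulLeft B (r ^ 3 ^ j)) N (K - Finsupp.single n (3 ^ j)) :=
    funext₂ fun N K => apL_arr h3 v j W P N _
  funext N K
  obtain ⟨K, e, hK, rfl⟩ : ∃ K' e, K' n = 0 ∧ K = K' + Finsupp.single n e :=
    ⟨K.erase n, K n, Finsupp.erase_same, (Finsupp.erase_add_single n K).symm⟩
  have hp : 0 < 3 ^ j := by positivity
  obtain ⟨a, d, m, ha, hd, rfl⟩ : ∃ a d m, a < 3 ^ j ∧ d < 3 ∧ e = a + 3 ^ j * (d + 3 * m) :=
    ⟨e % 3 ^ j, e / 3 ^ j % 3, e / 3 ^ j / 3, Nat.mod_lt _ hp, Nat.mod_lt _ (by norm_num), by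
      rw [Nat.mod_add_div, Nat.mod_add_div]⟩
  have h2 (k : ℕ) : K + Finsupp.single n (a + 3 ^ j * (k + 1)) - Finsupp.single n (3 ^ j) =
      K + Finsupp.single n (a + 3 ^ j * k) := by
    rw [mul_add_one, ← add_assoc a, Finsupp.single_add, ← add_assoc, add_tsub_cancel_right]
  have h4 (k : ℕ) : lam r n j (mo N (K + Finsupp.single n (a + 3 ^ j * k))) =
      (X n + r) ^ a * (X n ^ 3 ^ j) ^ k * mo N K := by
    rw [lam_mo r n j N hK, Nat.add_mul_mod_self_left, Nat.mod_eq_of_lt ha,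
      Nat.add_mul_div_left _ _ hp, Nat.div_eq_of_lt ha, zero_add, pow_mul]
  have h5 : a + 3 ^ j * d < 3 ^ (j + 1) := by
    rw [pow_succ]
    nlinarith
  have h6 : lam r n (j + 1) (mo N (K + Finsupp.single n (a + 3 ^ j * (d + 3 * m)))) =
      (X n + r) ^ a * (X n ^ 3 ^ j + r ^ 3 ^ j) ^ d * (X n ^ 3 ^ j) ^ (3 * m) * mo N K := by
    rw [lam_mo r n _ N hK, mul_add, ← add_assoc, ← mul_assoc, ← pow_succ, Nat.add_mul_mod_self_left,
      Nat.mod_eq_of_lt h5, Nat.add_mul_div_left _ _ (by positivity), Nat.div_eq_of_lt h5, zero_add,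
      pow_add, pow_mul, add_pow3 (three_Px h3), ← pow_mul (X n) _ (3 * m), ← mul_assoc, ← pow_succ]
  have h7 : (K + Finsupp.single n (a + 3 ^ j * (d + 3 * m)) : ℕ →₀ ℕ) n / 3 ^ j % 3 = d := by
    rw [Finsupp.add_apply, hK, zero_add, Finsupp.single_eq_same, Nat.add_mul_div_left _ _ hp,
      Nat.div_eq_of_lt ha, zero_add, Nat.add_mul_mod_self_left, Nat.mod_eq_of_lt hd]
  rw [step, h7, h1, apS, apL_sub v h, apL_arr h3]
  simp only [arr, hZ, LinearMap.comp_apply, LinearMap.restrictScalars_apply,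
    LinearMap.mulLeft_apply, ← hr, hq, h6]
  interval_cases d
  · rw [h4]
    simp
  · rw [h4, add_comm 1, h2, h4, Nat.cast_one, one_mul, if_neg (by norm_num), add_zero, ← map_add]
    congr 1
    ring
  · rw [h4, add_comm 2, h2, h2, h4, h4, if_pos rfl, ← nsmul_eq_mul, ← map_nsmul, ← map_add,
      ← map_add]
    congr 1
    ring

theorem steps_arr (h3 : (3 : B) = 0) (v : ℕ → B) {P : Pl} {n : ℕ} (h : ∀ t ∈ P, kt t.2 n = 0)
    (Y : Px B →ₗ[B] B) (j : ℕ) :
    steps v P n (arr Y) j = arr (Y ∘ₗ (lam (den (xv v) P) n j).restrictScalars B) := by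
  induction j with
  | zero =>
    funext N K
    simp [steps, arr, mo, lam_monomial, Nat.mod_one]
  | succ j ih => rw [steps, ih, step_arr h3 v h]

theorem lam_mul_mo {r q : Px B} {n j e : ℕ} (hq : q ∈ cmt (lam r n j)) (he : e < 3 ^ j) (N : ℕ)
    {K : ℕ →₀ ℕ} (hK : K n = 0) :
    lam r n j (q * mo N (K + Finsupp.single n e)) = q * (X n + r) ^ e * mo N K := by
  rw [hq, lam_mo r n j N hK, Nat.mod_eq_of_lt he, Nat.div_eq_of_lt he, mul_zero, pow_zero, mul_one,
    mul_assoc]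

/-- `r m` only contains the `t_(n+1)` with `n < m` -/
def Tri (r : ℕ → Pl) : Prop := ∀ n < 4, ∀ m ≤ n, ∀ t ∈ r m, dg (4 + n) t.2 = 0

instance (r : ℕ → Pl) : Decidable (Tri r) := by unfold Tri; infer_instance

theorem kt_apply (k : ℕ) {n : ℕ} (hn : n < 4) : kt k n = dg (4 + n) k := by
  interval_cases n <;> simp [kt, kk]

/-- **The substitution `t ↦ t + r`** on an array of values. -/
theorem allSteps_arr (h3 : (3 : B) = 0) (v : ℕ → B) {r : ℕ → Pl} (h : Tri r) (Y : Px B →ₗ[B] B)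
    (N : ℕ) {a b c d : ℕ} (ha : a < 243) (hb : b < 27) (hc : c < 9) (hd : d < 3) :
    allSteps v r (arr Y) N (kk a b c d) =
      Y ((X 0 + den (xv v) (r 0)) ^ a * (X 1 + den (xv v) (r 1)) ^ b *
        (X 2 + den (xv v) (r 2)) ^ c * (X 3 + den (xv v) (r 3)) ^ d * mo N 0) := by
  have h1 (n) (hn : n < 4) (m) (hm : m ≤ n) : ∀ t ∈ r m, kt t.2 n = 0 := fun t ht =>
    (kt_apply _ hn).trans (h n hn m hm t ht)
  have h2 (n) (hn : n < 4) (m) (hm : m < n) (s j e) :
      (X m + den (xv v) (r m)) ^ e ∈ cmt (lam s n j) :=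
    pow_mem (add_mem (X_mem_cmt s hm.ne j) (den_mem_cmt v s j (h1 n hn m hm.le))) e
  rw [allSteps, steps_arr h3 v (h1 3 (by norm_num) 3 le_rfl),
    steps_arr h3 v (h1 2 (by norm_num) 2 le_rfl), steps_arr h3 v (h1 1 (by norm_num) 1 le_rfl),
    steps_arr h3 v (h1 0 (by norm_num) 0 le_rfl), arr, kk, ← one_mul (mo _ _),
    ← zero_add (Finsupp.single 3 d)]
  simp only [LinearMap.comp_apply, LinearMap.restrictScalars_apply]
  rw [lam_mul_mo (j := 5) (one_mem _) ha N (by simp), one_mul,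
    lam_mul_mo (j := 3) (h2 1 (by norm_num) 0 (by norm_num) _ _ _) hb N (by simp),
    lam_mul_mo (j := 2) (mul_mem (h2 2 (by norm_num) 0 (by norm_num) _ _ _)
      (h2 2 (by norm_num) 1 (by norm_num) _ _ _)) hc N (by simp),
    lam_mul_mo (j := 1) (mul_mem (mul_mem (h2 3 (by norm_num) 0 (by norm_num) _ _ _)
      (h2 3 (by norm_num) 1 (by norm_num) _ _ _)) (h2 3 (by norm_num) 2 (by norm_num) _ _ _)) hd N
      (by simp)]

end Vale.Agent.P236B

end
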