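import Vale.Agent.P236B.Hom
import Vale.Agent.P257.H80.HazVV
import Vale.Agent.P251.F.F3Main

/-!
# P236B: weights in `Cx K n`; the images of `v₁` and `t₁`
-/

noncomputable section

namespace Vale.Agent.P236B

open Vale.Agent.P217 Vale.Agent.P251.F Vale.Agent.P251.F.F3 Vale.Agent.P257.H80 MvPolynomial
  Vale.Agent.P236T LawRing Finset

variable (p : ℕ) [hp : Fact p.Prime] {R K : Type} [CommRing R] [CommRing K] {n : ℕ}

/-- the weight of the monomial `v ^ α t ^ β` -/
def wtm (β : Fin n × ℕ →₀ ℕ) (α : ℕ →₀ ℕ) : ℕ :=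
  Finsupp.weight (wv p) α + Finsupp.weight (fun im : Fin n × ℕ => wv p im.2) β

omit hp in
theorem prod_sc {σ : Type*} (u : R) (wt : σ → ℕ) (x : σ → R) (β : σ →₀ ℕ) :
    (β.prod fun i e => (u ^ wt i * x i) ^ e) =
      u ^ Finsupp.weight wt β * β.prod fun i e => x i ^ e := by
  rw [Finsupp.weight_apply, Finsupp.sum, ← Finset.prod_pow_eq_pow_sum, Finsupp.prod, Finsupp.prod,
    ← Finset.prod_mul_distrib]
  refine Finset.prod_congr rfl fun i _ => ?_
  rw [mul_pow, ← pow_mul, smul_eq_mul, mul_comm (β i)]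

omit hp in
theorem evP_scale_monomial (κ : K →+* R) (c : Path R) (u : Rˣ) (β : Fin n × ℕ →₀ ℕ) (α : ℕ →₀ ℕ)
    (a : K) : evP κ (c.scale p u) (monomial β (monomial α a)) =
      (u : R) ^ wtm p β α * evP κ c (monomial β (monomial α a)) := by
  have h1 : (α.prod fun i e => (c.scale p u).v (X i) ^ e) =
      α.prod fun i e => ((u : R) ^ wv p i * c.v (X i)) ^ e :=
    Finsupp.prod_congr fun i _ => congrArg (· ^ α i) (vmk_X _ i)
  rw [evP, evP, eval₂Hom_monomial, eval₂Hom_monomial, kx, kx, eval₂Hom_monomial,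
    eval₂Hom_monomial, h1, prod_sc, wtm, pow_add]
  have h2 := prod_sc (u : R) (fun im : Fin n × ℕ => wv p im.2) (fun im => c.t im.1 im.2) β
  refine (congrArg _ h2).trans ?_
  ring

omit hp in
theorem BWt.zero (w : ℤ) : BWt p w (0 : Cx K n) := fun _ _ _ _ _ => by simp

omit hp in
theorem BWt.add {w : ℤ} {x y : Cx K n} (hx : BWt p w x) (hy : BWt p w y) : BWt p w (x + y) :=
  fun R _ κ c u => by rw [map_add, map_add, hx, hy, mul_add]

omit hp in
theorem BWt.neg {w : ℤ} {x : Cx K n} (hx : BWt p w x) : BWt p w (-x) :=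
  fun R _ κ c u => by rw [map_neg, map_neg, hx, mul_neg]

omit hp in
theorem BWt.mul {w v : ℤ} {x y : Cx K n} (hx : BWt p w x) (hy : BWt p v y) :
    BWt p (w + v) (x * y) := fun R _ κ c u => by
  rw [map_mul, map_mul, hx, hy, zpow_add, Units.val_mul]
  ring

omit hp in
theorem BWt.sum {ι : Type*} {w : ℤ} {s : Finset ι} {f : ι → Cx K n}
    (h : ∀ i ∈ s, BWt p w (f i)) : BWt p w (∑ i ∈ s, f i) := fun R _ κ c u => by
  rw [map_sum, map_sum, Finset.mul_sum]
  exact Finset.sum_congr rfl fun i hi => h i hi R κ c u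

omit hp in
theorem bWt_monomial (β : Fin n × ℕ →₀ ℕ) (α : ℕ →₀ ℕ) (a : K) :
    BWt p (wtm p β α) (monomial β (monomial α a) : Cx K n) := fun R _ κ c u => by
  rw [evP_scale_monomial, zpow_natCast, Units.val_pow_eq_pow_val]

omit hp in
/-- Homogeneity in terms of monomials. -/
theorem bWt_iff {w : ℤ} {y : Cx K n} :
    BWt p w y ↔ ∀ β α, coeff α (coeff β y) ≠ 0 → (wtm p β α : ℤ) = w := by
  classical
  refine ⟨fun h β α hne => ?_, fun h => ?_⟩
  · let ι : Cx K n →+* LaurentPolynomial (Cx K n) := LaurentPolynomial.C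
    let E : Cx K n →+* LaurentPolynomial (Cx K n) :=
      evP (ι.comp (kap K n)) (((uP K n).map ι).scale p (uT _))
    have h0 : ∀ (z : Cx K n) (j k : ℤ), (LaurentPolynomial.T j * ι z).coeff k =
        if j = k then z else 0 := fun z j k => by
      rw [mul_comm, ← LaurentPolynomial.single_eq_C_mul_T, AddMonoidAlgebra.coeff_single,
        Finsupp.single_apply]
    have h1 : ∀ z : Cx K n, coeff α (coeff β ((E z).coeff (wtm p β α))) = coeff α (coeff β z) := by
      intro z
      induction z using MvPolynomial.induction_on' with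
      | add x y hx hy => simp only [map_add, AddMonoidAlgebra.coeff_add, Finsupp.add_apply,
          coeff_add, hx, hy]
      | monomial β' b =>
        induction b using MvPolynomial.induction_on' with
        | add x y hx hy => simp only [map_add, AddMonoidAlgebra.coeff_add, Finsupp.add_apply,
            coeff_add, hx, hy]
        | monomial α' a =>
          rw [evP_scale_monomial, evP_map, evP_uP, ← Units.val_pow_eq_pow_val, ← zpow_natCast,
            uT_zpow, h0]
          split_ifs with h2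
          · rfl
          · rw [coeff_zero, coeff_zero, coeff_monomial]
            split_ifs with h3
            · rw [coeff_monomial, if_neg]
              rintro rfl
              exact h2 (by rw [h3])
            · rfl
    have h2 := h1 y
    rw [show E y = _ from h (LaurentPolynomial (Cx K n)) _ _ _, evP_map, evP_uP, uT_zpow, h0] at h2
    by_contra h3
    rw [if_neg (Ne.symm h3), coeff_zero, coeff_zero] at h2
    exact hne h2.symm
  · rw [y.as_sum]
    refine BWt.sum p fun β _ => ?_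
    rw [(coeff β y).as_sum, map_sum]
    refine BWt.sum p fun α hα => ?_
    rw [← h β α (mem_support_iff.1 hα)]
    exact bWt_monomial p β α _

theorem BWt.dB [ZP p K] {w : ℤ} {y : Cx K n} (hy : BWt p w y) : BWt p w (dB p n y) := by
  rw [dB_apply]
  refine BWt.sum p fun i _ R _ κ c u => ?_
  rw [map_zsmul, map_zsmul, hy.cm p, mul_smul_comm]

theorem BWt.cpB [ZP p K] {a b : ℕ} (h : a + b = n) {v w : ℤ} {x : Cx K a} {y : Cx K b}
    (hx : BWt p v x) (hy : BWt p w y) : BWt p (v + w) (cpB p h x y) :=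
  (hx.cm p _).mul p (hy.cm p _)

/-! ### change of the coefficient ring -/

theorem datL_pt (κ : K →+* R) (v : VPt R) : (datL p K).pt κ v = Laz.lift (hz p v) := by
  rw [← (datL p K).law_pt κ v]
  exact (Laz.lift_map_univ _).symm

theorem piL_change {K' : Type} [CommRing K'] [ZP p K] [ZP p K'] (ψ : K →+* K') (x : Cob Laz n) :
    (datL p K').pi n x = evP ((kap K' n).comp ψ) (uP K' n) ((datL p K).pi n x) := by
  rw [Dat.evP_pi, Dat.pi, Dat.ch, Dat.ch, datL_pt, datL_pt]

theorem tgt_X_zero [ZP p R] (v : VPt R) (t : ℕ → R) : tgt p v t (X 0) = v (X 0) + p * t 0 := by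
  have h1 : mm p 1 = X 0 := by simp [mm_succ, mm_zero]
  have h := tgt_mm p v t 1
  rw [h1, Finset.sum_range_succ, Finset.sum_range_one] at h
  simpa [h1, mm_zero] using h

theorem piL_v (i : ℕ) [ZP p K] :
    (datL p K).pi n (C (Laz.v p i)) = C (vv p i (hz p (vmk X))) := by
  rw [Dat.pi_C]
  exact congrArg C (Laz.lift_v _ _ _)

/-- `v₁` goes to `v₁`. -/
theorem pi_v1 : dat3.pi n (rd n (C (Laz.v 3 1))) = C (X 0) := by
  rw [pi_rd, piL_v, vv_haz_of_zero 3 (k := 0) (CharP.cast_eq_zero _ 3) (by simp), vmk_X]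

theorem exists_v1 : ∃ a : ℤ_[3], PadicInt.toZMod a = 1 ∧
    vv 3 1 (hz 3 (vmk X : VPt (MvPolynomial ℕ ℤ_[3]))) = C a * X 0 := by
  classical
  set c := vv 3 1 (hz 3 (vmk X : VPt (MvPolynomial ℕ ℤ_[3]))) with hc
  have h1 := (bWt_iff 3).1 ((datL 3 ℤ_[3]).bWt_pi isWt_v1) 0
  rw [piL_v, coeff_zero_C, ← hc] at h1
  have h2 : c = C (coeff (Finsupp.single 0 1) c) * X 0 := by
    ext α
    rw [coeff_C_mul, coeff_X]
    split_ifs with h
    · rw [h, mul_one]
    · rw [mul_zero]
      by_contra h3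
      have h4 : Finsupp.weight (wv 3) α = 2 := by
        have := h1 α h3
        rw [wtm, map_zero, add_zero] at this
        exact_mod_cast this
      refine h (Finsupp.ext fun i => ?_)
      have h5 : ∀ j, j ≠ 0 → α j = 0 := fun j hj => by
        have h6 := Finsupp.le_weight_of_ne_zero' (wv 3) (s := j) (f := α)
        have h7 : 3 ^ 2 ≤ 3 ^ (j + 1) := Nat.pow_le_pow_right (by norm_num) (by omega)
        by_contra h8
        have := h6 h8
        rw [h4, wv] at this
        omega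
      have h6 : α = Finsupp.single 0 (α 0) := Finsupp.ext fun j => by
        by_cases hj : j = 0
        · rw [hj, Finsupp.single_eq_same]
        · rw [h5 j hj, Finsupp.single_eq_of_ne hj]
      rw [h6, Finsupp.weight_single, smul_eq_mul] at h4
      rw [h6, show α 0 = 1 by simp [wv] at h4; omega]
  refine ⟨_, ?_, h2⟩
  have h3 := congrArg (MvPolynomial.map (PadicInt.toZMod (p := 3))) h2
  rw [hc, ← vv_map, hz_map, vv_haz_of_zero 3 (k := 0) (CharP.cast_eq_zero _ 3) (by simp),
    RingHom.comp_apply, vmk_X, map_mul, map_C, map_X] at h3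
  have h4 := congrArg (coeff (Finsupp.single 0 1)) h3
  rw [coeff_C_mul, coeff_X, if_pos rfl, mul_one] at h4
  exact h4.symm

theorem exists_t1 : ∃ a : ℤ_[3], PadicInt.toZMod a = 1 ∧
    (datL 3 ℤ_[3]).pi 1 t1 = C (C a) * X (0, 0) := by
  obtain ⟨a, ha, h⟩ := exists_v1
  refine ⟨a, ha, ?_⟩
  have h1 := congrArg ((datL 3 ℤ_[3]).pi 1) three_t1
  rw [map_zsmul, Dat.pi_d, piL_v, h, dB_apply, Finset.sum_range_succ, Finset.sum_range_one, cm, cm,
    evP_C, evP_C, map_mul, map_mul, kx_C, kx_C, kx_X, kx_X] at h1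
  have h2 : ((uP ℤ_[3] 1).res 3 (sk 0)).v (X 0) = C (X 0) + 3 * X (0, 0) :=
    (tgt_X_zero 3 _ _).trans (congrArg (· + _) (vmk_X _ _))
  have h3 : ((uP ℤ_[3] 1).res 3 (sk 1)).v (X 0) = C (X 0) := vmk_X _ _
  have h4 : kap ℤ_[3] 1 a = C (C a) := rfl
  have h5 : (3 : Cx ℤ_[3] 1) ≠ 0 := by
    rw [← map_ofNat (kap ℤ_[3] 1) 3]
    exact fun e => (by norm_num : (3 : ℤ_[3]) ≠ 0) (C_injective _ _ (C_injective _ _ (e.trans (by simp))))
  rw [h2, h3, h4] at h1
  refine mul_left_cancel₀ h5 ?_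
  simp only [zsmul_eq_mul] at h1
  push_cast at h1
  linear_combination h1

/-- `t₁` goes to `t₁`. -/
theorem pi_t1 : dat3.pi 1 (rd 1 t1) = X (0, 0) := by
  obtain ⟨a, ha, h⟩ := exists_t1
  rw [pi_rd, piL_change 3 PadicInt.toZMod, h, map_mul, evP_C, kx_C, RingHom.comp_apply, ha, map_one,
    one_mul, evP_X]
  rfl

end Vale.Agent.P236B

end
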